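import Vale.Agent.P287Q.Pv.Slc
import Vale.Agent.P269.Prj.Quo

/-!
# The variety of a multicone: compactness, charts
-/

set_option linter.unusedSectionVars false

namespace Vale.Agent.P287Q

open Set Function Topology Filter P269 P269.Holo P269.Mono P269.Tq Module

variable {J R E : Type} [Fintype J] [Fintype R] [NormedAddCommGroup E]
  [NormedSpace ℂ E] [FiniteDimensional ℂ E] {π : J → R} {A C : Set (J → ℂ)} {y : J → ℂ}
  {t : R → ℂ} {n : ℕ}

theorem isAct_scl (π : J → R) : IsAct (scl π) univ :=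
  ⟨fun x _ => scl_one x, fun a b _ _ x _ => scl_mul a b x, fun _ _ _ _ => trivial,
    fun _ _ _ _ => an_scl analyticAt_fst analyticAt_snd⟩

theorem lin_scl (π : J → R) (a : R → ℂ) (_ : IsUnit a) : IsLinearMap ℂ (scl π a) :=
  ⟨fun _ _ => funext fun _ => mul_add _ _ _, fun _ _ => funext fun _ => mul_left_comm _ _ _⟩

theorem tendsto_gauge {X : Type*} {l : Filter X} [l.NeBot] {x : X → J → ℂ} {a : X → R → ℂ} {y' : J → ℂ}
    (hy : y ∈ Ust π) (h1 : Tendsto x l (𝓝 y)) (h2 : Tendsto (fun n => scl π (a n) (x n)) l (𝓝 y')) :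
    ∃ t, Tendsto a l (𝓝 t) ∧ y' = scl π t y := by
  choose ρ e1 e2 using hy
  have : Tendsto a l (𝓝 fun r => y' (ρ r) / y (ρ r)) := tendsto_pi_nhds.2 fun r =>
    ((tendsto_pi_nhds.1 h2 (ρ r)).div (tendsto_pi_nhds.1 h1 (ρ r)) (e2 r)).congr'
      (((tendsto_pi_nhds.1 h1 (ρ r)).eventually_ne (e2 r)).mono fun n b => by
        simp only [Pi.div_apply, scl, e1, mul_div_cancel_right₀ _ b])
  exact ⟨_, this, tendsto_nhds_unique h2 ((continuous_scl.tendsto (_, y)).comp (this.prodMk_nhds h1))⟩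

namespace MC

theorem isAct (h : MC π A) : IsAct (scl π) A := (isAct_scl π).mono (subset_univ _) h.inv

theorem fp (h : MC π A) : FP (scl π) A :=
  have := isAct_scl π
  fp_of h.inv h.lc (fun _ _ x hx e => scl_inj (h.sub hx) (e.trans (scl_one x).symm))
    fun _ _ _ _ _ _ h3 _ h5 h6 h7 =>
      let ⟨_, a, _⟩ := tendsto_gauge (h.sub h3) h5 h6
      not_tendsto_atTop_of_tendsto_nhds a.norm h7

theorem nice (h : MC π A) : P291Z.Nice (Spc π A) := have := h.fp; inferInstance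

theorem t2 (h : MC π A) : T2Space (Spc π A) := h.nice.t2

/-- the points with all blocks of sup norm one -/
theorem exists_cpt (h : MC π A) : ∃ K ⊆ A, IsCompact K ∧ ∀ y ∈ A, ∃ t, IsUnit t ∧ scl π t y ∈ K := by
  classical
  let Z : Set (J → ℂ) := {y | (∀ j, ‖y j‖ ≤ 1) ∧ ∀ r, ∃ j, π j = r ∧ ‖y j‖ = 1}
  have c : IsClosed Z := by
    simp only [Z, ofPred_and, ofPred_forall, ofPred_exists]
    exact (isClosed_iInter fun j => isClosed_le (by fun_prop) continuous_const).inter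
      (isClosed_iInter fun r => isClosed_iUnion_of_finite fun j =>
        (isClosed_const (p := π j = r)).inter (isClosed_eq (by fun_prop) continuous_const))
  refine ⟨closure A ∩ Z, fun y a => h.cl y a.1 fun r => (a.2.2 r).imp fun j b =>
    ⟨b.1, norm_ne_zero_iff.1 (ne_of_eq_of_ne (And.right b) one_ne_zero)⟩, (isCompact_closedBall (0 : J → ℂ) 1).of_isClosed_subset
    (isClosed_closure.inter c) fun y a =>
      mem_closedBall_zero_iff.2 ((pi_norm_le_iff_of_nonneg zero_le_one).2 a.2.1), fun y hy => ?_⟩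
  have : ∀ r, ∃ j, π j = r ∧ y j ≠ 0 ∧ ∀ j', π j' = r → ‖y j'‖ ≤ ‖y j‖ := fun r => by
    obtain ⟨j₀, a, b⟩ := h.sub hy r
    obtain ⟨j, c, d⟩ := (Finset.univ.filter (π · = r)).exists_max_image (fun j => ‖y j‖)
      ⟨j₀, by simpa using a⟩
    simp only [Finset.mem_filter, Finset.mem_univ, true_and] at c d
    exact ⟨j, c, norm_pos_iff.1 ((norm_pos_iff.2 b).trans_le (d _ a)), d⟩
  choose ρ e1 e2 e3 using this
  have u : IsUnit fun r => (y (ρ r))⁻¹ := unit_iff.2 fun r => inv_ne_zero (e2 r)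
  refine ⟨_, u, subset_closure (h.inv _ u _ hy), fun j => ?_, fun r => ⟨ρ r, e1 r, ?_⟩⟩
  · rw [scl, norm_mul, norm_inv]
    exact inv_mul_le_one_of_le₀ (e3 _ _ rfl) (norm_nonneg _)
  · rw [scl, e1, inv_mul_cancel₀ (e2 r), norm_one]

theorem compact (h : MC π A) : CompactSpace (Spc π A) := by
  obtain ⟨K, h1, h2, h3⟩ := h.exists_cpt
  have := isCompact_iff_compactSpace.1 h2
  refine ⟨(isCompact_range (Tq.continuous_mk.comp (continuous_inclusion h1))).of_isClosed_subset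
    isClosed_univ fun z _ => ?_⟩
  obtain ⟨⟨z, hz⟩, rfl⟩ := mk_surj z
  obtain ⟨t, a, b⟩ := h3 z hz
  exact ⟨⟨_, b⟩, mk_act a hz _⟩

theorem mk_eq_iff (h : MC π A) {x y : A} :
    Quo.mk (scl π) x = Quo.mk (scl π) y ↔ ∃ t, IsUnit t ∧ y.1 = scl π t x.1 := by
  have := h.isAct
  exact (Sp.mk_eq_iff (act := scl π) (S := A)).trans
    ⟨fun ⟨g, e⟩ => ⟨g, g.isUnit, (congrArg Sp.val e).symm⟩, fun ⟨t, a, e⟩ => ⟨a.unit, Sp.ext e.symm⟩⟩

theorem isOpenQuotientMap (h : MC π A) : IsOpenQuotientMap (Quo.mk (scl π) : A → Spc π A) :=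
  have := h.isAct
  Sp.isOpenQuotientMap_mk (act := scl π) (S := A)

theorem map_mk (h : MC π A) (x : A) : map (Quo.mk (scl π)) (𝓝 x) = 𝓝 (Quo.mk (scl π) x) :=
  h.isOpenQuotientMap.isOpenMap.map_nhds_eq h.isOpenQuotientMap.continuous.continuousAt

/-- neighbourhoods in the variety -/
theorem ev_mk (h : MC π A) (hy : y ∈ A) {p : Spc π A → Prop} :
    (∀ᶠ z in 𝓝 (Quo.mk (scl π) ⟨y, hy⟩), p z) ↔
      ∀ᶠ s in 𝓝 y, ∀ hs : s ∈ A, p (Quo.mk (scl π) ⟨s, hs⟩) := by
  rw [← h.map_mk, eventually_map]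
  refine (eventually_congr (.of_forall fun s => ?_)).trans ((ev_sub hy
    (p := fun s => ∀ hs : s ∈ A, p (Quo.mk (scl π) ⟨s, hs⟩))).trans
    (eventually_congr (.of_forall fun s => ⟨fun a b => a b b, fun a _ => a⟩)))
  exact ⟨fun a _ => a, fun a => a s.2⟩

theorem isClosedEmbedding (h : MC π A) (hC : MC π C) (hs : C ⊆ A) :
    IsClosedEmbedding (qinc (scl π) hs) := by
  have := h.isAct
  have := hC.isAct
  refine isClosedEmbedding_qinc hs ?_
  rw [show (Subtype.val ⁻¹' C : Set A) = Subtype.val ⁻¹' closure C from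
    Set.ext fun x => ⟨fun a => subset_closure a, fun a => hC.cl _ a (h.sub x.2)⟩]
  exact isClosed_closure.preimage continuous_subtype_val

end MC

theorem PV.dim (h : PV π A n) : Dim (scl π) A n := fun y hy => by
  rw [finrank_fintype_fun_eq_card, add_comm]
  exact h.mfd y hy

/-- The points of the variety over a family of points of the cone. -/
def Over (π : J → R) (A : Set (J → ℂ)) {X : Type*} (σ : X → J → ℂ) (φ : X → Spc π A)
    (l : Filter X) : Prop :=
  ∀ᶠ z in l, ∃ h : σ z ∈ A, φ z = Quo.mk (scl π) ⟨σ z, h⟩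

theorem exists_over {X : Type*} [TopologicalSpace X] {σ : X → J → ℂ} {x : X}
    (h : ∀ᶠ z in 𝓝 x, σ z ∈ A) : ∃ φ, Over π A σ φ (𝓝 x) := by
  classical
  exact ⟨fun z => if e : σ z ∈ A then Quo.mk _ ⟨_, e⟩ else Quo.mk _ ⟨_, h.self_of_nhds⟩,
    h.mono fun z a => ⟨a, dif_pos a⟩⟩

theorem Over.cont {X : Type*} [TopologicalSpace X] {σ : X → J → ℂ} {φ : X → Spc π A} {x : X}
    (h : Over π A σ φ (𝓝 x)) (hA : MC π A) (hσ : ContinuousAt σ x) : ContinuousAt φ x := by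
  obtain ⟨a, b⟩ := h.self_of_nhds
  intro U hU
  rw [b] at hU
  rw [mem_map]
  filter_upwards [hσ.eventually ((hA.ev_mk a).1 hU), h] with z c ⟨d, e⟩
  exact Set.mem_of_eq_of_mem (s := U) e (c d)

/-- **A slice is a chart of the variety.** -/
theorem Slc.lh {σ : E → J → ℂ} {x : E} (h : Slc π A σ x) (hA : MC π A) {φ : E → Spc π A}
    (hφ : Over π A σ φ (𝓝 x)) : LH φ x := by
  have := FiniteDimensional.complete ℂ (J → ℂ)
  have hm : ∀ᶠ z in 𝓝 x, map φ (𝓝 z) = 𝓝 (φ z) ∧ ContinuousAt φ z := by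
    filter_upwards [h.eventually, hφ.eventually_nhds] with z a b
    have c := Over.cont b hA a.an.continuousAt
    refine ⟨le_antisymm c fun U hU => ?_, c⟩
    obtain ⟨d, e⟩ := b.self_of_nhds
    obtain ⟨τ, k, k1, k2, k3, k4, -, k5⟩ := a.exists_coord hA isUnit_one
    rw [scl_one] at k1 k2 k3 k4 k5
    rw [e]
    refine (hA.ev_mk d).2 ?_
    filter_upwards [k5, k2.continuousAt.eventually (k4.symm ▸ (Filter.Eventually.and (mem_map.1 hU) b)),
      k1.continuousAt.eventually (k3.symm ▸ eventually_unit isUnit_one)] with s f ⟨g, g1, g2⟩ u hs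
    rwa [show Quo.mk (scl π) (⟨s, hs⟩ : A) = φ (k s) from
      (g2.trans (hA.mk_eq_iff.2 ⟨_, u, (f hs).symm⟩)).symm]
  obtain ⟨U, u1, u2, u3⟩ := eventually_nhds_iff.1 hm
  have hi : ∀ᶠ p in 𝓝 x ×ˢ 𝓝 x, φ p.1 = φ p.2 → p.1 = p.2 := by
    filter_upwards [h.eventually_inj hA, tendsto_fst.eventually hφ, tendsto_snd.eventually hφ]
      with p a ⟨b1, b2⟩ ⟨c1, c2⟩ e
    obtain ⟨t, -, d⟩ := hA.mk_eq_iff.1 (c2.symm.trans (e.symm.trans b2))
    exact (a t d).1
  obtain ⟨V, v1, v2⟩ := eventually_prod_self_iff'.1 hi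
  obtain ⟨O, o1, o2, o3⟩ := mem_nhds_iff.1 (inter_mem (u2.mem_nhds u3) v1)
  have e : IsOpenEmbedding (O.domRestrict φ) := by
    refine .of_continuous_injective_isOpenMap
      (continuous_iff_continuousAt.2 fun z => (u1 z (o1 z.2).1).2.comp
        continuous_subtype_val.continuousAt)
      (fun a b c => Subtype.ext (v2 _ (o1 a.2).2 _ (o1 b.2).2 c))
      (isOpenMap_iff_nhds_le.2 fun z => ?_)
    rw [show O.domRestrict φ = φ ∘ Subtype.val from rfl, ← Filter.map_map,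
      o2.isOpenEmbedding_subtypeVal.map_nhds_eq, (u1 z (o1 z.2).1).1]
    rfl
  exact LH.of_comp_right (f := (Subtype.val : O → E)) (x := ⟨x, o3⟩) (e.lh _)
    (o2.isOpenEmbedding_subtypeVal.lh _)

end Vale.Agent.P287Q
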