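import Vale.Agent.P287Q.Pv.Chow1
import Mathlib.RingTheory.MvPolynomial.WeightedHomogeneous
import Mathlib.RingTheory.Polynomial.Basic
import Mathlib.LinearAlgebra.LinearIndependent.Basic
import Mathlib.FieldTheory.Fixed

/-!
# The theorem of Chow: equations of one multidegree that are weight vectors
-/

set_option linter.unusedSectionVars false

open Set Filter Topology Function MvPolynomial

noncomputable section

namespace Vale.Agent.P287Q

open P269 P269.Holo

variable {J R S : Type} [Fintype J] [Fintype R] [Fintype S] {w : J → S → ℤ} {χ χ' : S → ℤ}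
  {p q : MvPolynomial J ℂ}

theorem whom_iff : WHom w χ p ↔ IsWeightedHomogeneous w p χ := by
  refine forall_congr' fun α => imp_congr mem_support_iff ?_
  rw [Finsupp.weight_apply, Finsupp.sum_fintype _ _ (by simp), funext_iff]
  simp

theorem WHom.mul (h : WHom w χ p) (h' : WHom w χ' q) : WHom w (χ + χ') (p * q) :=
  whom_iff.2 ((whom_iff.1 h).mul (whom_iff.1 h'))

theorem an_eval (p : MvPolynomial J ℂ) (y : J → ℂ) : AnalyticAt ℂ (fun x => eval x p) y :=
  AnalyticOnNhd.eval_mvPolynomial p y trivial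

theorem zpow_fsum {ι : Type*} {a : ℂ} (ha : a ≠ 0) (s : Finset ι) (f : ι → ℤ) :
    a ^ ∑ i ∈ s, f i = ∏ i ∈ s, a ^ f i := by
  induction s using Finset.cons_induction with
  | empty => simp
  | cons i s h ih => rw [Finset.sum_cons, Finset.prod_cons, zpow_add₀ ha, ih]

/-- The value of a weight vector at a translated point. -/
theorem WHom.eval_tw (h : WHom w χ p) {τ : S → ℂ} (hτ : IsUnit τ) (y : J → ℂ) :
    eval (tw w τ y) p = (∏ i, τ i ^ χ i) * eval y p := by
  rw [eval_eq', eval_eq', Finset.mul_sum]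
  refine Finset.sum_congr rfl fun α hα => ?_
  simp only [tw, mul_pow, Finset.prod_mul_distrib, ← Finset.prod_pow]
  rw [Finset.prod_comm, mul_left_comm]
  refine congrArg (· * _) (Finset.prod_congr rfl fun i _ => ?_)
  rw [← h α hα i, zpow_fsum (Pi.isUnit_iff.1 hτ i).ne_zero]
  exact Finset.prod_congr rfl fun j _ => by rw [← zpow_natCast, ← zpow_mul, mul_comm]

theorem tw_bw [DecidableEq R] (π : J → R) (t : R → ℂ) : tw (bw π) t = scl π t :=
  funext₂ fun y j => congrArg (· * y j) ((Finset.prod_eq_single (π j)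
    (fun r _ e => by simp [bw, e]) (by simp)).trans (by simp [bw]))

namespace Chow

/-- Independence of the characters of a torus. -/
theorem indep (s : Finset (S → ℤ)) (c : (S → ℤ) → ℂ)
    (h : ∀ τ : S → ℂ, IsUnit τ → ∑ m ∈ s, (∏ i, τ i ^ m i) * c m = 0) : ∀ m ∈ s, c m = 0 := by
  classical
  let f : (S → ℤ) → (S → ℂˣ) →* ℂ := fun m =>
    { toFun := fun τ => ∏ i, (τ i : ℂ) ^ m i
      map_one' := by simp
      map_mul' := fun a b => by simp [mul_zpow, Finset.prod_mul_distrib] }
  have hf : Injective f := fun m m' e => funext fun i => by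
    have k : ∀ m, f m (Pi.mulSingle i (Units.mk0 2 two_ne_zero)) = ((2 : ℝ) ^ m i : ℝ) := fun m =>
      (Finset.prod_eq_single i (fun r _ e => by simp [e]) (by simp)).trans (by simp)
    have := k m
    rw [e, k] at this
    exact (zpow_right_injective₀ two_pos (by norm_num) (Complex.ofReal_injective this)).symm
  refine linearIndependent_iff'.1 ((linearIndependent_monoidHom (S → ℂˣ) ℂ).comp f hf) s c
    (funext fun τ => ?_)
  rw [Finset.sum_apply]
  exact (Finset.sum_congr rfl fun m _ => mul_comm _ _).trans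
    (h (fun i => τ i) (Pi.isUnit_iff.2 fun i => (τ i).isUnit))

/-- The components of a polynomial that vanishes on an invariant set vanish on it. -/
theorem comp_van {C : Set (J → ℂ)} (hC : TInv w C) (h : ∀ x ∈ C, eval x p = 0) (m : S → ℤ) :
    ∀ x ∈ C, eval x (weightedHomogeneousComponent w m p) = 0 := fun x hx => by
  have f := weightedHomogeneousComponent_finsupp (w := w) p
  by_cases e : weightedHomogeneousComponent w m p = 0
  · rw [e, map_zero]
  refine indep f.toFinset (fun m => eval x (weightedHomogeneousComponent w m p)) (fun τ hτ => ?_) m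
    (f.mem_toFinset.2 e)
  have := h _ (hC τ hτ x hx)
  rw [← sum_weightedHomogeneousComponent w p, finsum_eq_sum _ f, map_sum] at this
  exact (Finset.sum_congr rfl fun m _ => ((whom_iff.2
    (weightedHomogeneousComponent_isWeightedHomogeneous m p)).eval_tw hτ x).symm).trans this

/-- Finitely many weight vectors generate the ideal of an invariant set. -/
theorem exists_gen {C : Set (J → ℂ)} (hC : TInv w C) : ∃ T : Finset (MvPolynomial J ℂ),
    (∀ p ∈ T, p ≠ 0 ∧ (∀ x ∈ C, eval x p = 0) ∧ ∃ m, WHom w m p) ∧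
    ∀ p : MvPolynomial J ℂ, (∀ x ∈ C, eval x p = 0) → p ∈ Ideal.span (T : Set (MvPolynomial J ℂ)) := by
  obtain ⟨T, h1, h2⟩ := Submodule.fg_span_iff_fg_span_finset_subset _ |>.1 (IsNoetherian.noetherian
    (Ideal.span {p : MvPolynomial J ℂ | p ≠ 0 ∧ (∀ x ∈ C, eval x p = 0) ∧ ∃ m, WHom w m p}))
  refine ⟨T, fun p hp => h1 hp, fun p hp => ?_⟩
  rw [← sum_weightedHomogeneousComponent w p, finsum_eq_sum _
    (weightedHomogeneousComponent_finsupp (w := w) p)]
  refine Ideal.sum_mem _ fun m hm => h2.le (Ideal.subset_span ⟨(Finite.mem_toFinset _).1 hm,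
    comp_van hC hp m, m, whom_iff.2 (weightedHomogeneousComponent_isWeightedHomogeneous m p)⟩)

theorem fd_mul (p q : MvPolynomial J ℂ) (y v : J → ℂ) :
    fderiv ℂ (fun x => eval x (p * q)) y v = eval y p * fderiv ℂ (fun x => eval x q) y v +
      eval y q * fderiv ℂ (fun x => eval x p) y v := by
  simp only [map_mul]
  rw [fderiv_fun_mul (an_eval p y).differentiableAt (an_eval q y).differentiableAt]
  rfl

theorem span_van {T : Set (MvPolynomial J ℂ)} {y v : J → ℂ}
    (h : ∀ p ∈ T, eval y p = 0 ∧ fderiv ℂ (fun x => eval x p) y v = 0) (hp : p ∈ Ideal.span T) :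
    eval y p = 0 ∧ fderiv ℂ (fun x => eval x p) y v = 0 := by
  induction hp using Submodule.span_induction with
  | mem p hp => exact h p hp
  | zero => simp
  | add p q _ _ a b =>
    simp only [map_add]
    rw [fderiv_fun_add (an_eval p y).differentiableAt (an_eval q y).differentiableAt,
      _root_.add_apply, a.1, a.2, b.1, b.2, add_zero]
    exact ⟨rfl, rfl⟩
  | smul q p _ a => rw [smul_eq_mul, fd_mul, map_mul, a.1, a.2]; simp

end Chow

theorem fderiv_gv {K : Type} [Fintype K] (g : K → MvPolynomial J ℂ) (y v : J → ℂ) (k : K) :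
    fderiv ℂ (gv g) y v k = fderiv ℂ (fun x => eval x (g k)) y v :=
  congrFun (DFunLike.congr_fun (fderiv_pi fun k => (an_eval (g k) y).differentiableAt) v) k

open Chow Chow1 in
/-- **The theorem of Chow.** -/
theorem chow : CHOW := by
  intro J R S _ _ _ _ π wt C n h hT
  classical
  let W : J → R ⊕ S → ℤ := fun j => Sum.elim (bw π j) (wt j)
  have hW : TInv W C := fun τ hτ y hy => by
    have e : tw W τ y = tw wt (τ ∘ .inr) (scl π (τ ∘ .inl) y) := funext fun j => by
      rw [← tw_bw]
      simp only [tw, W, Fintype.prod_sum_type, Sum.elim_inl, Sum.elim_inr, comp_apply]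
      ring
    have u := Pi.isUnit_iff.1 hτ
    exact e ▸ hT _ (Pi.isUnit_iff.2 fun _ => u _) _ (h.inv _ (Pi.isUnit_iff.2 fun _ => u _) y hy)
  obtain ⟨T, h1, h2⟩ := exists_gen hW
  choose h3 h4 m h5 using fun p : T => h1 p p.2
  let δ : R → ℤ := fun r => ∑ p, |m p (.inl r)| + 1
  have d0 : ∀ r, 0 ≤ ∑ p, |m p (.inl r)| := fun r => Finset.sum_nonneg fun _ _ => abs_nonneg _
  have d1 : ∀ p r, 0 ≤ δ r - m p (.inl r) := fun p r => by
    have := (le_abs_self _).trans (Finset.single_le_sum (f := fun p => |m p (.inl r)|)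
      (fun _ _ => abs_nonneg _) (Finset.mem_univ p))
    simp only [δ]
    omega
  let μ : T × Sec π → MvPolynomial J ℂ := fun x => ∏ r, X (x.2.1 r) ^ (δ r - m x.1 (.inl r)).toNat
  have hμ : ∀ x, WHom W (∑ r, (δ r - m x.1 (.inl r)).toNat • W (x.2.1 r)) (μ x) := fun x =>
    whom_iff.2 (IsWeightedHomogeneous.prod _ _ _ fun r _ => (isWeightedHomogeneous_X _ _ _).pow _)
  have h6 := fun x : T × Sec π => (h5 x.1).mul (hμ x)
  have μ0 : ∀ (y : J → ℂ) p (s : Sec π), (∀ r, y (s.1 r) ≠ 0) → eval y (μ (p, s)) ≠ 0 :=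
    fun y p s hs => by simp [μ, Finset.prod_ne_zero_iff, hs]
  let e := (Fintype.equivFin (T × Sec π)).symm
  refine ⟨_, δ, fun i => (e i).1.1 * μ (e i), fun i s => _, ⟨fun i α hα r => ?_, h.sub,
    fun y hy => ⟨fun k => funext fun i => ?_, fun k => by_contra fun c => ?_⟩, fun y hy v _ k => ?_⟩,
    fun r => by have := d0 r; simp only [δ]; omega, fun i => ⟨mul_ne_zero (h3 _) fun k =>
      μ0 1 _ (e i).2 (fun _ => one_ne_zero) (by rw [show μ _ = 0 from k, map_zero]),
      fun α hα s => h6 (e i) α hα (.inr s)⟩⟩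
  · refine (h6 (e i) α hα (.inl r)).trans ?_
    rw [Pi.add_apply, Finset.sum_apply, Finset.sum_eq_single r (fun r' _ k => by
      simp [W, bw, (e i).2.2, k.symm]) (by simp)]
    simp [W, bw, (e i).2.2, Int.toNat_of_nonneg (d1 _ _)]
  · exact (map_mul _ _ _).trans (mul_eq_zero_of_left (h4 _ y k) _)
  · obtain ⟨s, hs⟩ := exists_sec hy
    obtain ⟨P, p1, p2⟩ := off h hy c
    refine p2 (span_van (v := 0) (fun p hp => ⟨?_, map_zero _⟩) (h2 P p1)).1
    have := congrFun k (e.symm (⟨p, hp⟩, s))
    simp only [gv, e.apply_symm_apply, map_mul] at this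
    exact (mul_eq_zero.1 this).resolve_right (μ0 y _ s hs)
  · obtain ⟨s, hs⟩ := exists_sec (h.sub hy)
    refine jac h hy fun P p1 => (span_van (fun p hp => ⟨h4 ⟨p, hp⟩ y hy, ?_⟩) (h2 P p1)).2
    have := congrFun k (e.symm (⟨p, hp⟩, s))
    rw [fderiv_gv, e.apply_symm_apply, fd_mul, h4 _ y hy, zero_mul, zero_add] at this
    exact (mul_eq_zero.1 this).resolve_left (μ0 y _ s hs)

end Vale.Agent.P287Q
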