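import Vale.Agent.P287Q.Pv.BlL
import Vale.Agent.P287Q.Pv.Chow

/-!
# The blow-up of a smooth projective variety along a smooth subvariety
-/

set_option linter.unusedSectionVars false

namespace Vale.Agent.P287Q

open Set Function Topology Filter P269 P269.Holo Module MvPolynomial

variable {J R S K E E' F : Type} [Fintype J] [Fintype R] [Fintype S] [Fintype K]
  [NormedAddCommGroup E] [NormedSpace ℂ E] [NormedAddCommGroup F] [NormedSpace ℂ F]
  [NormedAddCommGroup E'] [NormedSpace ℂ E'] [FiniteDimensional ℂ E] [FiniteDimensional ℂ F]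
  [FiniteDimensional ℂ E'] {π : J → R} {A C : Set (J → ℂ)} {y : J → ℂ} {u : K → ℂ}
  {w : J ⊕ K → ℂ} {g : K → MvPolynomial J ℂ} {δ : R → ℤ} {n m : ℕ} {t : R → ℂ}

/-- the character with exponents `δ` -/
noncomputable def cha (δ : R → ℤ) (t : R → ℂ) : ℂ := ∏ r, t r ^ δ r

theorem cha_ne (ht : IsUnit t) : cha δ t ≠ 0 :=
  Finset.prod_ne_zero_iff.2 fun r _ => zpow_ne_zero _ (unit_iff.1 ht r)

theorem cha_one : cha δ 1 = 1 := by simp [cha]

theorem an_cha {P : Type*} [NormedAddCommGroup P] [NormedSpace ℂ P] {t : P → R → ℂ} {q : P}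
    (h : AnalyticAt ℂ t q) (hu : IsUnit (t q)) : AnalyticAt ℂ (fun p => cha δ (t p)) q :=
  Finset.analyticAt_fun_prod _ fun r _ => (analyticAt_pi_iff.1 h r).fun_zpow (unit_iff.1 hu r)

theorem scl_blP (t : Option R → ℂ) (y : J → ℂ) (u : K → ℂ) :
    scl (blP K π) t (Sum.elim y u) = Sum.elim (scl π (t ∘ some) y) (t none • u) :=
  funext fun j => j.rec (fun _ => rfl) fun _ => rfl

theorem scl_blP_inl (t : Option R → ℂ) (w : J ⊕ K → ℂ) :
    scl (blP K π) t w ∘ .inl = scl π (t ∘ some) (w ∘ .inl) := rfl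

theorem scl_blP_inr (t : Option R → ℂ) (w : J ⊕ K → ℂ) :
    scl (blP K π) t w ∘ .inr = t none • (w ∘ .inr) := rfl

theorem mem_Ust_blP : w ∈ Ust (blP K π) ↔ w ∘ .inl ∈ Ust π ∧ w ∘ .inr ≠ 0 := by
  refine ⟨fun h => ⟨fun r => ?_, ?_⟩, fun h r => ?_⟩
  · obtain ⟨j | k, a, b⟩ := h (some r)
    exacts [⟨j, Option.some.inj a, b⟩, nomatch a]
  · obtain ⟨j | k, a, b⟩ := h none
    exacts [(nomatch a), ne_iff.2 ⟨k, b⟩]
  rcases r with _ | r
  · obtain ⟨k, b⟩ := ne_iff.1 h.2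
    exact ⟨.inr k, rfl, b⟩
  · obtain ⟨j, a, b⟩ := h.1 r
    exact ⟨.inl j, congrArg some a, b⟩

theorem unit_option {t : Option R → ℂ} : IsUnit t ↔ IsUnit (t ∘ some) ∧ t none ≠ 0 := by
  simp only [unit_iff, Option.forall, and_comm, comp_apply]

theorem fderiv_elim₂ {P : Type*} [NormedAddCommGroup P] [NormedSpace ℂ P] {a : P → J → ℂ}
    {b : P → K → ℂ} {q : P} (ha : AnalyticAt ℂ a q) (hb : AnalyticAt ℂ b q) (v : P) :
    fderiv ℂ (fun p => (Sum.elim (a p) (b p) : J ⊕ K → ℂ)) q v =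
      Sum.elim (fderiv ℂ a q v) (fderiv ℂ b q v) := by
  have h1 := congr($(fderiv_comp_an (an_pre Sum.inl _) (an_elim ha hb)) v)
  have h2 := congr($(fderiv_comp_an (an_pre Sum.inr _) (an_elim ha hb)) v)
  rw [ContinuousLinearMap.comp_apply, fderiv_pre] at h1 h2
  exact (Sum.elim_comp_inl_inr _).symm.trans (congrArg₂ Sum.elim h1.symm h2.symm)

theorem tinv_bl {wt : J → S → ℤ} {ω : K → S → ℤ} (hA : TInv wt A)
    (hm : ∀ y ∈ A, ∃ k, MfdAt A k y) (hg : ∀ k, WHom wt (ω k) (g k)) :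
    TInv (Sum.elim wt ω) (blA A g) := fun τ hτ w hw => by
  have := blA_diag (c := fun j => ∏ s, τ s ^ wt j s) (d := fun k => ∏ s, τ s ^ ω k s)
    (unit_iff.2 fun k => cha_ne hτ) one_ne_zero (hA τ hτ) hm
    (fun y => funext fun k => (hg k).eval_tw hτ y) (y := w ∘ .inl) (u := w ∘ .inr) hw
  rw [one_smul] at this
  exact Set.mem_of_eq_of_mem (funext fun j => j.rec (fun _ => rfl) fun _ => rfl) this

theorem blE_tw {wt : J → S → ℤ} {ω : K → S → ℤ} (hg : ∀ k, WHom wt (ω k) (g k)) {τ : S → ℂ}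
    (hτ : IsUnit τ) (hw : w ∈ blA A g) : blE g (tw (Sum.elim wt ω) τ w) = blE g w := by
  obtain ⟨k, hk⟩ := ne_iff.1 hw.2.1
  refine blE_eq (ne_iff.2 ⟨k, mul_ne_zero (cha_ne hτ) hk⟩) (funext fun k => ?_)
  exact ((hg k).eval_tw hτ (w ∘ .inl)).trans ((congrArg _ (congrFun (blE_spec hw) k)).trans
    (mul_left_comm _ _ _))

variable [DecidableEq R]

theorem gv_scl (hg : ∀ k, WHom (bw π) δ (g k)) (ht : IsUnit t) (y : J → ℂ) :
    gv g (scl π t y) = cha δ t • gv g y := funext fun k => tw_bw π t ▸ (hg k).eval_tw ht y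

theorem blE_scl (hg : ∀ k, WHom (bw π) δ (g k)) {t : Option R → ℂ} (ht : IsUnit t)
    (hw : w ∈ blA A g) :
    blE g (scl (blP K π) t w) = cha δ (t ∘ some) / t none * blE g w := by
  obtain ⟨a, b⟩ := unit_option.1 ht
  refine blE_eq (smul_ne_zero b hw.2.1) ?_
  rw [scl_blP_inl, scl_blP_inr, gv_scl hg a, blE_spec hw, smul_smul, smul_smul, mul_right_comm,
    div_mul_cancel₀ _ b]

namespace Cut

theorem blE_zero (h : Cut π A C δ g) (hw : w ∈ blA A g) : blE g w = 0 ↔ w ∘ .inl ∈ C :=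
  (P287Q.blE_zero hw).trans (h.zero _ hw.1).symm

variable (h : Cut π A C δ g) (hA : PV π A n) (hC : PV π C m)
include h hA hC

theorem exists_blD (hy : y ∈ C) : ∃ (ψ : (Fin (n - m) → ℂ) × (Fin (m + Fintype.card R) → ℂ) → J → ℂ)
    (G : _), BlD A g ψ 0 G ∧ ψ (0, 0) = y ∧ m ≤ n := by
  have l : m ≤ n := Nat.le_of_add_le_add_right (dim_le (hA.mfd y (h.sub hy)) (hC.mfd y hy) h.sub)
  obtain ⟨ψ, a, b, c⟩ := exists_adapted (c := n - m) (hA.mfd y (h.sub hy)) (hC.mfd y hy) h.sub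
    (by omega)
  obtain ⟨G, d⟩ := h.blD a c
  exact ⟨ψ, G, d, b, l⟩

theorem mc_bl : MC (blP K π) (blA A g) := by
  refine ⟨fun w a => mem_Ust_blP.2 ⟨hA.sub a.1, a.2.1⟩, fun t ht w hw => ?_, fun w hw hU => ?_⟩
  · obtain ⟨a, b⟩ := unit_option.1 ht
    have := blA_diag (c := fun j => t (some (π j))) (d := fun _ => cha δ (t ∘ some))
      (unit_iff.2 fun _ => cha_ne a) (div_ne_zero b (cha_ne (δ := δ) a)) (hA.inv _ a)
      (fun y c => ⟨_, hA.mfd y c⟩) (fun y => funext fun k => congrFun (gv_scl h.hom a y) k)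
      (y := w ∘ .inl) (u := w ∘ .inr) hw
    refine Set.mem_of_eq_of_mem (funext fun j => j.rec (fun _ => rfl) fun k => ?_) this
    exact ((mul_assoc _ _ _).symm.trans (congrArg (· * _) (div_mul_cancel₀ _ (cha_ne a)))).symm
  obtain ⟨u1, u2⟩ := mem_Ust_blP.1 hU
  have c1 : Continuous fun w : J ⊕ K → ℂ => w ∘ Sum.inl := by fun_prop
  have a : w ∘ .inl ∈ A := hA.cl _ (map_mem_closure (f := fun w : J ⊕ K → ℂ => w ∘ Sum.inl) c1 hw
    fun _ b => b.1) u1
  by_cases e : gv g (w ∘ .inl) = 0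
  · obtain ⟨ψ, G, b, c, -⟩ := h.exists_blD hA hC ((h.zero _ a).2 e)
    have := b.closed u2 (by rwa [c, Sum.elim_comp_inl_inr])
    rwa [c, Sum.elim_comp_inl_inr] at this
  obtain ⟨k, hk⟩ := ne_iff.1 u2
  have c2 : Continuous fun w : J ⊕ K → ℂ => gv g (w ∘ Sum.inl) :=
    continuous_iff_continuousAt.2 fun w => (an_gv' (an_pre Sum.inl w)).continuousAt
  have d : w (.inr k) • gv g (w ∘ .inl) = gv g (w ∘ .inl) k • (w ∘ .inr) :=
    closure_minimal (t := {w : J ⊕ K → ℂ |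
      w (.inr k) • gv g (w ∘ .inl) = gv g (w ∘ .inl) k • (w ∘ .inr)})
      (fun s b => by
        rw [mem_ofPred_eq, blE_spec b, smul_smul, mul_comm]
        rfl) (isClosed_eq (by fun_prop) (by fun_prop)) hw
  have d' : gv g (w ∘ .inl) = (gv g (w ∘ .inl) k / w (.inr k)) • (w ∘ .inr) := by
    rw [div_eq_inv_mul, ← smul_smul, ← d, inv_smul_smul₀ (show w (.inr k) ≠ 0 from hk)]
  exact ⟨a, u2, _, d', fun f => (e (d'.trans (by rw [f, zero_smul]))).elim⟩

/-- **The blow-up is a smooth projective variety.** -/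
theorem bl : PV (blP K π) (blA A g) n := by
  refine ⟨h.mc_bl hA hC, fun w hw => ?_⟩
  rw [← Sum.elim_comp_inl_inr w] at hw ⊢
  by_cases e : gv g (w ∘ .inl) = 0
  · obtain ⟨ψ, G, b, c, l⟩ := h.exists_blD hA hC ((h.zero _ hw.1).2 e)
    obtain ⟨a, a1, a2⟩ := b.fib.1 (c ▸ hw)
    have := (b.prm_par a1).mfdAt (n := n + Fintype.card (Option R)) (by
      simp only [finrank_prod, finrank_fin_fun, finrank_self, Fintype.card_option]
      omega)
    rwa [BlD.par_zero, c, ← a2] at this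
  · obtain ⟨a, s, s1, s2⟩ := (mem_blA_off e).1 hw
    obtain ⟨ψ, b, c⟩ := (hA.mfd _ a).prm
    have := (prm_off b (c.symm ▸ e) s1).mfdAt (n := n + Fintype.card (Option R)) (by
      simp only [finrank_prod, finrank_fin_fun, finrank_self, Fintype.card_option]
      omega)
    rwa [c, ← s2] at this

/-- The blow-down map is onto. -/
theorem bl_surj (hd : m < n) (hy : y ∈ A) : ∃ u, Sum.elim y u ∈ blA A g := by
  by_cases e : gv g y = 0
  · obtain ⟨ψ, G, b, rfl, -⟩ := h.exists_blD hA hC ((h.zero _ hy).2 e)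
    exact ⟨_, b.fib.2 ⟨1, ne_iff.2 ⟨⟨0, by omega⟩, one_ne_zero⟩, rfl⟩⟩
  · exact ⟨_, (mem_blA_off e).2 ⟨hy, 1, one_ne_zero, rfl⟩⟩

/-- Local coordinates along the exceptional divisor in which its equation is a coordinate. -/
theorem exists_par (hw : w ∈ blA A g) (h0 : blE g w = 0) :
    ∃ (Ψ : (Fin (n - m) → ℂ) × ℂ × (Fin (m + Fintype.card R) → ℂ) → J ⊕ K → ℂ) (a : _),
      Prm (blA A g) Ψ (a, 0, 0) ∧ Ψ (a, 0, 0) = w ∧ m < n ∧
      ∀ᶠ q in 𝓝 (a, 0, 0), blE g (Ψ q) = q.2.1 := by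
  obtain ⟨ψ, G, b, c, l⟩ := h.exists_blD hA hC ((h.blE_zero hw).1 h0)
  obtain ⟨a, a1, a2⟩ := (b.fib (u := w ∘ .inr)).1 (by rwa [c, Sum.elim_comp_inl_inr])
  obtain ⟨i, -⟩ := ne_iff.1 a1
  exact ⟨_, a, b.prm_par a1, by rw [BlD.par_zero, c, ← a2, Sum.elim_comp_inl_inr],
    by have := i.2; omega, (b.par_mem a1).mono fun _ d => d.2⟩

/-- The complement of the exceptional divisor is dense. -/
theorem bl_dense (hw : w ∈ blA A g) : w ∈ closure {s ∈ blA A g | blE g s ≠ 0} := by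
  by_cases e : blE g w = 0
  · obtain ⟨Ψ, a, b, rfl, -, d⟩ := h.exists_par hA hC hw e
    have t : Tendsto (fun z : ℂ => (a, z, (0 : Fin (m + Fintype.card R) → ℂ))) (𝓝[≠] 0)
        (𝓝 (a, 0, 0)) := Tendsto.mono_left (Continuous.tendsto (by fun_prop) _) nhdsWithin_le_nhds
    refine mem_closure_of_tendsto (b.an.continuousAt.tendsto.comp t) ?_
    filter_upwards [t.eventually (b.mem.and d), self_mem_nhdsWithin] with z c f
    exact ⟨c.1, ne_of_eq_of_ne c.2 f⟩
  · exact subset_closure ⟨hw, e⟩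

/-- **The exceptional divisor.** -/
theorem exc : PV (blP K π) {w ∈ blA A g | blE g w = 0} (n - 1) := by
  have c2 : Continuous fun w : J ⊕ K → ℂ => gv g (w ∘ Sum.inl) :=
    continuous_iff_continuousAt.2 fun w => (an_gv' (an_pre Sum.inl w)).continuousAt
  refine ⟨(h.mc_bl hA hC).of_closed (isClosed_eq c2 (continuous_const (y := 0)))
    (Set.ext fun w => and_congr_right fun a => P287Q.blE_zero a) fun t ht w hw =>
      ⟨(h.mc_bl hA hC).inv t ht w hw.1, by rw [blE_scl h.hom ht hw.1, hw.2, mul_zero]⟩,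
    fun w hw => ?_⟩
  obtain ⟨Ψ, a, b, rfl, l, d⟩ := h.exists_par hA hC hw.1 hw.2
  have s : ∀ q, AnalyticAt ℂ (fun p : ℂ × (Fin (n - m) → ℂ) × (Fin (m + Fintype.card R) → ℂ) =>
      (p.2.1, p.1, p.2.2)) q := fun _ => (analyticAt_fst.comp analyticAt_snd).prod
        (analyticAt_fst.prod (analyticAt_snd.comp analyticAt_snd))
  have b' := Prm.comp_inv (ψ := Ψ) (z := (0, a, 0)) (v := fun p => (p.2.1, p.1, p.2.2)) b (s _)
    ((analyticAt_fst.comp analyticAt_snd).prod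
      (analyticAt_fst.prod (analyticAt_snd.comp analyticAt_snd)))
    (.of_forall fun _ => rfl) (.of_forall fun _ => rfl)
  refine (b'.slice (C := {w ∈ blA A g | blE g w = 0}) (fun _ c => c.1) ?_).mfdAt (by
    simp only [finrank_prod, finrank_fin_fun, Fintype.card_option]
    omega)
  filter_upwards [b'.mem, (s (0, a, 0)).continuousAt.eventually d] with p c e
  exact (and_iff_right c).trans (by rw [e])

/-- The equation of the exceptional divisor is reduced. -/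
theorem exc_tn (hw : w ∈ blA A g) (h0 : blE g w = 0) {Φ : (J ⊕ K → ℂ) → ℂ} (hΦ : AnalyticAt ℂ Φ w)
    (e : ∀ᶠ s in 𝓝 w, s ∈ blA A g → blE g s = Φ s) : ∃ v ∈ tn (blA A g) w, fderiv ℂ Φ w v = 1 := by
  obtain ⟨Ψ, a, b, rfl, -, d⟩ := h.exists_par hA hC hw h0
  refine ⟨_, b.mem_tn.2 ⟨(0, 1, 0), rfl⟩, ?_⟩
  have : (fun q => Φ (Ψ q)) =ᶠ[𝓝 (a, 0, 0)] fun q => q.2.1 := by
    filter_upwards [(b.ev (p := fun s => blE g s = Φ s)).2 e, d] with q c f using c.symm.trans f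
  rw [← ContinuousLinearMap.comp_apply, ← fderiv_comp_an hΦ b.an, this.fderiv_eq]
  exact (DFunLike.congr_fun (hasFDerivAt_fst.comp _ hasFDerivAt_snd).fderiv _).trans rfl

end Cut

/-- Charts off the centre. -/
theorem Slc.bl_off {σ : E → J → ℂ} {x : E} (h : Slc π A σ x) (hA : PV π A n)
    (hB : PV (blP K π) (blA A g) n) (hg : gv g (σ x) ≠ 0) :
    Slc (blP K π) (blA A g) (fun z => Sum.elim (σ z) (gv g (σ z))) x := by
  refine .of_injective hB (an_elim h.an (an_gv' h.an)) ?_ (fun v a e => ?_) (h.finrank_eq hA)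
  · filter_upwards [h.mem, (an_gv' h.an).continuousAt.eventually_ne hg] with z a b
    exact (mem_blA_off b).2 ⟨a, 1, one_ne_zero, (one_smul _ _).symm⟩
  · rw [fderiv_elim₂ h.an (an_gv' h.an)] at e
    exact (h.transv (a := a ∘ some) (congrArg (· ∘ Sum.inl) e)).1

/-- In the chart `s` the equations are `G p p.1`. -/
structure BlS (π : J → R) (A : Set (J → ℂ)) (g : K → MvPolynomial J ℂ) (s : F × E → J → ℂ) (x : E)
    (G : F × E → F →L[ℂ] K → ℂ) : Prop where
  slc : Slc π A s (0, x)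
  an : AnalyticAt ℂ G (0, x)
  eq : ∀ᶠ p in 𝓝 (0, x), gv g (s p) = G p p.1
  inj : Injective (G (0, x))

variable {s : F × E → J → ℂ} {x : E} {G : F × E → F →L[ℂ] K → ℂ}

theorem Slc.prm' {b : F} (h : Slc π A s (b, x)) :
    Prm A (fun p : F × (R → ℂ) × E => scl π p.2.1 (s (p.1, p.2.2))) (b, 1, x) :=
  Prm.comp_inv (u := fun p : F × (R → ℂ) × E => (p.2.1, p.1, p.2.2))
    (ψ := fun p : (R → ℂ) × F × E => scl π p.1 (s p.2)) (z := (b, 1, x))
    (v := fun p => (p.2.1, p.1, p.2.2)) h.prm ((analyticAt_fst.comp analyticAt_snd).prod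
      (analyticAt_fst.prod (analyticAt_snd.comp analyticAt_snd)))
    ((analyticAt_fst.comp analyticAt_snd).prod
      (analyticAt_fst.prod (analyticAt_snd.comp analyticAt_snd)))
    (.of_forall fun _ => rfl) (.of_forall fun _ => rfl)

theorem Cut.blS (h : Cut π A C δ g) (hC : MC π C) (hs : Slc π A s (0, x))
    (e : ∀ᶠ p in 𝓝 (0, x), s p ∈ C ↔ p.1 = 0) : ∃ G, BlS π A g s x G := by
  have a1 : AnalyticAt ℂ (fun p : F × (R → ℂ) × E => (p.1, p.2.2)) (0, 1, x) :=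
    analyticAt_fst.prod (analyticAt_snd.comp analyticAt_snd)
  have a2 : AnalyticAt ℂ (fun p : F × E => (p.1, (1 : R → ℂ), p.2)) (0, x) :=
    analyticAt_fst.prod (analyticAt_const.prod analyticAt_snd)
  obtain ⟨G, b⟩ := h.blD hs.prm' (by
    filter_upwards [a1.continuousAt.eventually e, (continuous_fst.comp continuous_snd).continuousAt
      |>.eventually (eventually_unit (t := (((0 : F), (1 : R → ℂ), x)).2.1) isUnit_one)] with p c d
    exact (hC.mem_iff d).trans c)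
  exact ⟨fun p => G (p.1, 1, p.2), hs, AnalyticAt.comp (g := G) b.an a2,
    (a2.continuousAt.eventually b.eq).mono fun p c => by simpa only [scl_one] using c, b.inj⟩

namespace BlS

variable (h : BlS π A g s x G) (hg : ∀ k, WHom (bw π) δ (g k))
include h hg

theorem blD : BlD A g (fun p : F × (R → ℂ) × E => scl π p.2.1 (s (p.1, p.2.2))) (1, x)
    fun p => cha δ p.2.1 • G (p.1, p.2.2) := by
  have a1 : AnalyticAt ℂ (fun p : F × (R → ℂ) × E => (p.1, p.2.2)) (0, 1, x) :=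
    analyticAt_fst.prod (analyticAt_snd.comp analyticAt_snd)
  refine ⟨h.slc.prm', (an_cha (analyticAt_fst.comp analyticAt_snd) isUnit_one).smul
    (AnalyticAt.comp (g := G) h.an a1), ?_, by simpa only [cha_one, one_smul] using h.inj⟩
  filter_upwards [a1.continuousAt.eventually h.eq, (continuous_fst.comp continuous_snd).continuousAt
    |>.eventually (eventually_unit (t := (((0 : F), (1 : R → ℂ), x)).2.1) isUnit_one)] with p c d
  rw [gv_scl (t := p.2.1) hg d, c]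
  rfl

theorem fib : Sum.elim (s (0, x)) u ∈ blA A g ↔ ∃ a, a ≠ 0 ∧ u = G (0, x) a := by
  simpa only [scl_one, cha_one, one_smul] using (h.blD hg).fib (u := u)

theorem mem : ∀ᶠ p in 𝓝 (0, x), ∀ u, Sum.elim (s p) u ∈ blA A g ↔
    ∃ a, a ≠ 0 ∧ u = G p a ∧ ∃ e : ℂ, p.1 = e • a := by
  have a2 : ContinuousAt (fun p : F × E => (p.1, (1 : R → ℂ), p.2)) (0, x) := by fun_prop
  simpa only [scl_one, cha_one, one_smul] using a2.eventually (h.blD hg).mem

/-- **Standard charts of the blow-up.** -/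
theorem std {a : E' → F} {ε : E' → ℂ} {b : E' → E} {z : E'} (ha : AnalyticAt ℂ a z)
    (hε : AnalyticAt ℂ ε z) (hb : AnalyticAt ℂ b z) (h0 : ε z = 0) (h1 : b z = x) (ℓ : F →L[ℂ] ℂ)
    (hℓ : ∀ᶠ q in 𝓝 z, ℓ (a q) = 1) {κ : F × ℂ × E → E'} (hκ : AnalyticAt ℂ κ (a z, 0, x))
    (hk : ∀ᶠ q in 𝓝 z, κ (a q, ε q, b q) = q) (hd : finrank ℂ E' = finrank ℂ F + finrank ℂ E) :
    Slc (blP K π) (blA A g) (fun q => BlD.par s G (a q, ε q, b q)) z := by
  have l0 := hℓ.self_of_nhds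
  have a0 : a z ≠ 0 := fun e => zero_ne_one ((map_zero ℓ).symm.trans (e ▸ l0))
  let μ : (Option R → ℂ) × E' → F × ℂ × (R → ℂ) × E := fun p =>
    ((p.1 none / cha δ (p.1 ∘ some)) • a p.2, ε p.2 * (cha δ (p.1 ∘ some) / p.1 none),
      p.1 ∘ some, b p.2)
  let ν : F × ℂ × (R → ℂ) × E → (Option R → ℂ) × E' := fun q =>
    (fun o => o.elim (cha δ q.2.2.1 * ℓ q.1) q.2.2.1, κ ((ℓ q.1)⁻¹ • q.1, q.2.1 * ℓ q.1, q.2.2.2))
  have m0 : μ (1, z) = (a z, 0, 1, x) := by
    simp [μ, h0, h1, show (1 : Option R → ℂ) ∘ some = 1 from rfl, cha_one]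
  have s1 : ∀ {X : Type} [NormedAddCommGroup X] [NormedSpace ℂ X] {f : E' → X}, AnalyticAt ℂ f z →
      AnalyticAt ℂ (fun p : (Option R → ℂ) × E' => f p.2) (1, z) := fun hf =>
    hf.comp (f := Prod.snd) (x := (1, z)) analyticAt_snd
  have s2 : AnalyticAt ℂ (fun p : (Option R → ℂ) × E' => p.1 ∘ some) (1, z) :=
    (an_pre some _).comp analyticAt_fst
  have s3 : AnalyticAt ℂ (fun p : (Option R → ℂ) × E' => p.1 none) (1, z) :=
    analyticAt_pi_iff.1 analyticAt_fst none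
  have s4 := an_cha (δ := δ) s2 isUnit_one
  have m1 : AnalyticAt ℂ μ (1, z) := ((s3.fun_div s4 (cha_ne isUnit_one)).smul (s1 ha)).prod
    (((s1 hε).mul (s4.fun_div s3 one_ne_zero)).prod (s2.prod (s1 hb)))
  have r1 : AnalyticAt ℂ (fun q : F × ℂ × (R → ℂ) × E => ℓ q.1) (a z, 0, 1, x) :=
    (ℓ.analyticAt _).comp analyticAt_fst
  have r2 : AnalyticAt ℂ (fun q : F × ℂ × (R → ℂ) × E => q.2.2) (a z, 0, 1, x) :=
    analyticAt_snd.comp analyticAt_snd
  have n1 : AnalyticAt ℂ ν (a z, 0, 1, x) :=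
    (analyticAt_pi_iff.2 fun o => o.rec ((an_cha (analyticAt_fst.comp r2) isUnit_one).mul r1)
      (analyticAt_pi_iff.1 (analyticAt_fst.comp r2))).prod
    (AnalyticAt.comp (g := κ) (by simpa [l0] using hκ)
      (((r1.fun_inv (ne_of_eq_of_ne l0 one_ne_zero)).smul analyticAt_fst).prod
        (((analyticAt_fst.comp analyticAt_snd).mul r1).prod (analyticAt_snd.comp r2))))
  have u : ∀ᶠ p : (Option R → ℂ) × E' in 𝓝 (1, z), cha δ (p.1 ∘ some) ≠ 0 ∧ p.1 none ≠ 0 :=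
    (s4.continuousAt.eventually_ne (cha_ne isUnit_one)).and
      (s3.continuousAt.eventually_ne one_ne_zero)
  refine (Prm.comp (u := μ) (m0 ▸ (h.blD hg).prm_par a0) m1 (bijective_of_injective _
    (injective_fderiv_of_leftInv (g := ν) (m0 ▸ n1) m1 ?_) ?_)).congr ?_
  · filter_upwards [u, (continuousAt_snd (p := ((1 : Option R → ℂ), z))).eventually (hℓ.and hk)]
      with p c d
    have e : ℓ (μ p).1 = p.1 none / cha δ (p.1 ∘ some) := by
      simp only [μ, map_smul, d.1, smul_eq_mul, mul_one]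
    refine Prod.ext (funext fun o => o.rec ((congrArg _ e).trans (mul_div_cancel₀ _ c.1))
      fun _ => rfl) (Eq.trans (congrArg κ ?_) d.2)
    · rw [e]
      refine Prod.ext (inv_smul_smul₀ (div_ne_zero c.2 c.1) _) (Prod.ext ?_ rfl)
      simp only [μ]
      field_simp [c.1, c.2]
  · simp only [finrank_prod, finrank_fintype_fun_eq_card, finrank_self, Fintype.card_option, hd]
    omega
  · filter_upwards [u] with p c
    have e : (μ p).2.1 • (μ p).1 = ε p.2 • a p.2 := by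
      simp only [μ, smul_smul]
      congr 1
      field_simp [c.1, c.2]
    simp only [BlD.par, e, scl_blP]
    congr 1
    simp only [μ, smul_apply, map_smul, smul_smul, div_mul_cancel₀ _ c.1]

end BlS

end Vale.Agent.P287Q
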