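import Vale.Agent.P287Q.Pv.Top
import Vale.Agent.P287Q.Pv.Bl
import Vale.Agent.P287Q.H1.Emb

/-!
# Smooth projective varieties as manifolds for the principalization
-/

set_option linter.unusedSectionVars false

namespace Vale.Agent.P287Q

open Set Function Topology Filter P269 P269.Holo P269.Mono Module MvPolynomial H1

variable {J R J' R' S K E M M' : Type} [Fintype J] [Fintype R] [Fintype J'] [Fintype R'] [Fintype S]
  [Fintype K] [NormedAddCommGroup E] [NormedSpace ℂ E] [FiniteDimensional ℂ E] [TopologicalSpace M]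
  [TopologicalSpace M'] {π : J → R} {A : Set (J → ℂ)} {π' : J' → R'} {A' : Set (J' → ℂ)}
  {y : J → ℂ} {t : R → ℂ} {n c : ℕ} {x : E}

/-- `q` identifies `M` with the variety of the multicone `A`. -/
structure Qm (π : J → R) (A : Set (J → ℂ)) (n : ℕ) (q : (J → ℂ) → M) : Prop where
  pv : PV π A n
  surj : ∀ p, ∃ y ∈ A, q y = p
  eq_iff : ∀ y ∈ A, ∀ y' ∈ A, q y = q y' ↔ ∃ t, IsUnit t ∧ y' = scl π t y
  nh : ∀ y ∈ A, map q (𝓝[A] y) = 𝓝 (q y)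

/-- `φ` is the inverse of a slice near `p`. -/
def Cq (π : J → R) (A : Set (J → ℂ)) (q : (J → ℂ) → M) (p : M) (φ : M → W n) : Prop :=
  ∃ σ, Slc π A σ (φ p) ∧ q (σ (φ p)) = p ∧ ∀ᶠ z in 𝓝 (φ p), φ (q (σ z)) = z

theorem PV.exists_qm (h : PV π A n) (hn : A.Nonempty) : ∃ q : (J → ℂ) → Spc π A, Qm π A n q ∧
    ∀ y (a : y ∈ A), q y = Quo.mk (scl π) ⟨y, a⟩ := by
  classical
  obtain ⟨q, e⟩ : ∃ q : (J → ℂ) → Spc π A, ∀ y (a : y ∈ A), q y = Quo.mk (scl π) ⟨y, a⟩ :=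
    ⟨fun y => if a : y ∈ A then Quo.mk _ ⟨y, a⟩ else Quo.mk _ ⟨_, hn.some_mem⟩, fun _ a => dif_pos a⟩
  refine ⟨q, ⟨h, fun p => ?_, fun y a y' b => by rw [e y a, e y' b, h.mk_eq_iff], fun y a => ?_⟩, e⟩
  · obtain ⟨y, rfl⟩ := h.isOpenQuotientMap.surjective p
    exact ⟨y, y.2, e _ _⟩
  · rw [← map_nhds_subtype_val ⟨y, a⟩, map_map, e y a, ← h.map_mk]
    exact congrArg (map · _) (funext fun s => e s.1 s.2)

namespace Qm

variable {q : (J → ℂ) → M} {q' : (J' → ℂ) → M'} {σ : E → J → ℂ} {p : M} {φ φ' : M → W n}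

theorem scl (h : Qm π A n q) (hy : y ∈ A) (ht : IsUnit t) : q (scl π t y) = q y :=
  ((h.eq_iff _ hy _ (h.pv.inv t ht y hy)).2 ⟨t, ht, rfl⟩).symm

theorem ev (h : Qm π A n q) (hy : y ∈ A) {P : M → Prop} :
    (∀ᶠ z in 𝓝 (q y), P z) ↔ ∀ᶠ s in 𝓝 y, s ∈ A → P (q s) := by
  rw [← h.nh y hy, eventually_map, eventually_nhdsWithin_iff]

theorem cont (h : Qm π A n q) : ContinuousOn q A := fun y a => (h.nh y a).le

/-- Invariant maps descend. -/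
theorem desc {N : Type*} (h : Qm π A n q) {f : (J → ℂ) → N}
    (hf : ∀ t, IsUnit t → ∀ y ∈ A, f (P287Q.scl π t y) = f y) : ∃ β : M → N, ∀ y ∈ A, β (q y) = f y := by
  choose s a b using h.surj
  refine ⟨fun p => f (s p), fun y c => ?_⟩
  obtain ⟨t, d, e⟩ := (h.eq_iff _ (a (q y)) _ c).1 (b _)
  exact (hf t d _ (a _)).symm.trans (congrArg f e.symm)

theorem continuous {N : Type*} [TopologicalSpace N] (h : Qm π A n q) {f : (J → ℂ) → N} {β : M → N}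
    (e : ∀ y ∈ A, β (q y) = f y) (hf : ContinuousOn f A) : Continuous β :=
  continuous_iff_continuousAt.2 fun p => by
    obtain ⟨y, a, rfl⟩ := h.surj p
    rw [ContinuousAt, ← h.nh y a, tendsto_map'_iff, e y a]
    exact (hf y a).congr' (eventually_mem_nhdsWithin.mono fun s b => (e s b).symm)

theorem exists_homeo (h : Qm π A n q) :
    ∃ e : Spc π A ≃ₜ M, ∀ y (a : y ∈ A), e (Quo.mk (P287Q.scl π) ⟨y, a⟩) = q y := by
  rcases A.eq_empty_or_nonempty with rfl | hn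
  · exact (h.surj (q 0)).elim fun _ a => a.1.elim
  obtain ⟨q₀, h₀, e⟩ := h.pv.exists_qm hn
  obtain ⟨f, a⟩ := h₀.desc (f := q) fun t b y c => h.scl c b
  obtain ⟨g, b⟩ := h.desc (f := q₀) fun t b y c => h₀.scl c b
  refine ⟨⟨⟨f, g, fun p => ?_, fun p => ?_⟩, h₀.continuous a h.cont, h.continuous b h₀.cont⟩,
    fun y c => (congrArg f (e y c)).symm.trans (a y c)⟩
  · obtain ⟨y, c, rfl⟩ := h₀.surj p
    rw [a y c, b y c]
  · obtain ⟨y, c, rfl⟩ := h.surj p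
    rw [b y c, a y c]

theorem compact (h : Qm π A n q) : CompactSpace M :=
  have := h.pv.compact
  h.exists_homeo.elim fun e _ => e.compactSpace

theorem t2 (h : Qm π A n q) : T2Space M :=
  have := h.pv.t2
  h.exists_homeo.elim fun e _ => e.t2Space

theorem lh (h : Qm π A n q) (hσ : Slc π A σ x) : LH (fun z => q (σ z)) x := by
  obtain ⟨e, a⟩ := h.exists_homeo
  obtain ⟨φ, b⟩ := exists_over (π := π) hσ.mem
  exact ((e.lh _).comp (hσ.lh h.pv.toMC b)).congr (b.mono fun z ⟨c, d⟩ => (congrArg e d).trans (a _ c))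

theorem ev_slc (h : Qm π A n q) (hσ : Slc π A σ x) {P : M → Prop} :
    (∀ᶠ z in 𝓝 (q (σ x)), P z) ↔ ∀ᶠ z in 𝓝 x, P (q (σ z)) := by
  rw [← (h.lh hσ).map_nhds, eventually_map]

/-- Two slices through the same point of the variety differ by a change of coordinates. -/
theorem trans {F : Type} [NormedAddCommGroup F] [NormedSpace ℂ F] [FiniteDimensional ℂ F]
    (h : Qm π A n q) (hσ : Slc π A σ x) {σ' : F → J → ℂ} {z : F} (h' : Slc π A σ' z)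
    (e : q (σ x) = q (σ' z)) : ∃ k : F → E, AnalyticAt ℂ k z ∧ k z = x ∧ Bijective (fderiv ℂ k z) ∧
      ∀ᶠ v in 𝓝 z, q (σ (k v)) = q (σ' v) := by
  obtain ⟨t, a, b⟩ := (h.eq_iff _ hσ.mem0 _ h'.mem0).1 e
  obtain ⟨τ, k, k1, k2, k3, k4, k5, k6⟩ := hσ.transition h.pv.toMC h' b
  refine ⟨k, k2, k4, k6, ?_⟩
  filter_upwards [k5, k1.continuousAt.eventually (k3.symm ▸ eventually_unit a),
    k2.continuousAt.eventually (k4.symm ▸ hσ.mem)] with v c d f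
  rw [c, h.scl f d]

theorem exists_cq (h : Qm π A n q) {σ : W n → J → ℂ} {x : W n} (hσ : Slc π A σ x) :
    ∃ φ, Cq π A q (q (σ x)) φ ∧ φ (q (σ x)) = x ∧ ∀ᶠ z in 𝓝 x, φ (q (σ z)) = z := by
  obtain ⟨φ, a, -, b, -⟩ := (h.lh hσ).exists_inv
  exact ⟨φ, ⟨σ, a.symm ▸ hσ, by rw [a], a.symm ▸ b⟩, a, b⟩

theorem cq_iff (h : Qm π A n q) (hy : y ∈ A) : Cq π A q (q y) φ ↔
    ∃ σ, Slc π A σ (φ (q y)) ∧ σ (φ (q y)) = y ∧ ∀ᶠ z in 𝓝 (φ (q y)), φ (q (σ z)) = z := by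
  refine ⟨fun ⟨σ, a, b, d⟩ => ?_, fun ⟨σ, a, b, d⟩ => ⟨σ, a, congrArg q b, d⟩⟩
  obtain ⟨t, e, f⟩ := (h.eq_iff _ a.mem0 _ hy).1 b
  refine ⟨_, a.gauge h.pv.toMC (analyticAt_const (v := t)) e, f.symm, ?_⟩
  filter_upwards [a.mem, d] with z u v
  rw [h.scl u e, v]

theorem cq_inv (h : Qm π A n q) {σ : W n → J → ℂ} (a : Slc π A σ (φ p)) (b : q (σ (φ p)) = p)
    (d : ∀ᶠ z in 𝓝 (φ p), φ (q (σ z)) = z) : LH φ p ∧ ∀ᶠ z in 𝓝 p, q (σ (φ z)) = z :=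
  ⟨b ▸ LH.of_comp_right (f := fun z => q (σ z)) ((LH.id _).congr (EventuallyEq.symm d)) (h.lh a),
    b ▸ (h.ev_slc a).2 (d.mono fun z e => by rw [e])⟩

/-- Coordinates are transported by maps that send slices to slices. -/
theorem cq_comp (h : Qm π A n q) {f : M' → M} {σ' : E → J' → ℂ} (hσ' : Slc π' A' σ' x)
    (hσ : Slc π A σ x) (e : ∀ᶠ z in 𝓝 x, f (q' (σ' z)) = q (σ z))
    (hφ : Cq π A q (f (q' (σ' x))) φ) : Cq π' A' q' (q' (σ' x)) (φ ∘ f) := by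
  obtain ⟨s, a, b, d⟩ := hφ
  obtain ⟨k, k1, k2, k3, k4⟩ := h.trans hσ a (e.self_of_nhds.symm.trans b.symm)
  refine ⟨fun z => σ' (k z), Slc.comp (k2.symm ▸ hσ') k1 k3, congrArg (fun z => q' (σ' z)) k2, ?_⟩
  filter_upwards [k4, d, k1.continuousAt.eventually (k2.symm ▸ e)] with z u v w
  exact (congrArg φ (w.trans u)).trans v

/-- The manifold. -/
abbrev mf (h : Qm π A n q) : Mf n where
  M := M
  Co := Cq π A q
  exi p := by
    obtain ⟨y, a, rfl⟩ := h.surj p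
    obtain ⟨σ, b, rfl⟩ := h.pv.slc a
    exact (h.exists_cq b).imp fun _ d => d.1
  ev p φ := fun ⟨σ, a, b, d⟩ => by
    have ⟨e, f⟩ := h.cq_inv a b d
    filter_upwards [e.cont.eventually (a.eventually.and d.eventually_nhds), f] with z u v
      using ⟨σ, u.1, v, u.2⟩
  hom p φ := fun ⟨σ, a, b, d⟩ => (h.cq_inv a b d).1.exists.imp fun _ e => ⟨e.1, .of_eq e.2⟩
  tr p φ φ' := fun ⟨σ, a, b, d⟩ ⟨σ', a', b', d'⟩ => by
    obtain ⟨k, k1, k2, k3, k4⟩ := h.trans a' a (b'.trans b.symm)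
    have ⟨e, f⟩ := h.cq_inv a b d
    refine ⟨k, ⟨k1, k3⟩, ?_⟩
    filter_upwards [f, e.cont.eventually (k4.and (k1.continuousAt.eventually (k2.symm ▸ d')))]
      with z u v
    exact (congrArg φ' (v.1.trans u)).symm.trans v.2
  sat p φ φ' θ := fun ⟨σ, a, b, d⟩ hθ e => by
    obtain ⟨ψ, p1, p2, -, p3⟩ := hθ.inv
    have e0 : φ' p = θ (φ p) := e.self_of_nhds
    rw [Cq, e0]
    refine ⟨fun z => σ (ψ z), Slc.comp (p2.symm ▸ a) p1.1 p1.2, (congrArg (fun z => q (σ z)) p2).trans b,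
      ?_⟩
    filter_upwards [p3, p1.1.continuousAt.eventually
      (p2.symm ▸ d.and ((h.ev_slc a).1 (b.symm ▸ e)))] with z u v
    exact v.2.trans ((congrArg θ v.1).trans u)
  Γ := ∅
  symm _ := False.elim
  hol _ := False.elim
  R := univ
  cpt := ⟨univ, h.compact.1, fun _ _ => .inl trivial⟩

end Qm

namespace H1.Mf

variable {X : Mf n}

theorem Hol.symm {γ : OpenPartialHomeomorph X.M X.M} (h : X.Hol γ) : X.Hol γ.symm := fun p a φ b => by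
  obtain ⟨φ₀, d⟩ := X.exi p
  obtain ⟨θ, e, f⟩ := X.tr _ _ _ (h _ (γ.map_target a) φ₀ ((γ.right_inv a).symm ▸ d)) b
  refine X.sat p φ₀ _ θ d (by rwa [comp_apply, γ.right_inv a] at e) ?_
  filter_upwards [(γ.continuousAt_symm a).eventually f, γ.eventually_right_inverse a] with z u v
  exact u.trans (congrArg (fun s => θ (φ₀ s)) v)

/-- The same manifold with more local isomorphisms. -/
abbrev ext (X : Mf n) (Γ : Set (OpenPartialHomeomorph X.M X.M)) (hs : ∀ γ ∈ Γ, γ.symm ∈ Γ)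
    (hh : ∀ γ ∈ Γ, X.Hol γ) (h : X.Γ ⊆ Γ) : Mf n :=
  { X with
    Γ := Γ
    symm := hs
    hol := hh
    cpt := X.cpt.imp fun _ a => ⟨a.1, fun p b => (a.2 p b).imp_right fun ⟨γ, d, e⟩ => ⟨γ, h d, e⟩⟩ }

theorem IsBl.empty {X' : Mf n} {β : X'.M → X.M} {C : Set X.M} (h : IsBl β C) (e : X.Γ = ∅) :
    X'.Γ = ∅ := eq_empty_of_forall_notMem fun γ a => (h.cov γ a).elim fun _ b => (e ▸ b.1 :)

end H1.Mf

/-- `X` is the manifold of the variety `(π, A)`. -/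
structure Of (X : Mf n) (π : J → R) (A : Set (J → ℂ)) (q : (J → ℂ) → X.M) : Prop
    extends Qm π A n q where
  co : ∀ p φ, X.Co p φ ↔ Cq π A q p φ
  reg : X.R = univ

theorem Qm.of {q : (J → ℂ) → M} (h : Qm π A n q) : Of h.mf π A q := ⟨h, fun _ _ => Iff.rfl, rfl⟩

/-- **Every variety is a manifold.** -/
theorem PV.exists_of (h : PV π A n) (hn : A.Nonempty) : ∃ (X : Mf n) (q : _), Of X π A q ∧ X.Γ = ∅ :=
  let ⟨q, a, _⟩ := h.exists_qm hn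
  ⟨a.mf, q, a.of, rfl⟩

/-- Splitting of the coordinates. -/
noncomputable def spl (B : Finset (Fin n)) : W n ≃L[ℂ] (B → ℂ) × ({l // l ∉ B} → ℂ) :=
  LinearEquiv.toContinuousLinearEquiv
    { Equiv.piEquivPiSubtypeProd (· ∈ B) fun _ => ℂ with
      map_add' := fun _ _ => rfl
      map_smul' := fun _ _ => rfl }

theorem spl_zero {B : Finset (Fin n)} {z : W n} : z ∈ Zs B ↔ (spl B z).1 = 0 :=
  ⟨fun h => funext fun l => h l.1 l.2, fun h l a => congrFun h ⟨l, a⟩⟩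

namespace Of

variable {X X' : Mf n} {q : (J → ℂ) → X.M} {q' : (J' → ℂ) → X'.M} {C : Set X.M} {φ : X.M → W n}
  {σ : E → J → ℂ}

theorem ext (h : Of X π A q) {Γ : Set (OpenPartialHomeomorph X.M X.M)} (hs : ∀ γ ∈ Γ, γ.symm ∈ Γ)
    (hh : ∀ γ ∈ Γ, X.Hol γ) (e : X.Γ ⊆ Γ) : Of (X.ext Γ hs hh e) π A q := ⟨h.toQm, h.co, h.reg⟩

theorem nonempty (h : Of X π A q) : A.Nonempty := (h.surj (q 0)).imp fun _ a => a.1

theorem co_iff (h : Of X π A q) (hy : y ∈ A) : X.Co (q y) φ ↔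
    ∃ σ, Slc π A σ (φ (q y)) ∧ σ (φ (q y)) = y ∧ ∀ᶠ z in 𝓝 (φ (q y)), φ (q (σ z)) = z :=
  (h.co _ _).trans (h.cq_iff hy)

theorem exists_co (h : Of X π A q) {σ : W n → J → ℂ} {x : W n} (hσ : Slc π A σ x) :
    ∃ φ, X.Co (q (σ x)) φ ∧ φ (q (σ x)) = x ∧ ∀ᶠ z in 𝓝 x, φ (q (σ z)) = z :=
  (h.exists_cq hσ).imp fun _ a => ⟨(h.co _ _).2 a.1, a.2⟩

theorem co_comp (h : Of X π A q) (h' : Of X' π' A' q') {f : X'.M → X.M} {σ' : E → J' → ℂ}
    (hσ' : Slc π' A' σ' x) (hσ : Slc π A σ x) (e : ∀ᶠ z in 𝓝 x, f (q' (σ' z)) = q (σ z))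
    (hφ : X.Co (f (q' (σ' x))) φ) : X'.Co (q' (σ' x)) (φ ∘ f) :=
  (h'.co _ _).2 (h.cq_comp hσ' hσ e ((h.co _ _).1 hφ))

/-- Analytic functions in a slice. -/
theorem an_iff (h : Of X π A q) (hσ : Slc π A σ x) {f : X.M → ℂ} :
    X.An f (q (σ x)) ↔ AnalyticAt ℂ (fun z => f (q (σ z))) x := by
  refine ⟨fun ⟨φ, F, a, b, d⟩ => ?_, fun a => ?_⟩
  · obtain ⟨s, s1, s2, s3⟩ := (h.co _ _).1 a
    obtain ⟨k, k1, k2, -, k4⟩ := h.trans s1 hσ s2
    refine (AnalyticAt.comp (g := F) (k2.symm ▸ b) k1).congr ?_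
    filter_upwards [k4, k1.continuousAt.eventually (k2.symm ▸ s3), (h.ev_slc hσ).1 d] with z u v w
    exact (congrArg F (v.symm.trans (congrArg φ u))).trans w.symm
  · obtain ⟨φ, b⟩ := X.exi (q (σ x))
    obtain ⟨s, s1, s2, s3⟩ := (h.co _ _).1 b
    obtain ⟨k, k1, k2, -, k4⟩ := h.trans hσ s1 s2.symm
    refine ⟨φ, _, b, AnalyticAt.comp (g := fun z => f (q (σ z))) (k2.symm ▸ a) k1, ?_⟩
    have ⟨e, g⟩ := h.cq_inv s1 s2 s3
    filter_upwards [g, e.cont.eventually k4] with z u v using congrArg f (v.trans u).symm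

/-- Analytic functions on the cone. -/
theorem an_iff' (h : Of X π A q) (hy : y ∈ A) {f : X.M → ℂ} :
    X.An f (q y) ↔ HolOn A (fun s => f (q s)) y := by
  obtain ⟨σ, a, rfl⟩ := h.pv.slc hy
  have e : (fun p : (R → ℂ) × W n => f (q (σ p.2))) =ᶠ[𝓝 (1, 0)] fun p => f (q (scl π p.1 (σ p.2))) := by
    filter_upwards [continuousAt_fst.eventually (eventually_unit (t := ((1 : R → ℂ), (0 : W n)).1)
      isUnit_one), continuousAt_snd.eventually (a.mem (x := ((1 : R → ℂ), (0 : W n)).2))] with p b d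
    rw [h.scl d b]
  rw [h.an_iff a, a.holOn_iff, ← analyticAt_congr e]
  exact ⟨fun b => b.comp (f := Prod.snd) (x := (1, 0)) analyticAt_snd, fun b =>
    AnalyticAt.comp (f := fun z : W n => ((1 : R → ℂ), z)) b (analyticAt_const.prod analyticAt_id)⟩

/-- An extra torus acts by isomorphisms. -/
theorem exists_tw (h : Of X π A q) {wt : J → S → ℤ} (hT : TInv wt A) {τ : S → ℂ} (hτ : IsUnit τ) :
    ∃ γ : X.M ≃ₜ X.M, (∀ y ∈ A, γ (q y) = q (tw wt τ y)) ∧ X.Hol γ.toOpenPartialHomeomorph := by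
  have k : ∀ τ, IsUnit τ → ∃ f : X.M → X.M, Continuous f ∧ ∀ y ∈ A, f (q y) = q (tw wt τ y) :=
    fun τ a => (h.desc (f := fun y => q (tw wt τ y))
      fun t b y d => by rw [tw_scl, h.scl (hT τ a y d) b]).imp fun f b =>
      ⟨h.continuous b (h.cont.comp (fun y _ => (an_tw' wt τ y).continuousAt.continuousWithinAt)
        (hT τ a)), b⟩
  obtain ⟨f, f1, f2⟩ := k τ hτ
  obtain ⟨g, g1, g2⟩ := k _ (unit_inv hτ)
  refine ⟨⟨⟨f, g, fun p => ?_, fun p => ?_⟩, f1, g1⟩, f2, fun p _ φ a => ?_⟩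
  · obtain ⟨y, b, rfl⟩ := h.surj p
    rw [f2 y b, g2 _ (hT τ hτ y b), tw_inv_tw wt hτ]
  · obtain ⟨y, b, rfl⟩ := h.surj p
    rw [g2 y b, f2 _ (hT _ (unit_inv hτ) y b), tw_tw_inv wt hτ]
  · obtain ⟨y, b, rfl⟩ := h.surj p
    obtain ⟨σ, d, rfl⟩ := h.pv.slc b
    exact h.co_comp h d (hT.slc d hτ) (d.mem.mono fun _ => f2 _) a

theorem adapt (h : Of X π A q) (hy : y ∈ A) (hC : q y ∈ C) (hφ : X.Co (q y) φ) {B : Finset (Fin n)}
    (e : ∀ᶠ z in 𝓝 (q y), z ∈ C ↔ φ z ∈ Zs B) : ∃ (σ : W n → J → ℂ) (x : _),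
      (spl B).symm (0, x) = φ (q y) ∧ σ (φ (q y)) = y ∧ (∀ᶠ z in 𝓝 (φ (q y)), φ (q (σ z)) = z) ∧
      Slc π A (fun p => σ ((spl B).symm p)) (0, x) ∧
      ∀ᶠ p in 𝓝 (0, x), σ ((spl B).symm p) ∈ A ∩ q ⁻¹' C ↔ p.1 = 0 := by
  obtain ⟨σ, a, b, d⟩ := (h.co_iff hy).1 hφ
  have f : (spl B).symm (0, (spl B (φ (q y))).2) = φ (q y) := by
    rw [← spl_zero.1 (e.self_of_nhds.1 hC), Prod.mk.eta, (spl B).symm_apply_apply]
  refine ⟨σ, _, f, b, d, Slc.comp (f.symm ▸ a) ((spl B).symm.analyticAt _)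
    ((spl B).symm.fderiv ▸ (spl B).symm.bijective), ?_⟩
  filter_upwards [(spl B).symm.continuous.continuousAt.eventually
    (f.symm ▸ a.mem.and (d.and ((h.ev_slc a).1 (b.symm ▸ e))))] with p g
  rw [mem_inter_iff, and_iff_right g.1, mem_preimage, g.2.2, g.2.1, spl_zero,
    (spl B).apply_symm_apply]

theorem mc_ctr (h : Of X π A q) (hC : IsClosed C) : MC π (A ∩ q ⁻¹' C) := by
  refine ⟨fun _ a => h.pv.sub a.1, fun t a y b => ⟨h.pv.inv t a y b.1, ?_⟩, fun y a b => ?_⟩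
  · rw [mem_preimage, h.scl b.1 a]
    exact b.2
  · have d := h.pv.cl y (closure_mono inter_subset_left a) b
    exact ⟨d, closure_minimal (image_subset_iff.2 inter_subset_right) hC
      (((h.cont y d).mono inter_subset_left).mem_closure_image a)⟩

/-- **Closed submanifolds are varieties.** -/
theorem pv_ctr (h : Of X π A q) (hC : IsClosed C) (hs : ∀ p ∈ C, ∃ (φ : X.M → W n)
    (B : Finset (Fin n)), X.Co p φ ∧ B.card = c ∧ ∀ᶠ z in 𝓝 p, z ∈ C ↔ φ z ∈ Zs B) :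
    PV π (A ∩ q ⁻¹' C) (n - c) := by
  refine .of_slc (h.mc_ctr hC) fun y a => ?_
  obtain ⟨φ, B, b, rfl, d⟩ := hs _ a.2
  obtain ⟨σ, x, e, f, -, g, k⟩ := h.adapt a.1 a.2 b d
  refine ⟨_, _, _, inferInstance, _, x, 1, g.slice (h.mc_ctr hC) inter_subset_left k, ?_, ?_⟩
  · simp
  · rw [scl_one, e, f]

variable [DecidableEq R] {δ : R → ℤ} {g : K → MvPolynomial J ℂ} {q' : (J ⊕ K → ℂ) → X'.M}
  {β : X'.M → X.M}

theorem bl_mk (h' : Of X' (blP K π) (blA A g) q') {w : J ⊕ K → ℂ} (a : w ∈ blA A g)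
    (e : gv g (w ∘ .inl) ≠ 0) : q' (Sum.elim (w ∘ .inl) (gv g (w ∘ .inl))) = q' w := by
  obtain ⟨-, s, s1, s2⟩ := (mem_blA_off e).1 (by rwa [Sum.elim_comp_inl_inr])
  refine (h'.eq_iff _ ((mem_blA_off e).2 ⟨a.1, 1, one_ne_zero, (one_smul _ _).symm⟩) _ a).2
    ⟨fun o => o.elim s 1, unit_option.2 ⟨isUnit_one, s1⟩, ?_⟩
  rw [scl_blP]
  exact (Sum.elim_comp_inl_inr w).symm.trans (congrArg₂ Sum.elim (scl_one _).symm s2)

theorem bl_bijOn (h : Of X π A q) (h' : Of X' (blP K π) (blA A g) q')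
    (hc : Cut π A (A ∩ q ⁻¹' C) δ g) (hβ : ∀ w ∈ blA A g, β (q' w) = q (w ∘ .inl)) :
    BijOn β (β ⁻¹' Cᶜ) Cᶜ := by
  refine ⟨fun _ a => a, fun b hb b' hb' e => ?_, fun p hp => ?_⟩
  · obtain ⟨w, a, rfl⟩ := h'.surj b
    obtain ⟨w', a', rfl⟩ := h'.surj b'
    have f : gv g (w ∘ .inl) ≠ 0 := fun e => hb (hβ w a ▸ ((hc.zero _ a.1).2 e).2)
    obtain ⟨t, d, k⟩ := (h.eq_iff _ a.1 _ a'.1).1 ((hβ w a).symm.trans (e.trans (hβ w' a')))
    rw [← h'.bl_mk a f, ← h'.bl_mk a' fun e => hb' (hβ w' a' ▸ ((hc.zero _ a'.1).2 e).2), k,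
      gv_scl hc.hom d]
    exact (h'.scl ((mem_blA_off f).2 ⟨a.1, 1, one_ne_zero, (one_smul _ _).symm⟩)
      ((unit_option (t := fun o => o.elim (cha δ t) t)).2 ⟨d, cha_ne d⟩)).symm.trans
        (congrArg q' (scl_blP _ _ _))
  · obtain ⟨y, a, rfl⟩ := h.surj p
    have b := hβ _ ((mem_blA_off fun e => hp ((hc.zero _ a).2 e).2).2 ⟨a, 1, one_ne_zero, rfl⟩)
    exact ⟨_, Set.mem_of_eq_of_mem (s := Cᶜ) b hp, b⟩

theorem bl_off (h : Of X π A q) (h' : Of X' (blP K π) (blA A g) q')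
    (hc : Cut π A (A ∩ q ⁻¹' C) δ g) (hβ : ∀ w ∈ blA A g, β (q' w) = q (w ∘ .inl)) {b : X'.M}
    (hb : β b ∉ C) (hφ : X.Co (β b) φ) : X'.Co b (φ ∘ β) := by
  obtain ⟨w, a, rfl⟩ := h'.surj b
  have e : gv g (w ∘ .inl) ≠ 0 := fun e => hb (hβ w a ▸ ((hc.zero _ a.1).2 e).2)
  obtain ⟨σ, d, f⟩ := h.pv.slc a.1
  have k := d.bl_off h.pv h'.pv (f.symm ▸ e)
  rw [← h'.bl_mk a e, ← f] at hφ ⊢
  exact h.co_comp (x := 0) h' k d (k.mem.mono fun _ => hβ _) hφ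

theorem bl_ovr (h : Of X π A q) (h' : Of X' (blP K π) (blA A g) q') (hC : IsClosed C)
    (hc : Cut π A (A ∩ q ⁻¹' C) δ g) (hβ : ∀ w ∈ blA A g, β (q' w) = q (w ∘ .inl)) {b : X'.M}
    (hb : β b ∈ C) (hφ : X.Co (β b) φ) {B : Finset (Fin n)}
    (e : ∀ᶠ z in 𝓝 (β b), z ∈ C ↔ φ z ∈ Zs B) :
    ∃ i ∈ B, ∃ φ', X'.Co b φ' ∧ φ ∘ β =ᶠ[𝓝 b] H1.σ B i ∘ φ' := by
  obtain ⟨w, a, rfl⟩ := h'.surj b
  rw [hβ w a] at hb hφ e
  obtain ⟨σ, x, x1, x2, x3, x4, x5⟩ := h.adapt a.1 hb hφ e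
  obtain ⟨G, d⟩ := hc.blS (h.mc_ctr hC) x4 x5
  obtain ⟨u, u1, u2⟩ := (d.fib hc.hom (u := w ∘ .inr)).1 (by rwa [x1, x2, Sum.elim_comp_inl_inr])
  obtain ⟨i, hi⟩ := ne_iff.1 u1
  replace hi : u i ≠ 0 := hi
  let z : W n := (spl B).symm (update ((u i)⁻¹ • u) i 0, x)
  have z0 : spl B z = _ := (spl B).apply_symm_apply _
  have z1 : update (spl B z).1 i 1 = (u i)⁻¹ • u := by
    rw [z0, update_idem, update_eq_self_iff]
    exact (inv_mul_cancel₀ hi).symm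
  have z2 : (spl B z).1 i = 0 := (congrArg (·.1 i) z0).trans (update_self ..)
  have z3 : (spl B z).2 = x := by rw [z0]
  have up : ∀ {P : Type} [NormedAddCommGroup P] [NormedSpace ℂ P] {f : P → B → ℂ} {e : P → ℂ} {p : P},
      AnalyticAt ℂ f p → AnalyticAt ℂ e p → AnalyticAt ℂ (fun s => update (f s) i (e s)) p :=
    fun hf he => analyticAt_pi_iff.2 fun l => by
      simp only [update_apply]
      split_ifs
      exacts [he, analyticAt_pi_iff.1 hf l]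
  have a1 : AnalyticAt ℂ (fun v => (spl B v).1) z := analyticAt_fst.comp ((spl B).analyticAt z)
  have k := d.std hc.hom (b := fun v => (spl B v).2) (up a1 (analyticAt_const (v := 1)))
    (analyticAt_pi_iff.1 a1 i)
    (analyticAt_snd.comp ((spl B).analyticAt z)) z2 z3 (.proj i)
    (.of_forall fun _ => update_self ..) (κ := fun p => (spl B).symm (update p.1 i p.2.1, p.2.2))
    (((spl B).symm.analyticAt _).comp ((up analyticAt_fst (analyticAt_fst.comp analyticAt_snd)).prod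
      (analyticAt_snd.comp analyticAt_snd)))
    (.of_forall fun v => by
      rw [update_idem, update_eq_self]
      exact (spl B).symm_apply_apply v)
    ((spl B).toLinearEquiv.finrank_eq.trans finrank_prod)
  have s : ∀ v, (spl B).symm ((spl B v).1 i • update (spl B v).1 i 1, (spl B v).2) = H1.σ B i v :=
    fun v => (spl B).symm_apply_eq.2 (Prod.ext (funext fun l => by
      by_cases f : l = i
      · subst f
        simp [H1.σ, spl]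
      · simp [H1.σ, spl, f]) (funext fun l => (if_neg fun f => l.2 f.1).symm))
  obtain ⟨φ', p1, -, p2⟩ := h'.exists_co k
  have f : q' w = _ := ((h'.eq_iff _ k.mem0 _ a).2 ⟨fun o => o.elim (u i) 1,
    unit_option.2 ⟨isUnit_one, hi⟩, by
      rw [z1, z2, z3, BlD.par_zero, scl_blP, x1, x2, ← Sum.elim_comp_inl_inr w, u2]
      refine congrArg₂ Sum.elim (scl_one _).symm ?_
      rw [map_smul]
      exact (smul_inv_smul₀ hi _).symm⟩).symm
  rw [f]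
  refine ⟨i, i.2, φ', p1, (h'.ev_slc k).2 ?_⟩
  have t : H1.σ B i z = φ (q (w ∘ .inl)) := by rw [← s, z2, zero_smul, z3, x1]
  filter_upwards [p2, k.mem, (σ_an B i z).continuousAt.eventually (t.symm ▸ x3)] with v v1 v2 v3
  rw [comp_apply, comp_apply, v1, hβ _ v2, ← v3, ← s]
  rfl

/-- **The blow-up.** The local isomorphisms upstairs are all the ones that cover a given one. -/
theorem bl (h : Of X π A q) (hC : IsClosed C) (h0 : 0 < c) (hs : ∀ p ∈ C, ∃ (φ : X.M → W n)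
    (B : Finset (Fin n)), X.Co p φ ∧ B.card = c ∧ ∀ᶠ z in 𝓝 p, z ∈ C ↔ φ z ∈ Zs B)
    (hc : Cut π A (A ∩ q ⁻¹' C) δ g) : ∃ (X' : Mf n) (q' : _) (β : X'.M → X.M),
      Of X' (blP K π) (blA A g) q' ∧ Mf.IsBl β C ∧ BijOn β (β ⁻¹' Cᶜ) Cᶜ ∧ Mf.Full β ∧
      ∀ w ∈ blA A g, β (q' w) = q (w ∘ .inl) := by
  have a := hc.bl h.pv (h.pv_ctr hC hs)
  obtain ⟨y, hy⟩ := h.nonempty
  obtain ⟨u, hu⟩ : ∃ u, Sum.elim y u ∈ blA A g := by
    by_cases e : q y ∈ C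
    · obtain ⟨φ, B, -, b, -⟩ := hs _ e
      have := B.card_le_univ
      rw [Fintype.card_fin] at this
      exact hc.bl_surj h.pv (h.pv_ctr hC hs) (by omega) hy
    · exact ⟨_, (mem_blA_off fun b => e ((hc.zero y hy).2 b).2).2 ⟨hy, 1, one_ne_zero, rfl⟩⟩
  obtain ⟨X', q', h', e⟩ := a.exists_of ⟨_, hu⟩
  obtain ⟨β, b⟩ := h'.desc (f := fun w => q (w ∘ .inl)) fun t d w f =>
    h.scl f.1 (unit_option.1 d).1
  have k := h'.ext (Γ := {γ' | X'.Hol γ' ∧ ∃ γ ∈ X.Γ, Mf.Cov β γ' γ})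
    (fun γ' ⟨d, γ, f, l⟩ => ⟨d.symm, γ.symm, X.symm γ f, l.symm⟩) (fun _ d => d.1)
    (e ▸ empty_subset _)
  refine ⟨_, _, ?_, k, ?_⟩
  · exact β
  exact ⟨⟨h'.continuous b (h.cont.comp
    (fun w _ => (an_pre _ w).continuousAt.continuousWithinAt) fun _ d => d.1),
    fun _ d _ => h.bl_off k hc b d, fun _ d _ _ f => h.bl_ovr k hC hc b d f, fun _ d => d.2,
    fun _ _ => h'.reg ▸ trivial⟩, h.bl_bijOn h' hc b, fun _ d _ f => ⟨d, f⟩, b⟩

end Of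

end Vale.Agent.P287Q
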