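import Vale.Agent.P287Q.Pv.Slc

/-!
# The blow-up of a multicone: local description
-/

set_option linter.unusedSectionVars false

namespace Vale.Agent.P287Q

open Set Function Topology Filter P269 P269.Holo Module MvPolynomial

variable {J R K E F : Type} [Fintype J] [Fintype R] [Fintype K] [NormedAddCommGroup E]
  [NormedSpace ℂ E] [NormedAddCommGroup F] [NormedSpace ℂ F] [FiniteDimensional ℂ E]
  [FiniteDimensional ℂ F] {π : J → R} {A B C : Set (J → ℂ)} {y : J → ℂ} {u : K → ℂ}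
  {w : J ⊕ K → ℂ} {g : K → MvPolynomial J ℂ} {δ : R → ℤ} {n m : ℕ}

theorem an_gv (g : K → MvPolynomial J ℂ) (y : J → ℂ) : AnalyticAt ℂ (gv g) y :=
  analyticAt_pi_iff.2 fun k => AnalyticOnNhd.eval_mvPolynomial (g k) y trivial

theorem an_gv' {P : Type*} [NormedAddCommGroup P] [NormedSpace ℂ P] {a : P → J → ℂ} {q : P}
    (ha : AnalyticAt ℂ a q) : AnalyticAt ℂ (fun p => gv g (a p)) q :=
  AnalyticAt.comp (g := gv g) (f := a) (an_gv g _) ha

theorem an_elim {P : Type*} [NormedAddCommGroup P] [NormedSpace ℂ P] {a : P → J → ℂ}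
    {b : P → K → ℂ} {q : P} (ha : AnalyticAt ℂ a q) (hb : AnalyticAt ℂ b q) :
    AnalyticAt ℂ (fun p => (Sum.elim (a p) (b p) : J ⊕ K → ℂ)) q :=
  analyticAt_pi_iff.2 fun j => j.rec (analyticAt_pi_iff.1 ha) (analyticAt_pi_iff.1 hb)

theorem an_pre {J' : Type} [Fintype J'] (ι : J → J') (w : J' → ℂ) :
    AnalyticAt ℂ (fun w : J' → ℂ => w ∘ ι) w :=
  analyticAt_pi_iff.2 fun j => analyticAt_pi_iff.1 analyticAt_id (ι j)

theorem fderiv_pre {J' : Type} [Fintype J'] (ι : J → J') (w v : J' → ℂ) :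
    fderiv ℂ (fun w : J' → ℂ => w ∘ ι) w v = v ∘ ι :=
  congr($((ContinuousLinearMap.pi fun j => ContinuousLinearMap.proj (R := ℂ)
    (φ := fun _ : J' => ℂ) (ι j)).fderiv (x := w)) v)

theorem mem_blA : Sum.elim y u ∈ blA A g ↔ y ∈ A ∧ u ≠ 0 ∧ ∃ e : ℂ, gv g y = e • u ∧
    (e = 0 → ∃ v ∈ tn A y, fderiv ℂ (gv g) y v = u) := Iff.rfl

theorem blE_eq {e : ℂ} (hu : w ∘ .inr ≠ 0) (h : gv g (w ∘ .inl) = e • (w ∘ .inr)) : blE g w = e :=
  smul_left_injective ℂ hu ((Classical.epsilon_spec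
    (p := fun e : ℂ => gv g (w ∘ .inl) = e • (w ∘ .inr)) ⟨e, h⟩).symm.trans h)

theorem blE_spec (h : w ∈ blA A g) : gv g (w ∘ .inl) = blE g w • (w ∘ .inr) :=
  let ⟨_, a, _, b, _⟩ := h
  blE_eq a b ▸ b

theorem blE_zero (h : w ∈ blA A g) : blE g w = 0 ↔ gv g (w ∘ .inl) = 0 := by
  rw [blE_spec h, smul_eq_zero_iff_left h.2.1]

theorem holOn_blE (h : w ∈ blA A g) : HolOn (blA A g) (blE g) w := by
  obtain ⟨k, hk⟩ := ne_iff.1 h.2.1
  have a : AnalyticAt ℂ (fun s : J ⊕ K → ℂ => s (.inr k)) w := analyticAt_pi_iff.1 analyticAt_id _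
  have a' : AnalyticAt ℂ (fun s : J ⊕ K → ℂ => gv g (s ∘ .inl)) w := an_gv' (an_pre Sum.inl w)
  refine ⟨fun s => gv g (s ∘ .inl) k / s (.inr k), (analyticAt_pi_iff.1 a' k).fun_div a hk, ?_⟩
  filter_upwards [a.continuousAt.eventually_ne hk] with s b c
  rw [eq_div_iff b, blE_spec c]
  rfl

theorem mem_blA_off (hy : gv g y ≠ 0) :
    Sum.elim y u ∈ blA A g ↔ y ∈ A ∧ ∃ s : ℂ, s ≠ 0 ∧ u = s • gv g y := by
  refine and_congr_right fun _ => ⟨fun ⟨_, e, a, _⟩ => ?_, fun ⟨s, a, b⟩ => ?_⟩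
  · have b : e ≠ 0 := fun c => hy (a.trans (by rw [c, zero_smul]))
    exact ⟨e⁻¹, inv_ne_zero b, ((congrArg (e⁻¹ • ·) a).trans (inv_smul_smul₀ b _)).symm⟩
  · exact ⟨b ▸ smul_ne_zero a hy, s⁻¹, ((congrArg (s⁻¹ • ·) b).trans (inv_smul_smul₀ a _)).symm,
      fun c => (inv_ne_zero a c).elim⟩

theorem mem_blA_on (hy : gv g y = 0) :
    Sum.elim y u ∈ blA A g ↔ y ∈ A ∧ u ≠ 0 ∧ ∃ v ∈ tn A y, fderiv ℂ (gv g) y v = u :=
  and_congr_right fun _ => and_congr_right fun a =>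
    ⟨fun ⟨_, b, c⟩ => c ((smul_eq_zero_iff_left a).1 (b.symm.trans hy)),
      fun b => ⟨0, hy.trans (zero_smul _ _).symm, fun _ => b⟩⟩

/-- Diagonal automorphisms lift to the blow-up. -/
theorem blA_diag {c : J → ℂ} {d : K → ℂ} {s : ℂ} (hd : IsUnit d) (hs : s ≠ 0)
    (hA : ∀ y ∈ A, scl id c y ∈ A) (hm : ∀ y ∈ A, ∃ k, MfdAt A k y)
    (hg : ∀ y, gv g (scl id c y) = scl id d (gv g y)) (h : Sum.elim y u ∈ blA A g) :
    Sum.elim (scl id c y) (s • scl id d u) ∈ blA A g := by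
  obtain ⟨h1, h2, e, h3, h4⟩ := mem_blA.1 h
  have l : ∀ (a : ℂ) (v : K → ℂ), scl id d (a • v) = a • scl id d v := fun a v =>
    funext fun _ => mul_left_comm _ _ _
  refine mem_blA.2 ⟨hA y h1, smul_ne_zero hs fun a => h2 ?_, e / s, ?_, fun a => ?_⟩
  · rw [← scl_inv_scl (π := id) hd u, a]
    exact funext fun _ => mul_zero _
  · rw [hg, h3, l, smul_smul, div_mul_cancel₀ _ hs]
  · obtain ⟨v, v1, rfl⟩ := h4 ((div_eq_zero_iff.1 a).resolve_right hs)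
    obtain ⟨k, hk⟩ := hm y h1
    have a1 : AnalyticAt ℂ (scl id c) y := an_scl analyticAt_const analyticAt_id
    have a2 : AnalyticAt ℂ (scl id d) (gv g y) := an_scl analyticAt_const analyticAt_id
    refine ⟨s • _, Submodule.smul_mem _ _ (fderiv_map_tn hk a1 (.of_forall hA) v1), ?_⟩
    rw [map_smul, ← ContinuousLinearMap.comp_apply, ← fderiv_comp_an (an_gv g _) a1, funext hg,
      fderiv_comp_an a2 (an_gv g _), ContinuousLinearMap.comp_apply, fderiv_scl]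

theorem exists_linv {P : Type*} [NormedAddCommGroup P] [NormedSpace ℂ P] {G : P → F →L[ℂ] E} {q : P}
    (h : AnalyticAt ℂ G q) (hi : Injective (G q)) :
    ∃ L : P → E →L[ℂ] F, AnalyticAt ℂ L q ∧ ∀ᶠ p in 𝓝 q, ∀ a, L p (G p a) = a := by
  obtain ⟨L, a, b⟩ := IsFrame.exists_leftInv (ι := fun p : P => p)
    (V := {p | p.2 ∈ range (G p.1)}) ⟨.of_an h, hi, .of_forall fun _ _ => Iff.rfl⟩ continuousAt_id
  exact ⟨L, holAt_id_iff.1 a, b⟩

/-- In the parametrisation `ψ` the equations are `G p p.1`. -/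
structure BlD (A : Set (J → ℂ)) (g : K → MvPolynomial J ℂ) (ψ : F × E → J → ℂ) (x : E)
    (G : F × E → F →L[ℂ] K → ℂ) : Prop where
  prm : Prm A ψ (0, x)
  an : AnalyticAt ℂ G (0, x)
  eq : ∀ᶠ p in 𝓝 (0, x), gv g (ψ p) = G p p.1
  inj : Injective (G (0, x))

variable {ψ : F × E → J → ℂ} {x : E} {G : F × E → F →L[ℂ] K → ℂ}

theorem fderiv_lin {f : F × E → K → ℂ} (h : AnalyticAt ℂ G (0, x))
    (e : ∀ᶠ p in 𝓝 (0, x), f p = G p p.1) (v : F × E) : fderiv ℂ f (0, x) v = G (0, x) v.1 := by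
  rw [EventuallyEq.fderiv_eq e,
    (h.differentiableAt.hasFDerivAt.clm_apply (hasFDerivAt_fst (p := (0, x)))).fderiv]
  simp

namespace BlD

theorem eventually (h : BlD A g ψ x G) : ∀ᶠ z in 𝓝 x, BlD A g ψ z G := by
  have := FiniteDimensional.complete ℂ (F →L[ℂ] K → ℂ)
  filter_upwards [(tendsto_inr 0 x).eventually (h.prm.eventually.and
    (h.an.eventually_analyticAt.and (h.eq.eventually_nhds.and
      (eventually_injective h.an.continuousAt h.inj))))] with z a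
  exact ⟨a.1, a.2.1, a.2.2.1, a.2.2.2⟩

theorem fderiv_eq (h : BlD A g ψ x G) (v : F × E) :
    fderiv ℂ (gv g) (ψ (0, x)) (fderiv ℂ ψ (0, x) v) = G (0, x) v.1 := by
  rw [← fderiv_lin h.an h.eq, fderiv_comp_an (an_gv g _) h.prm.an]
  rfl

theorem img (h : BlD A g ψ x G) :
    (∃ v ∈ tn A (ψ (0, x)), fderiv ℂ (gv g) (ψ (0, x)) v = u) ↔ ∃ a, G (0, x) a = u :=
  ⟨fun ⟨_, a, b⟩ => by
    obtain ⟨v, rfl⟩ := h.prm.mem_tn.1 a
    exact ⟨_, (h.fderiv_eq v).symm.trans b⟩,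
  fun ⟨a, b⟩ => ⟨_, h.prm.mem_tn.2 ⟨(a, 0), rfl⟩, (h.fderiv_eq _).trans b⟩⟩

theorem zero (h : BlD A g ψ x G) : ∀ᶠ p in 𝓝 (0, x), gv g (ψ p) = 0 ↔ p.1 = 0 := by
  filter_upwards [h.eq, eventually_injective h.an.continuousAt h.inj] with p a b
  rw [a, map_eq_zero_iff _ b]

/-- The blow-up near the fibre. -/
theorem mem (h : BlD A g ψ x G) : ∀ᶠ p in 𝓝 (0, x), ∀ u, Sum.elim (ψ p) u ∈ blA A g ↔
    ∃ a, a ≠ 0 ∧ u = G p a ∧ ∃ e : ℂ, p.1 = e • a := by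
  filter_upwards [h.eq, eventually_injective h.an.continuousAt h.inj, h.prm.mem,
    (continuousAt_snd (p := ((0 : F), x))).eventually h.eventually] with ⟨p, z⟩ a b c d u
  by_cases e : p = 0
  · subst e
    rw [mem_blA_on (a.trans (map_zero _)), d.img]
    exact ⟨fun ⟨_, f1, v, f2⟩ => ⟨v, fun f => f1 (by rw [← f2, f, map_zero]), f2.symm, 0,
      (zero_smul _ _).symm⟩, fun ⟨v, f1, f2, _⟩ =>
        ⟨c, f2 ▸ (map_ne_zero_iff _ b).2 f1, v, f2.symm⟩⟩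
  · rw [mem_blA_off (a ▸ (map_ne_zero_iff _ b).2 e), a]
    refine ⟨fun ⟨_, s, f1, f2⟩ => ⟨s • p, smul_ne_zero f1 e, by rw [f2, map_smul], s⁻¹,
      (inv_smul_smul₀ f1 _).symm⟩, fun ⟨v, _, f2, s, f3⟩ => ?_⟩
    have f4 : s ≠ 0 := fun f => e (f3.trans (by rw [f, zero_smul]))
    exact ⟨c, s⁻¹, inv_ne_zero f4, by rw [f2, ← map_smul, f3, inv_smul_smul₀ f4]⟩

/-- the parametrisation of the blow-up -/
noncomputable def par (ψ : F × E → J → ℂ) (G : F × E → F →L[ℂ] K → ℂ) (q : F × ℂ × E) : J ⊕ K → ℂ :=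
  Sum.elim (ψ (q.2.1 • q.1, q.2.2)) (G (q.2.1 • q.1, q.2.2) q.1)

theorem an_dn (q : F × ℂ × E) : AnalyticAt ℂ (fun q : F × ℂ × E => (q.2.1 • q.1, q.2.2)) q :=
  ((analyticAt_fst.comp analyticAt_snd).smul analyticAt_fst).prod
    (analyticAt_snd.comp analyticAt_snd)

theorem tendsto_dn (a : F) (x : E) :
    Tendsto (fun q : F × ℂ × E => (q.2.1 • q.1, q.2.2)) (𝓝 (a, 0, x)) (𝓝 (0, x)) := by
  simpa using (an_dn (a, 0, x)).continuousAt.tendsto

theorem par_zero (a : F) : par ψ G (a, 0, x) = Sum.elim (ψ (0, x)) (G (0, x) a) := by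
  simp [par]

theorem an_par (h : BlD A g ψ x G) (a : F) : AnalyticAt ℂ (par ψ G) (a, 0, x) :=
  an_elim (AnalyticAt.comp (g := ψ) (by simpa using h.prm.an) (an_dn _))
    (an_apply (AnalyticAt.comp (g := G) (by simpa using h.an) (an_dn _)) analyticAt_fst)

theorem par_mem (h : BlD A g ψ x G) {a : F} (ha : a ≠ 0) :
    ∀ᶠ q in 𝓝 (a, (0 : ℂ), x), par ψ G q ∈ blA A g ∧ blE g (par ψ G q) = q.2.1 := by
  filter_upwards [(tendsto_dn a x).eventually (h.mem.and h.eq),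
    (continuousAt_fst (p := (a, (0 : ℂ), x))).eventually_ne ha] with q b c
  have := (b.1 _).2 ⟨_, c, rfl, _, rfl⟩
  exact ⟨this, blE_eq this.2.1 (b.2.trans (map_smul _ _ _))⟩

/-- **The blow-up is smooth**: `(a, e, z) ↦ (e a, z)`. -/
theorem prm_par (h : BlD A g ψ x G) {a : F} (ha : a ≠ 0) : Prm (blA A g) (par ψ G) (a, 0, x) := by
  obtain ⟨ω, w1, w2, w3, w4⟩ := h.prm.exists_inv
  obtain ⟨L, l1, l2⟩ := exists_linv h.an h.inj
  have e0 : par ψ G (a, 0, x) ∘ .inl = ψ (0, x) := by rw [par_zero]; rfl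
  have a1 : AnalyticAt ℂ (fun s : J ⊕ K → ℂ => ω (s ∘ .inl)) (par ψ G (a, 0, x)) :=
    AnalyticAt.comp (g := ω) (by rwa [e0]) (an_pre _ _)
  have t1 := a1.continuousAt.tendsto
  rw [e0, w2] at t1
  refine .of_inv (h.an_par a)
    (w := fun s => (L (ω (s ∘ .inl)) (s ∘ .inr), blE g s, (ω (s ∘ .inl)).2))
    ((HolOn.of_an (an_apply (AnalyticAt.comp (g := L) (by rwa [e0, w2]) a1) (an_pre _ _))).prod
      ((holOn_blE (h.par_mem ha).self_of_nhds.1).prod (.of_an (analyticAt_snd.comp a1)))) ?_ ?_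
  · filter_upwards [h.par_mem ha, (tendsto_dn a x).eventually (w3.and l2)] with q b c
    have e : ω (par ψ G q ∘ .inl) = (q.2.1 • q.1, q.2.2) := c.1
    exact ⟨b.1, by rw [e, b.2]; exact Prod.ext (c.2 _) rfl⟩
  · filter_upwards [(an_pre Sum.inl (par ψ G (a, 0, x))).continuousAt.eventually (e0.symm ▸ w4),
      t1.eventually (h.mem.and (l2.and h.eq))] with s b c d
    have e1 := b d.1
    obtain ⟨v, -, v2, e, v3⟩ := (c.1 (s ∘ .inr)).1 (by rwa [e1, Sum.elim_comp_inl_inr])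
    have e2 : blE g s = e := blE_eq d.2.1 (by rw [← e1, c.2.2, v3, map_smul, ← v2])
    have e3 : (e • v, (ω (s ∘ .inl)).2) = ω (s ∘ .inl) := Prod.ext v3.symm rfl
    rw [par, v2, c.2.1, e2]
    rw [e3, e1, ← v2, Sum.elim_comp_inl_inr]

/-- points of the fibre -/
theorem fib (h : BlD A g ψ x G) :
    Sum.elim (ψ (0, x)) u ∈ blA A g ↔ ∃ a, a ≠ 0 ∧ u = G (0, x) a :=
  (h.mem.self_of_nhds u).trans (exists_congr fun _ => and_congr_right fun _ =>
    and_iff_left ⟨0, (zero_smul _ _).symm⟩)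

theorem closed (h : BlD A g ψ x G) (hu : u ≠ 0) (hw : Sum.elim (ψ (0, x)) u ∈ closure (blA A g)) :
    Sum.elim (ψ (0, x)) u ∈ blA A g := by
  obtain ⟨ω, w1, w2, -, w4⟩ := h.prm.exists_inv
  obtain ⟨L, l1, l2⟩ := exists_linv h.an h.inj
  have a0 := an_pre (Sum.inl : J → J ⊕ K) (Sum.elim (ψ (0, x)) u)
  have a1 : AnalyticAt ℂ (fun s : J ⊕ K → ℂ => ω (s ∘ .inl)) (Sum.elim (ψ (0, x)) u) :=
    AnalyticAt.comp (g := ω) w1 a0
  have t1 : Tendsto _ _ (𝓝 (ω (ψ (0, x)))) := a1.continuousAt.tendsto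
  rw [w2] at t1
  have a2 := (an_apply (AnalyticAt.comp (g := G) (by exact w2.symm ▸ h.an) a1)
    (an_apply (AnalyticAt.comp (g := L) (by exact w2.symm ▸ l1) a1) (an_pre .inr _))).continuousAt
  have e : u = G (ω (ψ (0, x))) (L (ω (ψ (0, x))) u) := by
    have := mem_closure_iff_nhdsWithin_neBot.1 hw
    refine tendsto_nhds_unique_of_eventuallyEq (l := 𝓝[blA A g] Sum.elim (ψ (0, x)) u)
      ((an_pre Sum.inr (Sum.elim (ψ (0, x)) u)).continuousAt.tendsto.mono_left nhdsWithin_le_nhds)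
      (a2.tendsto.mono_left nhdsWithin_le_nhds) (eventually_nhdsWithin_iff.2 ?_)
    filter_upwards [a0.continuousAt.eventually w4, t1.eventually (h.mem.and l2)] with s b c d
    obtain ⟨v, -, v2, -⟩ := (c.1 (s ∘ .inr)).1 (by rwa [b d.1, Sum.elim_comp_inl_inr])
    rw [comp_apply, comp_apply, v2, c.2]
  rw [w2] at e
  exact h.fib.2 ⟨_, fun f => hu (by rw [e, f, map_zero]), e⟩

end BlD

/-- the parametrisation of the blow-up off the centre -/
theorem prm_off {ψ : E → J → ℂ} (h : Prm A ψ x) (hg : gv g (ψ x) ≠ 0) {s : ℂ} (hs : s ≠ 0) :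
    Prm (blA A g) (fun p : E × ℂ => Sum.elim (ψ p.1) (p.2 • gv g (ψ p.1))) (x, s) := by
  obtain ⟨ω, w1, w2, w3, w4⟩ := h.exists_inv
  have a0 : AnalyticAt ℂ (fun p : E × ℂ => ψ p.1) (x, s) :=
    h.an.comp (f := Prod.fst) (x := (x, s)) analyticAt_fst
  have a1 := an_pre (Sum.inl : J → J ⊕ K) (Sum.elim (ψ x) (s • gv g (ψ x)))
  have m : ∀ᶠ p : E × ℂ in 𝓝 (x, s), Sum.elim (ψ p.1) (p.2 • gv g (ψ p.1)) ∈ blA A g ∧
      blE g (Sum.elim (ψ p.1) (p.2 • gv g (ψ p.1))) = p.2⁻¹ := by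
    filter_upwards [(an_gv' a0).continuousAt.eventually_ne hg,
      (continuousAt_snd (p := (x, s))).eventually_ne hs,
      (continuousAt_fst (p := (x, s))).eventually h.mem] with p a b c
    have := (mem_blA_off a).2 ⟨c, _, b, rfl⟩
    exact ⟨this, blE_eq this.2.1 (inv_smul_smul₀ b _).symm⟩
  refine .of_inv (an_elim a0 (analyticAt_snd.smul (an_gv' a0)))
    (w := fun w => (ω (w ∘ .inl), (blE g w)⁻¹))
    ((HolOn.of_an (AnalyticAt.comp (g := ω) (f := fun w : J ⊕ K → ℂ => w ∘ .inl)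
      (by exact w1) a1)).prod ((holOn_blE m.self_of_nhds.1).comp_an
      m.self_of_nhds.1 (analyticAt_inv (m.self_of_nhds.2 ▸ inv_ne_zero hs)))) ?_ ?_
  · filter_upwards [m, (continuousAt_fst (p := (x, s))).eventually w3] with p a b
    exact ⟨a.1, Prod.ext b (by rw [a.2, inv_inv])⟩
  · filter_upwards [a1.continuousAt.eventually w4,
      (an_gv' a1).continuousAt.eventually_ne hg] with w a b c
    rw [a c.1, blE_spec c, inv_smul_smul₀ (mt (blE_zero c).1 b), Sum.elim_comp_inl_inr]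

variable [DecidableEq R]

theorem Cut.restrict (h : Cut π B C δ g) (h1 : C ⊆ A) (h2 : A ⊆ B) : Cut π A C δ g :=
  ⟨h.hom, h1, fun y a => h.zero y (h2 a), fun y a v b => h.jac y a v (tn_mono h2 b)⟩

/-- Adapted parametrisations give the local form of the equations. -/
theorem Cut.blD (h : Cut π A C δ g) (hψ : Prm A ψ (0, x))
    (e : ∀ᶠ p in 𝓝 (0, x), ψ p ∈ C ↔ p.1 = 0) : ∃ G, BlD A g ψ x G := by
  obtain ⟨G, g1, g2⟩ := hadamard (f := fun p => gv g (ψ p)) (an_gv' hψ.an)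
  have g3 : ∀ᶠ p in 𝓝 (0, x), gv g (ψ p) = G p p.1 := by
    filter_upwards [((tendsto_inr 0 x).comp (continuousAt_snd (p := ((0 : F), x)))).eventually
      (e.and hψ.mem)] with p a
    rw [g2, show gv g (ψ (0, p.2)) = 0 from (h.zero _ a.2).1 (a.1.2 rfl), zero_add]
  refine ⟨G, hψ, g1, g3, (injective_iff_map_eq_zero _).2 fun v hv => ?_⟩
  obtain ⟨z, hz⟩ := (hψ.slice h.sub e).mem_tn.1 (h.jac _ (e.self_of_nhds.2 rfl) _
    (hψ.mem_tn.2 ⟨(v, 0), rfl⟩) (by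
      rw [← hv, ← fderiv_lin g1 g3 (v, 0), fderiv_comp_an (an_gv g _) hψ.an]
      rfl))
  rw [fderiv_inr hψ.an] at hz
  exact (congrArg Prod.fst (hψ.imm hz)).symm

end Vale.Agent.P287Q
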