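import Vale.Agent.P287Q.Pv.Defs
import Vale.Agent.P269.Holo.Morse

/-!
# Parametrisations of subsets
-/

set_option linter.unusedSectionVars false

namespace Vale.Agent.P287Q

open Set Function Topology Filter P269 P269.Holo Module

variable {W W' E F B : Type*} [NormedAddCommGroup W] [NormedSpace ℂ W] [NormedAddCommGroup E]
  [NormedSpace ℂ E] [NormedAddCommGroup F] [NormedSpace ℂ F] [NormedAddCommGroup W']
  [NormedSpace ℂ W'] [NormedAddCommGroup B] [NormedSpace ℂ B]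
  [FiniteDimensional ℂ W] [FiniteDimensional ℂ E] [FiniteDimensional ℂ F]
  [FiniteDimensional ℂ W'] [FiniteDimensional ℂ B]
  {A C : Set W} {A' : Set W'} {ψ : E → W} {x : E} {y : W} {n m : ℕ}

namespace Prm

theorem ev (h : Prm A ψ x) {p : W → Prop} :
    (∀ᶠ z in 𝓝 x, p (ψ z)) ↔ ∀ᶠ s in 𝓝 (ψ x), s ∈ A → p s := by
  rw [← eventually_nhdsWithin_iff, ← h.nh, eventually_map]

theorem mem (h : Prm A ψ x) : ∀ᶠ z in 𝓝 x, ψ z ∈ A := h.ev.2 (.of_forall fun _ a => a)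

theorem mem0 (h : Prm A ψ x) : ψ x ∈ A := h.mem.self_of_nhds

theorem exists_inv (h : Prm A ψ x) : ∃ w : W → E, AnalyticAt ℂ w (ψ x) ∧ w (ψ x) = x ∧
    (∀ᶠ z in 𝓝 x, w (ψ z) = z) ∧ ∀ᶠ s in 𝓝 (ψ x), s ∈ A → ψ (w s) = s := by
  obtain ⟨w, h1, h2⟩ := exists_leftInv h.an h.imm
  exact ⟨w, h1, h2.self_of_nhds, h2,
    (h.ev (p := fun s => ψ (w s) = s)).1 (h2.mono fun z e => by rw [e])⟩

theorem of_inv (ha : AnalyticAt ℂ ψ x) {w : W → E} (hw : HolOn A w (ψ x))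
    (h1 : ∀ᶠ z in 𝓝 x, ψ z ∈ A ∧ w (ψ z) = z) (h2 : ∀ᶠ s in 𝓝 (ψ x), s ∈ A → ψ (w s) = s) :
    Prm A ψ x := by
  obtain ⟨Φ, f1, f2⟩ := id hw
  have t : Tendsto ψ (𝓝 x) (𝓝[A] (ψ x)) :=
    tendsto_nhdsWithin_iff.2 ⟨ha.continuousAt, h1.mono fun _ a => a.1⟩
  refine ⟨ha, injective_fderiv_of_leftInv f1 ha ?_, le_antisymm t fun U hU => ?_⟩
  · filter_upwards [h1, ha.continuousAt.eventually f2] with z a b
    rw [← b a.1, a.2]
  · have t' := hw.tendsto h1.self_of_nhds.1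
    rw [h1.self_of_nhds.2] at t'
    filter_upwards [t'.eventually hU, eventually_nhdsWithin_iff.2 h2] with s a b
    exact b ▸ a

theorem isParam (h : Prm A ψ x) : ∃ φ : E → A, IsParam Subtype.val φ x ∧
    ∀ᶠ z in 𝓝 x, (φ z).1 = ψ z := by
  classical
  have := FiniteDimensional.complete ℂ W
  let φ : E → A := fun z => if e : ψ z ∈ A then ⟨ψ z, e⟩ else ⟨ψ x, h.mem0⟩
  have e : ∀ᶠ z in 𝓝 x, (φ z).1 = ψ z :=
    h.mem.mono fun z a => congrArg Subtype.val (dif_pos a)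
  have e' : (fun z => (φ z).1) =ᶠ[𝓝 x] ψ := e
  refine ⟨φ, .of_map_nhds ?_ (.of_forall fun _ => continuous_subtype_val.continuousAt)
    (h.an.congr e'.symm) (by rw [e'.fderiv_eq]; exact h.imm) ?_, e⟩
  · filter_upwards [e.eventually_nhds, h.an.eventually_analyticAt] with z a b
    exact IsInducing.subtypeVal.continuousAt_iff.2 (b.continuousAt.congr (a.mono fun _ c => c.symm))
  · have : φ x = ⟨ψ x, h.mem0⟩ := Subtype.ext e.self_of_nhds
    intro U hU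
    rw [this]
    refine (ev_sub h.mem0 (p := fun s => ∀ c : s ∈ A, ⟨s, c⟩ ∈ U)).2 (h.ev.1 ?_) |>.mono
      fun s a => a s.2
    filter_upwards [mem_map.1 hU, e] with z a b c
    rwa [show (⟨ψ z, c⟩ : A) = φ z from Subtype.ext b.symm]

theorem of_isParam {φ : E → A} (h : IsParam Subtype.val φ x) : Prm A (fun z => (φ z).1) x :=
  ⟨h.an, h.injective, by
    rw [show (fun z => (φ z).1) = Subtype.val ∘ φ from rfl, ← Filter.map_map, h.lh.map_nhds,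
      map_nhds_subtype_val]⟩

theorem mfdAt (h : Prm A ψ x) (hn : finrank ℂ E = n) : MfdAt A n (ψ x) := by
  obtain ⟨φ, h1, h2⟩ := h.isParam
  exact ⟨h.mem0, (show φ x = ⟨ψ x, h.mem0⟩ from Subtype.ext h2.self_of_nhds) ▸ h1.isMfd hn⟩

theorem _root_.Vale.Agent.P269.Holo.MfdAt.prm (h : MfdAt A n y) :
    ∃ ψ : (Fin n → ℂ) → W, Prm A ψ 0 ∧ ψ 0 = y :=
  let ⟨_, _, h1, h2⟩ := h
  ⟨_, of_isParam h1, congrArg Subtype.val h2⟩

theorem tn_eq (h : Prm A ψ x) : tn A (ψ x) = LinearMap.range (fderiv ℂ ψ x : E →ₗ[ℂ] W) := by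
  obtain ⟨φ, h1, h2⟩ := h.isParam
  rw [P287Q.tn_eq h.mem0, ← show φ x = ⟨ψ x, h.mem0⟩ from Subtype.ext h2.self_of_nhds, h1.tan_eq,
    EventuallyEq.fderiv_eq (f₁ := fun z => (φ z).1) h2]

theorem mem_tn (h : Prm A ψ x) {v : W} : v ∈ tn A (ψ x) ↔ ∃ u, fderiv ℂ ψ x u = v := by
  rw [h.tn_eq]; rfl

theorem congr {ψ' : E → W} (h : Prm A ψ x) (e : ψ =ᶠ[𝓝 x] ψ') : Prm A ψ' x :=
  ⟨h.an.congr e, e.fderiv_eq (𝕜 := ℂ) ▸ h.imm, by rw [← e.self_of_nhds, ← h.nh, map_congr e]⟩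

theorem congr_set (h : Prm A ψ x) (e : ∀ᶠ s in 𝓝 (ψ x), s ∈ A ↔ s ∈ C) : Prm C ψ x :=
  ⟨h.an, h.imm, h.nh.trans (nhdsWithin_eq_iff_eventuallyEq.2 (e.mono fun _ a => propext a))⟩

theorem eventually (h : Prm A ψ x) : ∀ᶠ z in 𝓝 x, Prm A ψ z := by
  have := FiniteDimensional.complete ℂ W
  have := FiniteDimensional.complete ℂ E
  obtain ⟨w, h1, -, h2, h3⟩ := h.exists_inv
  filter_upwards [h.an.eventually_analyticAt,
    h.an.continuousAt.eventually h1.eventually_analyticAt, (h.mem.and h2).eventually_nhds,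
    h.an.continuousAt.eventually h3.eventually_nhds] with z a b c d
  exact of_inv a (.of_an b) c d

theorem holOn_iff (h : Prm A ψ x) {f : W → B} :
    HolOn A f (ψ x) ↔ AnalyticAt ℂ (fun z => f (ψ z)) x := by
  refine ⟨fun ⟨Φ, h1, h2⟩ => (h1.comp h.an).congr
    ((h.ev (p := fun s => f s = Φ s)).2 h2 |>.mono fun _ a => a.symm), fun hf => ?_⟩
  obtain ⟨w, h1, h2, -, h3⟩ := h.exists_inv
  exact ⟨fun s => f (ψ (w s)), AnalyticAt.comp (g := fun z => f (ψ z)) (by rwa [h2]) h1,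
    h3.mono fun s a b => congrArg f (a b).symm⟩

/-- Reparametrisation. -/
theorem comp {u : F → E} {z : F} (h : Prm A ψ (u z)) (hu : AnalyticAt ℂ u z)
    (hb : Bijective (fderiv ℂ u z)) : Prm A (fun q => ψ (u q)) z :=
  ⟨h.an.comp hu, by rw [fderiv_comp_an h.an hu]; exact h.imm.comp hb.1, by
    rw [show (fun q => ψ (u q)) = ψ ∘ u from rfl, ← Filter.map_map, (ift hu hb).1.map_nhds, h.nh]⟩

theorem comp_inv {u : F → E} {v : E → F} {z : F} (h : Prm A ψ (u z)) (hu : AnalyticAt ℂ u z)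
    (hv : AnalyticAt ℂ v (u z)) (h1 : ∀ᶠ q in 𝓝 z, v (u q) = q)
    (h2 : ∀ᶠ q in 𝓝 (u z), u (v q) = q) : Prm A (fun q => ψ (u q)) z :=
  h.comp hu ⟨injective_fderiv_of_leftInv hv hu h1, fun a => ⟨_, by
    have := fderiv_leftInv (g := u) (f := v) (by rwa [h1.self_of_nhds]) hv h2 a
    rwa [h1.self_of_nhds] at this⟩⟩

/-- Holomorphic maps into `A` are analytic in a parametrisation. -/
theorem lift (h : Prm A ψ x) {u : F → W} {z : F} (h0 : u z = ψ x) (hu : AnalyticAt ℂ u z)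
    (hm : ∀ᶠ q in 𝓝 z, u q ∈ A) :
    ∃ k : F → E, AnalyticAt ℂ k z ∧ k z = x ∧ (∀ᶠ q in 𝓝 z, u q = ψ (k q)) ∧
      fderiv ℂ u z = (fderiv ℂ ψ x).comp (fderiv ℂ k z) := by
  obtain ⟨w, h1, h2, -, h3⟩ := h.exists_inv
  have hk : AnalyticAt ℂ (fun q => w (u q)) z := AnalyticAt.comp (by rwa [h0]) hu
  have hz : w (u z) = x := by rw [h0, h2]
  have he : ∀ᶠ q in 𝓝 z, u q = ψ (w (u q)) := by
    filter_upwards [hu.continuousAt.eventually (h0 ▸ h3), hm] with q a b using (a b).symm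
  refine ⟨_, hk, hz, he, ?_⟩
  have h4 := fderiv_comp_an (g := ψ) (by rw [hz]; exact h.an) hk
  rw [hz] at h4
  exact (EventuallyEq.fderiv_eq he).trans h4

/-- An immersion into a manifold of the same dimension is a parametrisation. -/
theorem of_injective (h : MfdAt A n y) (h0 : ψ x = y) (ha : AnalyticAt ℂ ψ x)
    (hm : ∀ᶠ z in 𝓝 x, ψ z ∈ A) (hi : Injective (fderiv ℂ ψ x)) (hd : finrank ℂ E = n) :
    Prm A ψ x := by
  obtain ⟨φ, h1, h2⟩ := h.prm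
  obtain ⟨k, k1, k2, k3, k4⟩ := h1.lift (h0.trans h2.symm) ha hm
  rw [k4] at hi
  exact (comp (k2 ▸ h1) k1 (bijective_of_injective _ (Injective.of_comp hi)
    (by rw [hd, finrank_fin_fun]))).congr (k3.mono fun _ a => a.symm)

/-- Transition maps. -/
theorem transition (h : Prm A ψ x) {φ : F → W} {z : F} (h' : Prm A φ z) (h0 : φ z = ψ x) :
    ∃ k : F → E, AnalyticAt ℂ k z ∧ k z = x ∧ (∀ᶠ q in 𝓝 z, φ q = ψ (k q)) ∧
      Bijective (fderiv ℂ k z) := by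
  obtain ⟨k, k1, k2, k3, k4⟩ := h.lift h0 h'.an h'.mem
  refine ⟨k, k1, k2, k3, Injective.of_comp (f := fderiv ℂ ψ x)
    (by have := h'.imm; rwa [k4] at this), fun v => ?_⟩
  obtain ⟨u, hu⟩ := h'.mem_tn.1 (h0 ▸ h.mem_tn.2 ⟨v, rfl⟩)
  rw [k4] at hu
  exact ⟨u, h.imm hu⟩

theorem finrank_eq (h : Prm A ψ x) (h' : MfdAt A n (ψ x)) : finrank ℂ E = n :=
  (h.mfdAt rfl).unique h'

theorem eventually_inj (h : Prm A ψ x) :
    ∀ᶠ p in 𝓝 x ×ˢ 𝓝 x, ψ p.1 = ψ p.2 → p.1 = p.2 := by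
  obtain ⟨w, -, -, h1, -⟩ := h.exists_inv
  filter_upwards [tendsto_fst.eventually h1, tendsto_snd.eventually h1] with p a b c
  rw [← a, c, b]

/-- Transport along a local isomorphism of subsets. -/
theorem iso (h : Prm A ψ x) {f : W → W'} {g : W' → W} (hf : HolOn A f (ψ x))
    (hg : HolOn A' g (f (ψ x))) (h1 : ∀ᶠ s in 𝓝 (ψ x), s ∈ A → f s ∈ A' ∧ g (f s) = s)
    (h2 : ∀ᶠ s in 𝓝 (f (ψ x)), s ∈ A' → g s ∈ A ∧ f (g s) = s) : Prm A' (fun z => f (ψ z)) x := by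
  obtain ⟨w, w1, w2, w3, w4⟩ := h.exists_inv
  obtain ⟨e1, e2⟩ := h1.self_of_nhds h.mem0
  refine of_inv (h.holOn_iff.1 hf) (w := fun s => w (g s)) (hg.comp_an e1 (by rwa [e2])) ?_ ?_
  · filter_upwards [(h.ev (p := fun s => f s ∈ A' ∧ g (f s) = s)).2 h1, w3] with z a b
    exact ⟨a.1, by rw [a.2, b]⟩
  · filter_upwards [h2, hg.ev e1 (p := fun s => s ∈ A → ψ (w s) = s) (e2.symm ▸ w4)] with s a b c
    rw [b c (a c).1, (a c).2]

/-- A coordinate subspace. -/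
theorem slice {ψ : F × E → W} {b : F} (h : Prm A ψ (b, x)) (hC : C ⊆ A)
    (e : ∀ᶠ p in 𝓝 (b, x), ψ p ∈ C ↔ p.1 = b) : Prm C (fun z => ψ (b, z)) x := by
  obtain ⟨w, w1, w2, w3, w4⟩ := h.exists_inv
  have t := w1.continuousAt.tendsto
  rw [w2] at t
  refine of_inv (h.an.comp (f := fun z => (b, z)) (analyticAt_const.prod analyticAt_id))
    (w := fun s => (w s).2) (.of_an (analyticAt_snd.comp w1)) ?_ ?_
  · filter_upwards [(tendsto_inr b x).eventually (e.and w3)] with z a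
    exact ⟨a.1.2 rfl, congrArg Prod.snd a.2⟩
  · filter_upwards [w4, t.eventually e] with s a c d
    rw [← c.1 (by rwa [a (hC d)])]
    exact a (hC d)

theorem self (y : W) : Prm univ (fun s : W => s) y :=
  of_inv analyticAt_id (w := fun s => s) (.of_an analyticAt_id) (.of_forall fun _ => ⟨trivial, rfl⟩)
    (.of_forall fun _ _ => rfl)

theorem prod {φ : F → W'} {z : F} (h : Prm A ψ x) (h' : Prm A' φ z) :
    Prm (A ×ˢ A') (Prod.map ψ φ) (x, z) := by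
  obtain ⟨w, w1, -, w3, w4⟩ := h.exists_inv
  obtain ⟨v, v1, -, v3, v4⟩ := h'.exists_inv
  refine of_inv ((h.an.comp (f := Prod.fst) (x := (x, z)) analyticAt_fst).prod
    (h'.an.comp (f := Prod.snd) (x := (x, z)) analyticAt_snd)) (w := Prod.map w v)
    (.of_an ((AnalyticAt.comp (f := Prod.fst) w1 analyticAt_fst).prod
      (AnalyticAt.comp (f := Prod.snd) v1 analyticAt_snd))) ?_ ?_
  · filter_upwards [(continuousAt_fst (p := (x, z))).eventually (h.mem.and w3),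
      (continuousAt_snd (p := (x, z))).eventually (h'.mem.and v3)] with p a b
    exact ⟨⟨a.1, b.1⟩, Prod.ext a.2 b.2⟩
  · filter_upwards [(continuousAt_fst (p := (ψ x, φ z))).eventually w4,
      (continuousAt_snd (p := (ψ x, φ z))).eventually v4] with p a b c
    exact Prod.ext (a c.1) (b c.2)

end Prm

theorem tn_congr (e : ∀ᶠ s in 𝓝 y, s ∈ A ↔ s ∈ C) : tn A y = tn C y :=
  Submodule.ext fun _ => forall₂_congr fun _ _ => imp_congr_left
    (eventually_congr (e.mono fun _ a => by rw [a]))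

theorem tn_mono (e : C ⊆ A) : tn C y ≤ tn A y :=
  fun _ hv Φ h1 h2 => hv Φ h1 (h2.mono fun _ a b => a (e b))

theorem tn_of_nhds (h : A ∈ 𝓝 y) : tn A y = ⊤ := by
  rw [tn_congr (C := univ) (eventually_of_mem h fun _ a => iff_of_true a trivial),
    (Prm.self y).tn_eq, LinearMap.range_eq_top]
  exact fun v => ⟨v, by simp⟩

theorem finrank_tn (h : MfdAt A n y) : finrank ℂ (tn A y) = n := by
  rw [tn_eq h.1, h.2.finrank_tan]

/-- Velocities of holomorphic maps into `A` are tangent. -/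
theorem fderiv_mem_tn {u : E → W} (hu : AnalyticAt ℂ u x) (hm : ∀ᶠ z in 𝓝 x, u z ∈ A) (v : E) :
    fderiv ℂ u x v ∈ tn A (u x) := fun Φ h1 h2 => by
  have h3 : fderiv ℂ (fun z => Φ (u z)) x = fderiv ℂ (fun _ : E => (0 : W)) x :=
    EventuallyEq.fderiv_eq (by
      filter_upwards [hu.continuousAt.eventually h2, hm] with z a b using a b)
  rw [fderiv_comp_an h1 hu, fderiv_fun_const] at h3
  exact congr($h3 v)

/-- Analytic functions vanishing on a manifold kill the tangent space. -/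
theorem fderiv_eq_zero (h : MfdAt A n y) {Φ : W → B} (h1 : AnalyticAt ℂ Φ y)
    (h2 : ∀ᶠ s in 𝓝 y, s ∈ A → Φ s = 0) {v : W} (hv : v ∈ tn A y) : fderiv ℂ Φ y v = 0 :=
  h.2.fderiv_eq_zero h1 ((ev_sub h.1 (p := fun s => Φ s = 0)).2 h2) (tn_eq h.1 ▸ hv)

/-- The differential of a holomorphic map preserves tangent spaces. -/
theorem fderiv_map_tn (h : MfdAt A n y) {Φ : W → W'} (h1 : AnalyticAt ℂ Φ y)
    (h2 : ∀ᶠ s in 𝓝 y, s ∈ A → Φ s ∈ A') {v : W} (hv : v ∈ tn A y) :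
    fderiv ℂ Φ y v ∈ tn A' (Φ y) := by
  obtain ⟨ψ, h3, rfl⟩ := h.prm
  obtain ⟨u, rfl⟩ := h3.mem_tn.1 hv
  have := fderiv_mem_tn (u := fun z => Φ (ψ z)) (h1.comp h3.an)
    ((h3.ev (p := fun s => Φ s ∈ A')).2 h2) u
  rwa [fderiv_comp_an h1 h3.an] at this

/-- **Adapted parametrisations**: any parametrisation of a submanifold extends. -/
theorem Prm.extend {c : ℕ} (h : MfdAt A n (ψ x)) (h' : Prm C ψ x) (hC : C ⊆ A)
    (hd : finrank ℂ E + c = n) : ∃ φ : (Fin c → ℂ) × E → W, Prm A φ (0, x) ∧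
      (∀ᶠ z in 𝓝 x, φ (0, z) = ψ z) ∧ ∀ᶠ p in 𝓝 (0, x), φ p ∈ C ↔ p.1 = 0 := by
  obtain ⟨χ, h1, h2⟩ := h.prm
  obtain ⟨k, k1, k2, k3, k4⟩ := h1.lift h2.symm h'.an (h'.mem.mono fun _ a => hC a)
  have k5 : Injective (fderiv ℂ k x) := by
    have := h'.imm
    rw [k4] at this
    exact Injective.of_comp this
  obtain ⟨i, hb⟩ := exists_compl_range _ k5 (hd.trans (finrank_fin_fun ℂ).symm)
  let Θ : (Fin c → ℂ) × E → Fin n → ℂ := fun p => k p.2 + i p.1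
  have t1 : AnalyticAt ℂ Θ (0, x) := (k1.comp (f := Prod.snd) (x := (0, x)) analyticAt_snd).add
    ((i.analyticAt _).comp analyticAt_fst)
  have t2 : Θ (0, x) = 0 := by simp [Θ, k2]
  have t3 : Bijective (fderiv ℂ Θ (0, x)) := by
    have := ((k1.differentiableAt.hasFDerivAt.comp (f := Prod.snd) ((0 : Fin c → ℂ), x)
      hasFDerivAt_snd).add (i.hasFDerivAt.comp ((0 : Fin c → ℂ), x) hasFDerivAt_fst)).fderiv
    rw [show fderiv ℂ Θ (0, x) = _ from this]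
    exact hb.comp Prod.swap_bijective
  have p := Prm.comp (t2 ▸ h1) t1 t3
  have e : ∀ᶠ z in 𝓝 x, χ (Θ (0, z)) = ψ z := k3.mono fun z a => by simp [Θ, a]
  refine ⟨_, p, e, ?_⟩
  obtain ⟨w, w1, w2, -, w4⟩ := h'.exists_inv
  have c1 : Tendsto (fun q => χ (Θ q)) (𝓝 (0, x)) (𝓝 (ψ x)) :=
    e.self_of_nhds ▸ p.an.continuousAt.tendsto
  have c2 : Tendsto (fun q => w (χ (Θ q))) (𝓝 (0, x)) (𝓝 x) :=
    (w2 ▸ w1.continuousAt.tendsto).comp c1
  filter_upwards [c1.eventually w4, c2.eventually e,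
    (tendsto_id.prodMk ((tendsto_inr 0 x).comp c2)).eventually p.eventually_inj,
    (continuousAt_snd (p := ((0 : Fin c → ℂ), x))).eventually (e.and h'.mem)] with q a b d f
  refine ⟨fun g => congrArg Prod.fst (d ((a g).symm.trans b.symm)), fun g => ?_⟩
  rw [show q = (0, q.2) from Prod.ext g rfl, f.1]
  exact f.2

theorem exists_adapted {c : ℕ} (h : MfdAt A n y) (h' : MfdAt C m y) (hC : C ⊆ A) (hd : m + c = n) :
    ∃ φ : (Fin c → ℂ) × (Fin m → ℂ) → W, Prm A φ (0, 0) ∧ φ (0, 0) = y ∧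
      ∀ᶠ p in 𝓝 (0, 0), φ p ∈ C ↔ p.1 = 0 := by
  obtain ⟨ψ, h1, rfl⟩ := h'.prm
  obtain ⟨φ, a, b, d⟩ := Prm.extend h h1 hC (by rw [finrank_fin_fun, hd])
  exact ⟨φ, a, b.self_of_nhds, d⟩

theorem dim_le (h : MfdAt A n y) (h' : MfdAt C m y) (hC : C ⊆ A) : m ≤ n := by
  rw [← finrank_tn h, ← finrank_tn h']
  exact Submodule.finrank_mono (tn_mono hC)

end Vale.Agent.P287Q
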