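import Vale.Agent.P287Q.Pv.Prm

/-!
# Multicones: the torus action and holomorphic slices
-/

set_option linter.unusedSectionVars false

namespace Vale.Agent.P287Q

open Set Function Topology Filter P269 P269.Holo Module

variable {J R S E F : Type} [Fintype J] [Fintype R] [Fintype S] [NormedAddCommGroup E]
  [NormedSpace ℂ E] [NormedAddCommGroup F] [NormedSpace ℂ F] [FiniteDimensional ℂ E]
  [FiniteDimensional ℂ F] {π : J → R} {A C : Set (J → ℂ)} {y : J → ℂ} {t : R → ℂ} {n m : ℕ}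

theorem unit_iff : IsUnit t ↔ ∀ r, t r ≠ 0 := by simp [Pi.isUnit_iff]

theorem unit_inv (h : IsUnit t) : IsUnit t⁻¹ := unit_iff.2 fun r => inv_ne_zero (unit_iff.1 h r)

theorem eventually_unit (h : IsUnit t) : ∀ᶠ s in 𝓝 t, IsUnit s := by
  simp only [unit_iff, eventually_all] at h ⊢
  exact fun r => (continuous_apply r).continuousAt.eventually_ne (h r)

theorem an_inv {P : Type*} [NormedAddCommGroup P] [NormedSpace ℂ P] {t : P → R → ℂ} {q : P}
    (h : AnalyticAt ℂ t q) (hu : IsUnit (t q)) : AnalyticAt ℂ (fun p => (t p)⁻¹) q :=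
  analyticAt_pi_iff.2 fun r => (analyticAt_pi_iff.1 h r).inv (unit_iff.1 hu r)

theorem scl_one (y : J → ℂ) : scl π 1 y = y := funext fun _ => one_mul _

theorem scl_mul (a b : R → ℂ) (y : J → ℂ) : scl π (a * b) y = scl π a (scl π b y) :=
  funext fun _ => mul_assoc _ _ _

theorem scl_inv_scl (h : IsUnit t) (y : J → ℂ) : scl π t⁻¹ (scl π t y) = y :=
  funext fun _ => inv_mul_cancel_left₀ (unit_iff.1 h _) _

theorem scl_scl_inv (h : IsUnit t) (y : J → ℂ) : scl π t (scl π t⁻¹ y) = y :=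
  funext fun _ => mul_inv_cancel_left₀ (unit_iff.1 h _) _

theorem an_scl {P : Type*} [NormedAddCommGroup P] [NormedSpace ℂ P] {t : P → R → ℂ}
    {y : P → J → ℂ} {q : P} (ht : AnalyticAt ℂ t q) (hy : AnalyticAt ℂ y q) :
    AnalyticAt ℂ (fun p => scl π (t p) (y p)) q :=
  analyticAt_pi_iff.2 fun j => (analyticAt_pi_iff.1 ht (π j)).mul (analyticAt_pi_iff.1 hy j)

theorem continuous_scl : Continuous fun p : (R → ℂ) × (J → ℂ) => scl π p.1 p.2 :=
  continuous_iff_continuousAt.2 fun _ => (an_scl analyticAt_fst analyticAt_snd).continuousAt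

theorem hasFDerivAt_scl {P : Type*} [NormedAddCommGroup P] [NormedSpace ℂ P] {t : P → R → ℂ}
    {y : P → J → ℂ} {q : P} (ht : AnalyticAt ℂ t q) (hy : AnalyticAt ℂ y q) (v : P) :
    fderiv ℂ (fun p => scl π (t p) (y p)) q v =
      scl π (fderiv ℂ t q v) (y q) + scl π (t q) (fderiv ℂ y q v) := by
  have h1 := fun r => (hasFDerivAt_pi'.1 ht.differentiableAt.hasFDerivAt r)
  have h2 := fun r => (hasFDerivAt_pi'.1 hy.differentiableAt.hasFDerivAt r)
  rw [show fderiv ℂ (fun p => scl π (t p) (y p)) q = _ from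
    (hasFDerivAt_pi.2 fun j => (h1 (π j)).mul (h2 j)).fderiv]
  funext j
  simp [scl, mul_comm, add_comm]

theorem fderiv_scl (t : R → ℂ) (y v : J → ℂ) : fderiv ℂ (scl π t) y v = scl π t v := by
  have := hasFDerivAt_scl (π := π) (t := fun _ => t) (y := fun s => s) (q := y) analyticAt_const
    analyticAt_id v
  simpa [show scl π 0 y = 0 from funext fun _ => zero_mul _] using this

theorem fderiv_orbit (t a : R → ℂ) (y : J → ℂ) :
    fderiv ℂ (fun t => scl π t y) t a = scl π a y := by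
  have := hasFDerivAt_scl (π := π) (t := fun s => s) (y := fun _ => y) (q := t) analyticAt_id
    analyticAt_const a
  simpa [show scl π t 0 = 0 from funext fun _ => mul_zero _] using this

theorem isOpen_Ust : IsOpen (Ust π) := by
  simp only [Ust, ofPred_forall, ofPred_exists]
  exact isOpen_iInter_of_finite fun r => isOpen_iUnion fun j =>
    (isOpen_const (p := π j = r)).inter (isOpen_ne_fun (continuous_apply j) continuous_const)

theorem scl_mem_Ust (h : IsUnit t) (hy : y ∈ Ust π) : scl π t y ∈ Ust π := fun r =>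
  (hy r).imp fun _ a => ⟨a.1, mul_ne_zero (unit_iff.1 h _) a.2⟩

theorem unit_of_mem (hy : scl π t y ∈ Ust π) : IsUnit t := unit_iff.2 fun r =>
  let ⟨_, a, b⟩ := hy r
  a ▸ left_ne_zero_of_mul b

theorem scl_inj (hy : y ∈ Ust π) {t' : R → ℂ} (e : scl π t y = scl π t' y) : t = t' :=
  funext fun r => by
    obtain ⟨j, rfl, b⟩ := hy r
    exact mul_right_cancel₀ b (congrFun e j)

theorem tw_one (wt : J → S → ℤ) (y : J → ℂ) : tw wt 1 y = y := funext fun _ => by simp [tw]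

theorem tw_mul (wt : J → S → ℤ) (a b : S → ℂ) (y : J → ℂ) :
    tw wt (a * b) y = tw wt a (tw wt b y) := funext fun _ => by
  simp only [tw, Pi.mul_apply, mul_zpow, Finset.prod_mul_distrib, mul_assoc]

theorem tw_scl (wt : J → S → ℤ) (τ : S → ℂ) (t : R → ℂ) (y : J → ℂ) :
    tw wt τ (scl π t y) = scl π t (tw wt τ y) := funext fun _ => mul_left_comm _ _ _

theorem tw_inv_tw (wt : J → S → ℤ) {τ : S → ℂ} (h : IsUnit τ) (y : J → ℂ) :
    tw wt τ⁻¹ (tw wt τ y) = y := by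
  rw [← tw_mul, show τ⁻¹ * τ = 1 from funext fun s => inv_mul_cancel₀ (unit_iff.1 h s), tw_one]

theorem tw_tw_inv (wt : J → S → ℤ) {τ : S → ℂ} (h : IsUnit τ) (y : J → ℂ) :
    tw wt τ (tw wt τ⁻¹ y) = y := by
  rw [← tw_mul, show τ * τ⁻¹ = 1 from funext fun s => mul_inv_cancel₀ (unit_iff.1 h s), tw_one]

theorem an_tw {P : Type*} [NormedAddCommGroup P] [NormedSpace ℂ P] (wt : J → S → ℤ)
    {τ : P → S → ℂ} {y : P → J → ℂ} {q : P} (ht : AnalyticAt ℂ τ q) (hu : IsUnit (τ q))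
    (hy : AnalyticAt ℂ y q) : AnalyticAt ℂ (fun p => tw wt (τ p) (y p)) q :=
  analyticAt_pi_iff.2 fun j => (Finset.analyticAt_fun_prod _ fun s _ =>
    (analyticAt_pi_iff.1 ht s).fun_zpow (unit_iff.1 hu s)).mul (analyticAt_pi_iff.1 hy j)

theorem an_tw' (wt : J → S → ℤ) (τ : S → ℂ) (y : J → ℂ) : AnalyticAt ℂ (tw wt τ) y :=
  analyticAt_pi_iff.2 fun j => analyticAt_const.mul (analyticAt_pi_iff.1 analyticAt_id j)

theorem fderiv_tw (wt : J → S → ℤ) (τ : S → ℂ) (y v : J → ℂ) :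
    fderiv ℂ (tw wt τ) y v = tw wt τ v :=
  fderiv_scl (π := id) (fun j => ∏ s, τ s ^ wt j s) y v

theorem tw_mem_Ust (wt : J → S → ℤ) {τ : S → ℂ} (h : IsUnit τ) (hy : y ∈ Ust π) :
    tw wt τ y ∈ Ust π := fun r => (hy r).imp fun _ a => ⟨a.1, mul_ne_zero
      (Finset.prod_ne_zero_iff.2 fun s _ => zpow_ne_zero _ (unit_iff.1 h s)) a.2⟩

theorem TInv.mem_iff {wt : J → S → ℤ} (h : TInv wt A) {τ : S → ℂ} (hτ : IsUnit τ) :
    tw wt τ y ∈ A ↔ y ∈ A :=
  ⟨fun a => tw_inv_tw wt hτ y ▸ h _ (unit_inv hτ) _ a, h _ hτ _⟩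

theorem mc_Ust : MC π (Ust π) := ⟨subset_rfl, fun _ a _ => scl_mem_Ust a, fun _ _ a => a⟩

namespace MC

theorem mem_iff (h : MC π A) (ht : IsUnit t) : scl π t y ∈ A ↔ y ∈ A :=
  ⟨fun a => scl_inv_scl (π := π) ht y ▸ h.inv _ (unit_inv ht) _ a, h.inv _ ht _⟩

theorem eq (h : MC π A) : A = Ust π ∩ closure A :=
  subset_antisymm (subset_inter h.sub subset_closure) fun y a => h.cl y a.2 a.1

theorem lc (h : MC π A) : IsLocallyClosed A :=
  ⟨_, _, isOpen_Ust, isClosed_closure, h.eq⟩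

theorem of_closed {Z : Set (J → ℂ)} (h : MC π A) (hZ : IsClosed Z) (e : C = A ∩ Z)
    (hi : ∀ t, IsUnit t → ∀ y ∈ C, scl π t y ∈ C) : MC π C :=
  ⟨fun _ a => h.sub (e ▸ a).1, hi, fun y a b => e ▸
    ⟨h.cl y (closure_mono (e ▸ inter_subset_left) a) b,
      closure_minimal (e ▸ inter_subset_right) hZ a⟩⟩

/-- the complement of a closed multicone is open in `Ust` -/
theorem ev_notMem (h : MC π A) (hy : y ∈ Ust π) (hn : y ∉ A) : ∀ᶠ s in 𝓝 y, s ∉ A :=
  (isClosed_closure.isOpen_compl.eventually_mem fun a => hn (h.cl y a hy)).mono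
    fun _ a b => a (subset_closure b)

theorem prm_scl (h : MC π A) {ψ : E → J → ℂ} {x : E} (hψ : Prm A ψ x) (ht : IsUnit t) :
    Prm A (fun z => scl π t (ψ z)) x :=
  hψ.iso (f := scl π t) (g := scl π t⁻¹) (.of_an (an_scl analyticAt_const analyticAt_id))
    (.of_an (an_scl analyticAt_const analyticAt_id))
    (.of_forall fun s a => ⟨h.inv _ ht _ a, scl_inv_scl ht s⟩)
    (.of_forall fun s a => ⟨h.inv _ (unit_inv ht) _ a, scl_scl_inv ht s⟩)

theorem orbit_mem_tn (h : MC π A) (hy : y ∈ A) (a : R → ℂ) : scl π a y ∈ tn A y := by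
  have h1 := fderiv_mem_tn (A := A) (u := fun t => scl π t y) (x := 1)
    (an_scl analyticAt_id analyticAt_const)
    ((eventually_unit isUnit_one).mono fun _ b => h.inv _ b _ hy) a
  rwa [fderiv_orbit, scl_one] at h1

end MC

theorem TInv.prm_tw {wt : J → S → ℤ} (h : TInv wt A) {ψ : E → J → ℂ} {x : E} (hψ : Prm A ψ x)
    {τ : S → ℂ} (ht : IsUnit τ) : Prm A (fun z => tw wt τ (ψ z)) x :=
  hψ.iso (f := tw wt τ) (g := tw wt τ⁻¹) (.of_an (an_tw' _ _ _)) (.of_an (an_tw' _ _ _))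
    (.of_forall fun s a => ⟨h _ ht _ a, tw_inv_tw wt ht s⟩)
    (.of_forall fun s a => ⟨h _ (unit_inv ht) _ a, tw_tw_inv wt ht s⟩)

namespace Slc

variable {σ : E → J → ℂ} {x : E}

theorem prm (h : Slc π A σ x) : Prm A (fun p : (R → ℂ) × E => scl π p.1 (σ p.2)) (1, x) := h

theorem an (h : Slc π A σ x) : AnalyticAt ℂ σ x :=
  (h.prm.an.comp (f := fun z => (1, z)) (analyticAt_const.prod analyticAt_id)).congr
    (.of_forall fun _ => scl_one _)

theorem mem (h : Slc π A σ x) : ∀ᶠ z in 𝓝 x, σ z ∈ A :=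
  ((tendsto_inr 1 x).eventually h.prm.mem).mono fun z a => scl_one (π := π) (σ z) ▸ a

theorem mem0 (h : Slc π A σ x) : σ x ∈ A := h.mem.self_of_nhds

theorem fderiv_eq (ha : AnalyticAt ℂ σ x) (p : (R → ℂ) × E) :
    fderiv ℂ (fun p : (R → ℂ) × E => scl π p.1 (σ p.2)) (1, x) p =
      scl π p.1 (σ x) + fderiv ℂ σ x p.2 := by
  rw [hasFDerivAt_scl (y := fun p : (R → ℂ) × E => σ p.2) analyticAt_fst
    (ha.comp (f := Prod.snd) (x := (1, x)) analyticAt_snd), scl_one, fderiv_fst,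
    fderiv_comp_an (f := Prod.snd) (x := ((1 : R → ℂ), x)) ha analyticAt_snd, fderiv_snd]
  rfl

theorem transv (h : Slc π A σ x) {v : E} {a : R → ℂ} (e : fderiv ℂ σ x v = scl π a (σ x)) :
    v = 0 ∧ a = 0 := by
  have := h.prm.imm (a₁ := (0, v)) (a₂ := (a, 0)) (by
    rw [fderiv_eq h.an, fderiv_eq h.an, e, map_zero, add_zero,
      show scl π 0 (σ x) = 0 from funext fun _ => zero_mul _, zero_add])
  exact ⟨congrArg Prod.snd this, (congrArg Prod.fst this).symm⟩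

theorem mem_tn (h : Slc π A σ x) {v : J → ℂ} :
    v ∈ tn A (σ x) ↔ ∃ a u, v = scl π a (σ x) + fderiv ℂ σ x u := by
  have := h.prm.mem_tn (v := v)
  rw [scl_one] at this
  simp only [this, fderiv_eq h.an, Prod.exists, eq_comm]

theorem of_injective (hA : PV π A n) (ha : AnalyticAt ℂ σ x) (hm : ∀ᶠ z in 𝓝 x, σ z ∈ A)
    (hi : ∀ v a, fderiv ℂ σ x v = scl π a (σ x) → v = 0) (hd : finrank ℂ E = n) :
    Slc π A σ x := by
  refine Prm.of_injective (hA.mfd _ hm.self_of_nhds) (scl_one _)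
    (an_scl analyticAt_fst (ha.comp (f := Prod.snd) (x := (1, x)) analyticAt_snd)) ?_ ?_
    (by rw [finrank_prod, finrank_fintype_fun_eq_card, hd, add_comm])
  · filter_upwards [(continuousAt_fst (p := ((1 : R → ℂ), x))).eventually
      (eventually_unit isUnit_one), (continuousAt_snd (p := ((1 : R → ℂ), x))).eventually hm]
      with p a b using hA.inv _ a _ b
  · rw [injective_iff_map_eq_zero]
    rintro ⟨a, v⟩ e
    rw [fderiv_eq ha] at e
    obtain rfl := hi v (-a) ((eq_neg_of_add_eq_zero_right e).trans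
      (funext fun _ => (neg_mul _ _).symm))
    rw [map_zero, add_zero] at e
    exact Prod.ext (scl_inj (hA.sub hm.self_of_nhds) (e.trans (funext fun _ => (zero_mul _).symm)))
      rfl

theorem prm_at (h : Slc π A σ x) (hA : MC π A) (ht : IsUnit t) :
    Prm A (fun p : (R → ℂ) × E => scl π p.1 (σ p.2)) (t, x) := by
  have e1 : ∀ s, t⁻¹ * (t * s) = s := fun s => scl_inv_scl (π := id) ht s
  have e2 : ∀ s, t * (t⁻¹ * s) = s := fun s => scl_scl_inv (π := id) ht s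
  have e3 : t⁻¹ * t = 1 := by simpa using e1 1
  refine (Prm.comp_inv (u := fun p : (R → ℂ) × E => (t⁻¹ * p.1, p.2)) (z := (t, x))
    (v := fun p => (t * p.1, p.2)) (by simpa only [e3] using hA.prm_scl h.prm ht)
    ((analyticAt_const.mul analyticAt_fst).prod analyticAt_snd)
    ((analyticAt_const.mul analyticAt_fst).prod analyticAt_snd)
    (.of_forall fun p => Prod.ext (e2 _) rfl) (.of_forall fun p => Prod.ext (e1 _) rfl)).congr
    (.of_forall fun p => ?_)
  simp only [← scl_mul, e2]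

theorem eventually (h : Slc π A σ x) : ∀ᶠ z in 𝓝 x, Slc π A σ z :=
  (tendsto_inr 1 x).eventually h.prm.eventually

theorem congr {σ' : E → J → ℂ} (h : Slc π A σ x) (e : σ =ᶠ[𝓝 x] σ') : Slc π A σ' x :=
  h.prm.congr (((continuousAt_snd (p := ((1 : R → ℂ), x))).eventually e).mono
    fun p a => congrArg (scl π p.1) a)

theorem finrank_eq (h : Slc π A σ x) (hA : PV π A n) : finrank ℂ E = n := by
  have := h.prm.finrank_eq (hA.mfd _ h.prm.mem0)
  rw [finrank_prod, finrank_fintype_fun_eq_card] at this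
  omega

theorem mfdAt (h : Slc π A σ x) (hd : finrank ℂ E = n) : MfdAt A (n + Fintype.card R) (σ x) :=
  scl_one (π := π) (σ x) ▸ h.prm.mfdAt (by rw [finrank_prod, finrank_fintype_fun_eq_card, hd, add_comm])

/-- Holomorphic maps to the cone in a chart. -/
theorem lift (h : Slc π A σ x) (hA : MC π A) {u : F → J → ℂ} {z : F} (h0 : u z = scl π t (σ x))
    (hu : AnalyticAt ℂ u z) (hm : ∀ᶠ q in 𝓝 z, u q ∈ A) :
    ∃ (τ : F → R → ℂ) (k : F → E), AnalyticAt ℂ τ z ∧ AnalyticAt ℂ k z ∧ τ z = t ∧ k z = x ∧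
      ∀ᶠ q in 𝓝 z, u q = scl π (τ q) (σ (k q)) := by
  obtain ⟨k, k1, k2, k3, -⟩ := (h.prm_at hA (unit_of_mem (h0 ▸ hA.sub hm.self_of_nhds))).lift h0 hu hm
  exact ⟨fun q => (k q).1, fun q => (k q).2, analyticAt_fst.comp k1, analyticAt_snd.comp k1,
    congrArg Prod.fst k2, congrArg Prod.snd k2, k3⟩

/-- The coordinates of a chart, as functions on the cone. -/
theorem exists_coord (h : Slc π A σ x) (hA : MC π A) (ht : IsUnit t) :
    ∃ (τ : (J → ℂ) → R → ℂ) (a : (J → ℂ) → E), AnalyticAt ℂ τ (scl π t (σ x)) ∧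
      AnalyticAt ℂ a (scl π t (σ x)) ∧ τ (scl π t (σ x)) = t ∧ a (scl π t (σ x)) = x ∧
      (∀ᶠ p in 𝓝 (t, x), τ (scl π p.1 (σ p.2)) = p.1 ∧ a (scl π p.1 (σ p.2)) = p.2) ∧
      ∀ᶠ s in 𝓝 (scl π t (σ x)), s ∈ A → scl π (τ s) (σ (a s)) = s := by
  obtain ⟨w, w1, w2, w3, w4⟩ := (h.prm_at hA ht).exists_inv
  exact ⟨fun s => (w s).1, fun s => (w s).2, analyticAt_fst.comp w1, analyticAt_snd.comp w1,
    congrArg Prod.fst w2, congrArg Prod.snd w2, w3.mono fun _ a => Prod.ext_iff.1 a, w4⟩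

/-- A slice meets nearby orbits only once. -/
theorem eventually_inj (h : Slc π A σ x) (hA : MC π A) :
    ∀ᶠ p in 𝓝 x ×ˢ 𝓝 x, ∀ t, σ p.1 = scl π t (σ p.2) → p.1 = p.2 ∧ t = 1 := by
  choose ρ h1 h2 using hA.sub h.mem0
  have c : ∀ r, ContinuousAt (fun z => σ z (ρ r)) x := fun r =>
    (analyticAt_pi_iff.1 h.an _).continuousAt
  have c1 : Tendsto (fun p : E × E => fun r => σ p.1 (ρ r) / σ p.2 (ρ r)) (𝓝 x ×ˢ 𝓝 x) (𝓝 1) :=
    tendsto_pi_nhds.2 fun r => by
      have := ((c r).tendsto.comp (tendsto_fst (g := 𝓝 x))).div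
        ((c r).tendsto.comp tendsto_snd) (h2 r)
      rwa [div_self (h2 r)] at this
  have c2 := ((tendsto_const_nhds (x := (1 : R → ℂ))).prodMk_nhds tendsto_fst).prodMk
    (c1.prodMk_nhds tendsto_snd)
  filter_upwards [c2.eventually h.prm.eventually_inj, tendsto_snd.eventually
    (eventually_all.2 fun r => (c r).eventually_ne (h2 r))] with p a b t e
  have e1 : t = fun r => σ p.1 (ρ r) / σ p.2 (ρ r) := funext fun r => by
    rw [eq_div_iff (b r), e, scl, h1]
  have := a (by rw [scl_one, ← e1]; exact e)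
  exact ⟨congrArg Prod.snd this, e1.trans (congrArg Prod.fst this).symm⟩

theorem comp {u : F → E} {z : F} (h : Slc π A σ (u z)) (hu : AnalyticAt ℂ u z)
    (hb : Bijective (fderiv ℂ u z)) : Slc π A (fun q => σ (u q)) z := by
  obtain ⟨-, v, v1, -, v3, v4⟩ := ift hu hb
  exact Prm.comp_inv (u := fun p : (R → ℂ) × F => (p.1, u p.2)) (z := (1, z))
    (v := fun p => (p.1, v p.2)) h.prm
    (analyticAt_fst.prod (hu.comp (f := Prod.snd) (x := (1, z)) analyticAt_snd))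
    (analyticAt_fst.prod (v1.comp (f := Prod.snd) (x := (1, u z)) analyticAt_snd))
    (((continuousAt_snd (p := ((1 : R → ℂ), z))).eventually v3).mono fun p a => Prod.ext rfl a)
    (((continuousAt_snd (p := ((1 : R → ℂ), u z))).eventually v4).mono fun p a => Prod.ext rfl a)

/-- Change of gauge. -/
theorem gauge (h : Slc π A σ x) (hA : MC π A) {τ : E → R → ℂ} (hτ : AnalyticAt ℂ τ x)
    (hu : IsUnit (τ x)) : Slc π A (fun z => scl π (τ z) (σ z)) x := by
  have a1 : ∀ s, AnalyticAt ℂ (fun p : (R → ℂ) × E => τ p.2) (s, x) := fun s =>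
    hτ.comp (f := Prod.snd) (x := (s, x)) analyticAt_snd
  have a2 : ∀ s, ∀ᶠ p : (R → ℂ) × E in 𝓝 (s, x), IsUnit (τ p.2) := fun s =>
    (a1 s).continuousAt.eventually (eventually_unit hu)
  refine (Prm.comp_inv (u := fun p : (R → ℂ) × E => (p.1 * τ p.2, p.2)) (z := (1, x))
    (v := fun p => (p.1 * (τ p.2)⁻¹, p.2)) (by simpa only [one_mul] using h.prm_at hA hu)
    ((analyticAt_fst.mul (a1 _)).prod analyticAt_snd)
    ((analyticAt_fst.mul (an_inv (a1 _) hu)).prod analyticAt_snd)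
    ((a2 _).mono fun p a => Prod.ext (funext fun r => mul_inv_cancel_right₀ (unit_iff.1 a r) _) rfl)
    ((a2 _).mono fun p a => Prod.ext (funext fun r => inv_mul_cancel_right₀ (unit_iff.1 a r) _)
      rfl)).congr (.of_forall fun p => scl_mul _ _ _)

/-- Transition maps between charts. -/
theorem transition (h : Slc π A σ x) (hA : MC π A) {σ' : F → J → ℂ} {z : F} (h' : Slc π A σ' z)
    (h0 : σ' z = scl π t (σ x)) :
    ∃ (τ : F → R → ℂ) (k : F → E), AnalyticAt ℂ τ z ∧ AnalyticAt ℂ k z ∧ τ z = t ∧ k z = x ∧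
      (∀ᶠ q in 𝓝 z, σ' q = scl π (τ q) (σ (k q))) ∧ Bijective (fderiv ℂ k z) := by
  obtain ⟨τ, k, a1, a2, a3, a4, a5⟩ := h.lift hA h0 h'.an h'.mem
  have ht : IsUnit t := unit_of_mem (h0 ▸ hA.sub h'.mem0)
  refine ⟨τ, k, a1, a2, a3, a4, a5, bijective_of_injective _ ((injective_iff_map_eq_zero _).2
    fun v e => (h'.transv (a := fderiv ℂ τ z v * t⁻¹) ?_).1) ?_⟩
  · have hk : AnalyticAt ℂ σ (k z) := a4 ▸ h.an
    rw [EventuallyEq.fderiv_eq a5, hasFDerivAt_scl (y := fun q => σ (k q)) a1 (hk.comp a2),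
      fderiv_comp_an hk a2, ContinuousLinearMap.comp_apply, e,
      map_zero, h0, scl_mul, scl_inv_scl ht, a4]
    exact add_eq_left.2 (funext fun _ => mul_zero _)
  · exact add_right_cancel ((h'.mfdAt rfl).unique
      (h0 ▸ (h.prm_at hA ht).mfdAt (by rw [finrank_prod, finrank_fintype_fun_eq_card, add_comm])))

theorem holOn_iff {B : Type} [NormedAddCommGroup B] [NormedSpace ℂ B] [FiniteDimensional ℂ B]
    (h : Slc π A σ x) {f : (J → ℂ) → B} :
    HolOn A f (σ x) ↔ AnalyticAt ℂ (fun p : (R → ℂ) × E => f (scl π p.1 (σ p.2))) (1, x) := by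
  rw [← h.prm.holOn_iff, scl_one]

/-- A coordinate subspace of a chart is a chart of the subvariety. -/
theorem slice {σ : F × E → J → ℂ} {b : F} (h : Slc π A σ (b, x)) (hC : MC π C) (hs : C ⊆ A)
    (e : ∀ᶠ p in 𝓝 (b, x), σ p ∈ C ↔ p.1 = b) : Slc π C (fun z => σ (b, z)) x := by
  have a : ∀ q, AnalyticAt ℂ (fun p : F × (R → ℂ) × E => (p.2.1, p.1, p.2.2)) q := fun _ =>
    (analyticAt_fst.comp analyticAt_snd).prod
      (analyticAt_fst.prod (analyticAt_snd.comp analyticAt_snd))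
  refine Prm.slice (ψ := fun p : F × (R → ℂ) × E => scl π p.2.1 (σ (p.1, p.2.2))) (b := b)
    (x := (1, x)) (Prm.comp_inv (u := fun p : F × (R → ℂ) × E => (p.2.1, p.1, p.2.2))
      (ψ := fun p : (R → ℂ) × F × E => scl π p.1 (σ p.2)) (z := (b, 1, x))
      (v := fun p => (p.2.1, p.1, p.2.2)) h.prm (a _)
      ((analyticAt_fst.comp analyticAt_snd).prod
        (analyticAt_fst.prod (analyticAt_snd.comp analyticAt_snd)))
      (.of_forall fun _ => rfl) (.of_forall fun _ => rfl)) hs ?_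
  filter_upwards [(analyticAt_snd.comp (a (b, 1, x))).continuousAt.eventually e,
    (analyticAt_fst.comp (a (b, 1, x))).continuousAt.eventually (eventually_unit isUnit_one)]
    with p c d
  exact (hC.mem_iff d).trans c

end Slc

theorem TInv.slc {wt : J → S → ℤ} (h : TInv wt A) {σ : E → J → ℂ} {x : E} (hσ : Slc π A σ x)
    {τ : S → ℂ} (ht : IsUnit τ) : Slc π A (fun z => tw wt τ (σ z)) x :=
  (h.prm_tw hσ.prm ht).congr (.of_forall fun _ => tw_scl _ _ _ _)

/-- **Charts exist.** -/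
theorem PV.slc (h : PV π A n) (hy : y ∈ A) :
    ∃ σ : (Fin n → ℂ) → J → ℂ, Slc π A σ 0 ∧ σ 0 = y := by
  obtain ⟨ψ, h1, h2⟩ := (h.mfd y hy).prm
  obtain ⟨k, k1, -, -, k4⟩ := h1.lift (u := fun t => scl π t y) (z := 1) ((scl_one y).trans h2.symm)
    (an_scl analyticAt_id analyticAt_const)
    ((eventually_unit isUnit_one).mono fun _ b => h.inv _ b _ hy)
  have k5 : ∀ a, fderiv ℂ ψ 0 (fderiv ℂ k 1 a) = scl π a y := fun a => by
    rw [← fderiv_orbit 1, k4]
    rfl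
  obtain ⟨i, hb⟩ := exists_compl_range (n := n) (fderiv ℂ k 1) (fun a b e =>
    scl_inj (h.sub hy) (by rw [← k5, e, k5])) (by simp [add_comm])
  have e0 : ψ (i 0) = y := by rw [map_zero, h2]
  have a1 : AnalyticAt ℂ ψ (i 0) := by rw [map_zero]; exact h1.an
  refine ⟨fun z => ψ (i z), .of_injective h (a1.comp (i.analyticAt 0))
    (i.continuous.continuousAt.eventually (by rw [map_zero]; exact h1.mem)) (fun v a e => ?_)
    (finrank_fin_fun ℂ), e0⟩
  rw [fderiv_comp_an a1 (i.analyticAt 0), e0, ← k5, i.fderiv, map_zero] at e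
  exact congrArg Prod.snd (hb.1 (a₁ := (0, v)) (a₂ := (a, 0)) (by simpa using h1.imm e))

theorem PV.of_slc (h : MC π A) (hs : ∀ y ∈ A, ∃ (E : Type) (_ : NormedAddCommGroup E)
    (_ : NormedSpace ℂ E) (_ : FiniteDimensional ℂ E) (σ : E → J → ℂ) (x : E) (t : R → ℂ),
    Slc π A σ x ∧ finrank ℂ E = n ∧ y = scl π t (σ x)) : PV π A n :=
  ⟨h, fun y hy => by
    obtain ⟨E, _, _, _, σ, x, t, a, b, rfl⟩ := hs y hy
    exact (a.prm_at h (unit_of_mem (h.sub hy))).mfdAt
      (by rw [finrank_prod, finrank_fintype_fun_eq_card, b, add_comm])⟩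

/-- **Adapted charts**: a chart of a subvariety extends to a chart of the variety. -/
theorem Slc.extend {σ : E → J → ℂ} {x : E} {c : ℕ} (hA : PV π A n) (h : Slc π C σ x) (hs : C ⊆ A)
    (hd : finrank ℂ E + c = n) : ∃ φ : (Fin c → ℂ) × E → J → ℂ, Slc π A φ (0, x) ∧
      (∀ᶠ z in 𝓝 x, φ (0, z) = σ z) ∧ ∀ᶠ p in 𝓝 (0, x), φ p ∈ C ↔ p.1 = 0 := by
  obtain ⟨φ, f1, f2, f3⟩ := Prm.extend (c := c) (x := ((1 : R → ℂ), x))
    (ψ := fun p : (R → ℂ) × E => scl π p.1 (σ p.2)) (hA.mfd _ (hs h.prm.mem0)) h.prm hs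
    (by rw [finrank_prod, finrank_fintype_fun_eq_card]; omega)
  let u : (Fin c → ℂ) × E → (Fin c → ℂ) × (R → ℂ) × E := fun p => (p.1, 1, p.2)
  have u1 : AnalyticAt ℂ u (0, x) := analyticAt_fst.prod (analyticAt_const.prod analyticAt_snd)
  have u2 : ∀ v, fderiv ℂ u (0, x) v = (v.1, 0, v.2) := fun v => by
    rw [(hasFDerivAt_fst.prodMk ((hasFDerivAt_const _ _).prodMk hasFDerivAt_snd)).fderiv]
    rfl
  have e : ∀ᶠ z in 𝓝 x, φ (0, 1, z) = σ z :=
    ((tendsto_inr 1 x).eventually f2).mono fun z a => a.trans (scl_one _)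
  refine ⟨fun p => φ (u p), .of_injective hA (AnalyticAt.comp (g := φ) (f := u) f1.an u1) (u1.continuousAt.eventually f1.mem)
    (fun v a d => ?_) (by rw [finrank_prod, finrank_fin_fun, add_comm, hd]), e,
    u1.continuousAt.eventually f3⟩
  have d2 : fderiv ℂ φ (0, 1, x) (0, a, 0) = scl π a (σ x) := by
    rw [← fderiv_inr f1.an, EventuallyEq.fderiv_eq f2, Slc.fderiv_eq h.an, map_zero, add_zero]
  rw [fderiv_comp_an (g := φ) (f := u) f1.an u1, ContinuousLinearMap.comp_apply, u2,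
    show φ (u (0, x)) = σ x from e.self_of_nhds, ← d2] at d
  have := f1.imm d
  exact Prod.ext (Prod.ext_iff.1 this).1 (Prod.ext_iff.1 (Prod.ext_iff.1 this).2).2

theorem PV.adapted {c : ℕ} (hA : PV π A n) (hC : PV π C m) (hs : C ⊆ A) (hd : m + c = n)
    (hy : y ∈ C) : ∃ φ : (Fin c → ℂ) × (Fin m → ℂ) → J → ℂ, Slc π A φ (0, 0) ∧ φ (0, 0) = y ∧
      ∀ᶠ p in 𝓝 (0, 0), φ p ∈ C ↔ p.1 = 0 := by
  obtain ⟨σ, h1, rfl⟩ := hC.slc hy
  obtain ⟨φ, a, b, d⟩ := h1.extend hA hs (by rw [finrank_fin_fun, hd])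
  exact ⟨φ, a, b.self_of_nhds, d⟩

theorem pv_Ust : PV π (Ust π) (Fintype.card J - Fintype.card R) := by
  refine ⟨mc_Ust, fun y hy => ?_⟩
  have : Fintype.card R ≤ Fintype.card J :=
    Fintype.card_le_of_surjective π fun r => (hy r).imp fun _ a => a.1
  rw [Nat.sub_add_cancel this, ← finrank_fintype_fun_eq_card ℂ]
  exact (MfdAt.univ y).congr (isOpen_Ust.eventually_mem hy |>.mono fun _ a => iff_of_true trivial a)

end Vale.Agent.P287Q
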