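import Vale.Agent.P287Q.Pv.Loc
import Vale.Agent.P287Q.Pv.Top
import Vale.Agent.P287Q.Pv.BlL
import Vale.Agent.P287Q.Pv.Chow
import Vale.Agent.P287Q.G.Gen.Num
import Vale.Agent.P287Q.G.Vir.RP

/-!
# The target defined by a multicone with equations
-/

set_option linter.unusedSectionVars false

namespace Vale.Agent.P287Q

open Set Function Topology Filter Module MvPolynomial P269 P269.Holo P269.Vir

variable {J R K : Type} [Fintype J] [Fintype R] [Fintype K] [DecidableEq R]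

/-- The family without parameters given by blocks and equations of multidegree `δ`. -/
noncomputable def fam (π : J → R) (δ : R → ℤ) (g : K → MvPolynomial J ℂ) : Fam Empty Empty R J K :=
  Tgt.fam ⟨bw π, Ust π, g, fun _ => 3⟩ fun _ => δ

variable {π : J → R} {δ : R → ℤ} {g : K → MvPolynomial J ℂ} {A : Set (J → ℂ)} {n : ℕ}
  {z : (Empty → ℂ) × (J → ℂ)}

theorem fam_fib (l : Empty → ℂ) (k : K) : ((fam π δ g).fib l).F k = g k := by
  change MvPolynomial.map (eval l) (MvPolynomial.map C (g k)) = g k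
  rw [MvPolynomial.map_map]
  exact (congrArg (MvPolynomial.map · _) (RingHom.ext fun _ => eval_C _)).trans
    (MvPolynomial.map_id _)

theorem fam_eqn (z : (Empty → ℂ) × (J → ℂ)) (k : K) : (fam π δ g).eqn z k = gv g z.2 k := by
  rw [Fam.eqn, fam_fib]
  rfl

theorem mem_fam : z ∈ (fam π δ g).cone ↔ z.2 ∈ Ust π ∧ gv g z.2 = 0 := by
  simp only [Fam.mem_cone, fam_eqn, funext_iff]
  exact and_iff_right ⟨trivial, trivial, fun _ h => h.elim⟩

theorem fam_cone (h : Cut π (Ust π) A δ g) : z ∈ (fam π δ g).cone ↔ z.2 ∈ A :=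
  mem_fam.trans ⟨fun a => (h.zero _ a.1).2 a.2, fun a => ⟨h.sub a, (h.zero _ (h.sub a)).1 a⟩⟩

theorem prod_bw (t : R → ℂ) (j : J) : ∏ r, t r ^ bw π j r = t (π j) := by
  simpa [tw, scl] using congrFun (congrFun (tw_bw π t) 1) j

theorem fam_actT (t : (Empty → ℂ) × (R → ℂ)) (z : (Empty → ℂ) × (J → ℂ)) :
    (fam π δ g).actT t z = (z.1, scl π t.2 z.2) :=
  Prod.ext (Subsingleton.elim _ _) (funext fun j => by
    change (∏ i, t.1 i ^ Empty.elim i) * (∏ r, t.2 r ^ bw π j r) * z.2 j = _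
    rw [prod_bw, Fintype.prod_empty, one_mul]
    rfl)

theorem fam_jac (z : (Empty → ℂ) × (J → ℂ)) (v : J → ℂ) (k : K) :
    ∑ j, (fam π δ g).jac z k j * v j = fderiv ℂ (gv g) z.2 v k := by
  have l : HasDerivAt (fun ε : ℂ => z.2 + ε • v) v 0 := by
    simpa using ((hasDerivAt_id (0 : ℂ)).smul_const v).const_add z.2
  simp only [Fam.jac, fam_fib, fderiv_gv]
  exact (hasDerivAt_eval (g k) z.2 v).unique
    ((an_eval (g k) z.2).differentiableAt.hasFDerivAt.comp_hasDerivAt_of_eq 0 l (by simp))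

theorem Cut.mem_tn (h : Cut π (Ust π) A δ g) (hA : PV π A n) {y v : J → ℂ} (hy : y ∈ A) :
    v ∈ tn A y ↔ fderiv ℂ (gv g) y v = 0 :=
  ⟨fderiv_eq_zero (hA.mfd y hy) (an_gv g y) (.of_forall fun s a => (h.zero s (h.sub a)).1 a),
    h.jac y hy v (by rw [tn_ust (h.sub hy)]; trivial)⟩

theorem fam_vert (h : Cut π (Ust π) A δ g) (hA : PV π A n) (hz : z.2 ∈ A) :
    (fam π δ g).vert z = tn A z.2 := Submodule.ext fun v => by
  simp only [RP.mem_vert, fam_jac, h.mem_tn hA hz, funext_iff]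
  exact and_iff_right fun _ a => (a trivial).elim

theorem fam_inv (h : ∀ k, WHom (bw π) δ (g k)) : (fam π δ g).Inv where
  hom k α hα := h k α (support_map_subset _ _ hα)
  homS _ _ _ _ _ i := i.elim
  openU := isOpen_Ust.preimage continuous_snd
  invU t ht z hz := by
    rw [fam_actT]
    exact scl_mem_Ust (Prod.isUnit_iff.1 ht).2 hz
  closedE := isClosed_univ
  invE _ _ _ _ := trivial
  baseE _ _ _ _ _ := trivial
  zer_base := empty_disjoint _
  lcB := isClosed_univ.isLocallyClosed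
  invB _ _ _ _ := trivial

theorem fam_ample : (fam π δ g).Ample 1 1 := by
  classical
  refine ⟨rfl, one_pos, fun c hc z hz => ?_⟩
  choose s h1 h2 using (mem_fam.1 hz).1
  have h0 : ∀ r, 0 ≤ c r := fun r => by
    rcases hc with rfl | ⟨i, rfl | rfl⟩
    · simp
    · by_cases e : r = i <;> simp [e]
    · by_cases e : r = i <;> simp [e]
  refine ⟨fun j => if s (π j) = j then (c (π j)).toNat else 0, fun r => ?_,
    Finset.prod_ne_zero_iff.2 fun j _ => ?_⟩
  · change ∑ j, ((if s (π j) = j then (c (π j)).toNat else 0 : ℕ) : ℤ) * bw π j r = c r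
    rw [Finset.sum_eq_single (s r) (fun j _ e => ?_) (by simp)]
    · simp [bw, h1, h0]
    · by_cases f : π j = r
      · rw [if_neg (f ▸ e.symm), Nat.cast_zero, zero_mul]
      · simp [bw, Ne.symm f]
  · beta_reduce
    split_ifs with e
    · exact pow_ne_zero _ (e ▸ h2 _)
    · simp

theorem fam_big {k : ℕ} (hk : 30 ≤ k) : (fam π δ g).Big k := ⟨1, 1, fam_ample, hk⟩

theorem fam_good [Nonempty J] (h : ∀ k, WHom (bw π) δ (g k)) (hδ : ∀ r, 0 < δ r)
    (hg : ∀ k, g k ≠ 0) : (fam π δ g).Good where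
  toInv := fam_inv h
  deg k e := by
    change (MvPolynomial.map C (g k)).totalDegree = 0 at e
    rw [totalDegree, support_map_of_injective _ (C_injective _ _), ← totalDegree,
      totalDegree_eq_zero_iff] at e
    obtain ⟨α, a⟩ := support_nonempty.2 (hg k)
    obtain ⟨j⟩ := ‹Nonempty J›
    exact (hδ (π j)).ne ((by simp [e α a] : _ = _).symm.trans (h k α a (π j)))
  freeB _ _ _ _ _ := Subsingleton.elim _ _
  properB _ _ _ _ _ _ _ _ _ _ := ⟨0, fun _ i => i.elim⟩
  free t _ z hz e := funext fun r => by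
    obtain ⟨j, rfl, a⟩ := (mem_fam.1 hz).1 r
    rw [fam_actT] at e
    exact (mul_left_eq_self₀.1 (congrFun (congrArg Prod.snd e) j)).resolve_right a
  proper t z z' _ hz hz' y hy H := by
    have H' : ∀ j, Tendsto (fun n => t n (π j) * y n j) atTop (𝓝 (z'.2 j)) := fun j =>
      (H j fun r => show 0 ≤ bw π j r by by_cases e : r = π j <;> simp [bw, e]).congr
        fun n => by rw [fam_actT]; rfl
    have hy' := tendsto_pi_nhds.1 hy
    have : ∀ r, ∃ c ≠ (0 : ℂ), Tendsto (fun n => t n r) atTop (𝓝 c) := fun r => by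
      obtain ⟨j, rfl, a⟩ := (mem_fam.1 hz).1 r
      obtain ⟨j', e, b⟩ := (mem_fam.1 hz').1 (π j)
      have d : Tendsto (fun n => t n (π j)) atTop (𝓝 (z'.2 j / z.2 j)) :=
        ((H' j).div (hy' j) a).congr' (((hy' j).eventually_ne a).mono fun n f =>
          mul_div_cancel_right₀ _ f)
      exact ⟨_, fun f => b (tendsto_nhds_unique (H' j')
        (by simpa [e, f] using d.mul (hy' j'))), d⟩
    choose c c1 c2 using this
    refine ⟨max (‖c‖ + 1) (‖c⁻¹‖ + 1), eventually_all.2 fun r => ?_⟩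
    filter_upwards [(c2 r).norm.eventually_le_const ((norm_le_pi_norm c r).trans_lt (lt_add_one _)),
      ((c2 r).inv₀ (c1 r)).norm.eventually_le_const
        ((norm_le_pi_norm c⁻¹ r).trans_lt (lt_add_one _))] with n a b
    exact ⟨le_max_of_le_left a, le_max_of_le_right b⟩
  cpt _ _ _ := by
    obtain ⟨C, a, b, c⟩ := (mc_Ust (π := π)).exists_cpt
    refine ⟨(univ ×ˢ C) ∩ {z | gv g z.2 = 0}, fun z hz => mem_fam.2 ⟨a hz.1.2, hz.2⟩,
      (isCompact_univ.prod b).inter_right (isClosed_eq ((continuous_iff_continuousAt.2 fun y =>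
        (an_gv g y).continuousAt).comp continuous_snd) continuous_const), fun z hz _ => ?_⟩
    obtain ⟨t, d, e⟩ := c _ (mem_fam.1 hz).1
    exact ⟨t, d, ⟨trivial, by rwa [fam_actT]⟩, (mem_fam.1 ((fam_inv h).cone_act
      (Prod.isUnit_iff.2 ⟨isUnit_one, d⟩) hz)).2⟩
  ample := ⟨1, 1, fam_ample⟩
  mov_ne := univ_nonempty

theorem fam_loc (h : Cut π (Ust π) A δ g) (hA : PV π A n) (hz : z ∈ (fam π δ g).cone) :
    ∃ K₁, (fam π δ g).RegAt K₁ z := by
  have hy := (fam_cone h).1 hz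
  obtain ⟨K₁, a, b⟩ := exists_loc (hA.mfd _ hy) (an_gv g z.2)
    (.of_forall fun s a => (h.zero s (h.sub a)).1 a) fun v => (h.mem_tn hA hy).2
  refine ⟨K₁, fun c => (a c).imp fun η e => ⟨fun _ f => (f trivial).elim, ?_⟩,
    (continuous_snd.continuousAt.eventually b).mono fun s e _ f k => ?_⟩
  · simpa only [fam_jac] using e
  · simp only [fam_eqn] at f ⊢
    exact congrFun ((h.zero _ (h.sub (e f))).1 (e f)) k

theorem fam_reg (h : Cut π (Ust π) A δ g) (hA : PV π A n) {γ : R → ℤ}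
    (hD : Det π A (n + Fintype.card R) γ) : (fam π δ g).Reg ⟨n + Fintype.card R, γ⟩ := by
  obtain ⟨q, q1, q2, q3⟩ := hD
  refine ⟨fun z => fam_loc h hA, fun z hz => ?_, fun l _ => ⟨q, fun y a => ?_, fun s y a => ?_,
    fun t ht y a s => ?_⟩⟩
  · rw [fam_vert h hA ((fam_cone h).1 hz), finrank_tn (hA.mfd _ ((fam_cone h).1 hz))]
  · rw [fam_vert h hA ((fam_cone h).1 a)]
    exact q1 y ((fam_cone h).1 a)
  · obtain ⟨f, b, c⟩ := q2 s y ((fam_cone h).1 a)
    exact ⟨f, b, c.mono fun x d e => d ((fam_cone h).1 e)⟩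
  · rw [fam_actT]
    exact (q3 ⟨t, ht⟩ y ((fam_cone h).1 a) s).trans
      (congrArg (· * _) (Finset.prod_congr rfl fun k _ => (prod_bw t (s k)).symm))

theorem fam_tg [Nonempty J] (h : Cut π (Ust π) A δ g) (hA : PV π A n) (hδ : ∀ r, 0 < δ r)
    (hg : ∀ k, g k ≠ 0) {γ : R → ℤ} (hD : Det π A (n + Fintype.card R) γ) : (fam π δ g).Tg where
  toGood := fam_good h.hom hδ hg
  reg := ⟨_, fam_reg h hA hD⟩
  mov := rfl
  B := rfl
  E := rfl

/-- The target of the family is the variety. -/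
noncomputable def famX (h : Cut π (Ust π) A δ g) : (fam π δ g).X (fam π δ g).cone ≃ₜ Spc π A where
  toFun := Quot.map (fun z => ⟨z.1.2, (fam_cone h).1 z.2⟩) fun x _ ⟨a, h1, h2⟩ =>
    ⟨a.2, (Prod.isUnit_iff.1 h1).2, (congrArg Prod.snd (h2.trans (fam_actT a x.1)) :)⟩
  invFun := Quot.map (fun y => ⟨(0, y.1), (fam_cone h).2 y.2⟩) fun x _ ⟨a, h1, h2⟩ =>
    ⟨(1, a), Prod.isUnit_iff.2 ⟨isUnit_one, h1⟩,
      (congrArg (Prod.mk 0) h2).trans (fam_actT (1, a) (0, x.1)).symm⟩
  left_inv := Quot.ind fun _ =>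
    congrArg (Quot.mk _) (Subtype.ext (Prod.ext (Subsingleton.elim _ _) rfl))
  right_inv := Quot.ind fun _ => rfl
  continuous_toFun := continuous_quot_lift _ (continuous_quot_mk.comp
    ((continuous_snd.comp continuous_subtype_val).subtype_mk _))
  continuous_invFun := continuous_quot_lift _ (continuous_quot_mk.comp
    ((continuous_const.prodMk continuous_subtype_val).subtype_mk _))

theorem famX_mk (h : Cut π (Ust π) A δ g) (z : (fam π δ g).cone) :
    famX h (Quo.mk _ z) = Quo.mk (scl π) ⟨z.1.2, (fam_cone h).1 z.2⟩ := rfl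

end Vale.Agent.P287Q
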