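import Vale.Agent.P287Q.Pv.DetG

/-!
# The determinant of the tangent space of a blow-up
-/

set_option linter.unusedSectionVars false

namespace Vale.Agent.P287Q

open Set Function Topology Filter Module MvPolynomial P269 P269.Holo P269.Vir

variable {J R K N E ι : Type} [Fintype J] [Fintype R] [Fintype K] [Fintype N] [DecidableEq N]
  [NormedAddCommGroup E] [NormedSpace ℂ E] [FiniteDimensional ℂ E] {π : J → R}
  {A C : Set (J → ℂ)} {g : K → MvPolynomial J ℂ} {δ γ : R → ℤ} {n m c : ℕ} {ψ : E → J → ℂ} {x : E}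

theorem Prm.isPl (h : Prm A ψ x) (b : Basis N ℂ E) :
    IsPl (tn A (ψ x)) (mn fun k => fderiv ℂ ψ x (b k)) :=
  isPl_mn (b.linearIndependent.map' (fderiv ℂ ψ x : E →ₗ[ℂ] J → ℂ) (LinearMap.ker_eq_bot.2 h.imm))
    (by rw [h.tn_eq, ← Submodule.map_top, ← b.span_eq, Submodule.map_span, ← range_comp]; rfl)

namespace DetB

theorem an_mn (h : AnalyticAt ℂ ψ x) (b : N → E) (s : N → J) :
    AnalyticAt ℂ (fun z => mn (fun k => fderiv ℂ ψ z (b k)) s) x := by
  have := FiniteDimensional.complete ℂ E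
  simp only [mn, Matrix.det_apply', Matrix.of_apply]
  exact Finset.analyticAt_fun_sum _ fun τ _ => analyticAt_const.mul
    (Finset.analyticAt_fun_prod _ fun i _ =>
      (((ContinuousLinearMap.proj (R := ℂ) (φ := fun _ : J => ℂ) (s i)) ∘L
        ContinuousLinearMap.apply ℂ (J → ℂ) (b (τ i))).analyticAt _).comp h.fderiv)

theorem loc (h : Prm A ψ x) (b : Basis N ℂ E) {κ : ι → N → J} {α β : (J → ℂ) → ι → ℂ} {ν : E → ℂ}
    (hν : AnalyticAt ℂ ν x) (h0 : ν x ≠ 0) (e : ∀ᶠ z in 𝓝 x, ∀ i,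
      α (ψ z) i * (ν z * mn (fun k => fderiv ℂ ψ z (b k)) (κ i)) = β (ψ z) i) :
    ∃ Q : (J → ℂ) → (N → J) → ℂ, (∀ s, HolOn A (Q · s) (ψ x)) ∧
      ∀ᶠ z in 𝓝 (ψ x), z ∈ A → IsPl (tn A z) (Q z) ∧ ∀ i, α z i * Q z (κ i) = β z i := by
  obtain ⟨w, w1, w2, w3, w4⟩ := h.exists_inv
  refine ⟨fun s σ => ν (w s) * mn (fun k => fderiv ℂ ψ (w s) (b k)) σ, fun σ => .of_an
    (AnalyticAt.comp_of_eq (g := fun z => ν z * mn (fun k => fderiv ℂ ψ z (b k)) σ)
      (hν.mul (an_mn h.an b σ)) w1 w2), h.ev.1 ?_⟩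
  filter_upwards [w3, h.eventually, e, hν.continuousAt.eventually_ne h0] with z a d f i
  rw [a]
  exact ⟨(d.isPl b).smul i, f⟩

theorem exists_kap (h : Prm A ψ x) (b : Basis N ℂ E) {q : (J → ℂ) → (N → J) → ℂ}
    (q1 : ∀ y ∈ A, IsPl (tn A y) (q y)) (q2 : ∀ s, ∀ y ∈ A, HolOn A (q · s) y) :
    ∃ k : E → ℂ, AnalyticAt ℂ k x ∧ k x ≠ 0 ∧
      ∀ᶠ z in 𝓝 x, ∀ s, q (ψ z) s = k z * mn (fun l => fderiv ℂ ψ z (b l)) s := by
  obtain ⟨s, a⟩ := (h.isPl b).ne
  refine ⟨fun z => q (ψ z) s / mn (fun l => fderiv ℂ ψ z (b l)) s,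
    (h.holOn_iff.1 (q2 s _ h.mem0)).div (an_mn h.an b s) a, ?_, ?_⟩
  · obtain ⟨μ, d, e⟩ := (h.isPl b).prop (q1 _ h.mem0)
    exact div_ne_zero (e s ▸ mul_ne_zero d a) a
  · filter_upwards [h.eventually, (an_mn h.an b s).continuousAt.eventually_ne a] with z d e σ
    obtain ⟨μ, -, f⟩ := (d.isPl b).prop (q1 _ d.mem0)
    rw [f, f, mul_div_cancel_right₀ _ e]

theorem mn_blk (v : Unit ⊕ N → J ⊕ K → ℂ) (a : Unit ⊕ N → ℂ) {u : K → ℂ} {D : N → ℂ}
    {y : N → J → ℂ} (h1 : ∑ l, a l • v l = Sum.elim (0 : J → ℂ) u)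
    (h2 : ∀ l, v (.inr l) ∘ .inl = D l • y l) (k : K) (s : N → J) :
    a (.inl ()) * mn v (Sum.elim (fun _ => .inr k) (.inl ∘ s)) = u k * ((∏ l, D l) * mn y s) := by
  rw [mn, ← smul_eq_mul, ← Matrix.det_updateRow_sum, mn, ← Matrix.det_mul_column,
    ← show (Matrix.of fun _ _ : Unit => u k).det = u k from Matrix.det_unique _,
    ← Matrix.det_fromBlocks_zero₁₂ (C := Matrix.of fun l _ => v (.inr l) (.inr k))]
  refine congrArg Matrix.det (Matrix.ext (Sum.rec (fun ⟨⟩ l => ?_) fun i l => ?_))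
  · rw [Matrix.updateRow_self, Finset.sum_apply]
    refine ((Finset.sum_apply _ _ fun l => a l • v l).symm.trans (congrFun h1 _)).trans ?_
    cases l <;> rfl
  · rw [Matrix.updateRow_ne Sum.inr_ne_inl]
    exact l.rec (fun _ => rfl) fun l => congrFun (h2 i) _

theorem blE_scl [DecidableEq R] (h : ∀ k, WHom (bw π) δ (g k)) {t : Option R → ℂ} (ht : IsUnit t)
    {w : J ⊕ K → ℂ} (hw : w ∈ blA A g) :
    blE g (scl (blP K π) t w) = (∏ r, t (some r) ^ δ r) * (t none)⁻¹ * blE g w := by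
  have t0 := unit_iff.1 ht
  refine blE_eq (smul_ne_zero (t0 none) hw.2.1) (funext fun k => ?_)
  have := (h k).eval_tw (τ := t ∘ some) (unit_iff.2 fun _ => t0 _) (w ∘ .inl)
  rw [tw_bw] at this
  refine this.trans ((congrArg (_ * ·) (congrFun (blE_spec hw) k)).trans ?_)
  change _ * (_ * w (.inr k)) = _ * (t none * w (.inr k))
  rw [mul_assoc, mul_assoc, mul_left_comm (blE g w), inv_mul_cancel_left₀ (t0 none)]
  rfl

variable {F N' : Type} [NormedAddCommGroup F] [NormedSpace ℂ F] [FiniteDimensional ℂ F] [Fintype N']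
  [DecidableEq N']

/-- the local statement -/
def Lc (A : Set (J → ℂ)) (g : K → MvPolynomial J ℂ) (c : ℕ) (q : (J → ℂ) → (N → J) → ℂ)
    (w : J ⊕ K → ℂ) : Prop :=
  (∃ Q : (J ⊕ K → ℂ) → (Unit ⊕ N → J ⊕ K) → ℂ,
    (∀ s, HolOn (blA A g) (Q · s) w) ∧ ∀ᶠ z in 𝓝 w, z ∈ blA A g → IsPl (tn (blA A g) z) (Q z) ∧
      ∀ i : K × (N → J), blE g z * Q z (Sum.elim (fun _ => .inr i.1) (.inl ∘ i.2)) =
        blE g z ^ (c + 1) * z (.inr i.1) * q (z ∘ .inl) i.2) ∧
    ∃ᶠ z in 𝓝 w, z ∈ blA A g ∧ blE g z ≠ 0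

theorem fderiv_inl {φ : E → J ⊕ K → ℂ} (h : AnalyticAt ℂ φ x) (v : E) :
    fderiv ℂ φ x v ∘ .inl = fderiv ℂ (fun z => φ z ∘ .inl) x v := by
  rw [fderiv_comp_an (an_pre Sum.inl _) h, ContinuousLinearMap.comp_apply, fderiv_pre]

theorem lc_on {ψ : F × E → J → ℂ} {G : F × E → F →L[ℂ] K → ℂ} (d : BlD A g ψ x G) {v : F}
    (v0 : v ≠ 0) (b : Basis N ℂ F) (b' : Basis N' ℂ E) (hc : Fintype.card N = c + 1)
    {q : (J → ℂ) → (N ⊕ N' → J) → ℂ} (q1 : ∀ y ∈ A, IsPl (tn A y) (q y))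
    (q2 : ∀ s, ∀ y ∈ A, HolOn A (q · s) y) : Lc A g c q (Sum.elim (ψ (0, x)) (G (0, x) v)) := by
  obtain ⟨k, k1, k2, k3⟩ := exists_kap d.prm (b.prod b') q1 q2
  have s1 : ∀ z : ℂ × F × E, AnalyticAt ℂ (fun z : ℂ × F × E => (z.2.1, z.1, z.2.2)) z :=
    fun z => (analyticAt_fst.comp analyticAt_snd).prod
      (analyticAt_fst.prod (analyticAt_snd.comp analyticAt_snd))
  have P : Prm (blA A g) (fun z : ℂ × F × E => BlD.par ψ G (z.2.1, z.1, z.2.2)) (0, v, x) :=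
    Prm.comp_inv (u := fun z : ℂ × F × E => (z.2.1, z.1, z.2.2))
      (v := fun z => (z.2.1, z.1, z.2.2)) (d.prm_par v0) (s1 _)
      ((analyticAt_fst.comp analyticAt_snd).prod
        (analyticAt_fst.prod (analyticAt_snd.comp analyticAt_snd)))
      (.of_forall fun _ => rfl) (.of_forall fun _ => rfl)
  have T := (s1 (0, v, x)).continuousAt.tendsto
  have an : ∀ z : ℂ × F × E, AnalyticAt ℂ (fun z : ℂ × F × E => (z.1 • z.2.1, z.2.2)) z :=
    fun z => (BlD.an_dn _).comp (s1 z)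
  rw [← BlD.par_zero]
  refine ⟨loc P ((Basis.singleton Unit ℂ).prod (b.prod b')) (ν := fun z => -k (z.1 • z.2.1, z.2.2))
    (AnalyticAt.comp_of_eq k1 (an _) (by simp)).neg (by simpa using k2) ?_, ?_⟩
  · filter_upwards [T.eventually (d.par_mem v0), P.an.eventually_analyticAt,
      ((BlD.tendsto_dn v x).comp T).eventually (k3.and d.prm.an.eventually_analyticAt)]
      with z z1 z2 z3 i
    have := mn_blk (fun l => fderiv ℂ (fun z : ℂ × F × E => BlD.par ψ G (z.2.1, z.1, z.2.2)) z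
      ((Basis.singleton Unit ℂ).prod (b.prod b') l))
      (((Basis.singleton Unit ℂ).prod (b.prod b')).repr (-z.1, z.2.1, 0))
      (u := G (z.1 • z.2.1, z.2.2) z.2.1) (D := Sum.elim (fun _ => z.1) 1)
      (y := fun l => fderiv ℂ ψ (z.1 • z.2.1, z.2.2) (b.prod b' l)) ?_ (fun l => ?_) i.1 i.2
    · rw [z1.2, show q (BlD.par ψ G _ ∘ .inl) i.2 = _ from z3.1 i.2]
      simp only [Fintype.prod_sum_type, Sum.elim_inl, Sum.elim_inr, Finset.prod_const,
        Pi.one_apply, Finset.card_univ, hc, Basis.prod_repr_inl, Basis.singleton_repr] at this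
      change z.1 * _ = z.1 ^ (c + 1) * G (z.1 • z.2.1, z.2.2) z.2.1 i.1 * (k (z.1 • z.2.1, z.2.2) *
        mn (fun l => fderiv ℂ ψ (z.1 • z.2.1, z.2.2) (b.prod b' l)) i.2)
      linear_combination k (z.1 • z.2.1, z.2.2) * this
    · simp only [← map_smul, ← map_sum, Basis.sum_repr]
      have e1 := Complex.hasDerivAt_exp 0
      have e2 : ∀ s, (Complex.exp s)⁻¹ * z.1 * Complex.exp s = z.1 := fun s => by
        rw [mul_right_comm, inv_mul_cancel₀ (Complex.exp_ne_zero s), one_mul]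
      have c1 : HasDerivAt (fun s : ℂ => ((Complex.exp s)⁻¹ * z.1, Complex.exp s • z.2.1, z.2.2))
          (-z.1, z.2.1, 0) 0 := by
        simpa using ((e1.fun_inv (Complex.exp_ne_zero 0)).mul_const z.1).prodMk
          ((e1.smul_const z.2.1).prodMk (hasDerivAt_const (0 : ℂ) z.2.2))
      refine (z2.differentiableAt.hasFDerivAt.comp_hasDerivAt_of_eq 0 c1 (by simp)).unique
        (hasDerivAt_pi.2 (Sum.rec (fun j => ?_) fun j => ?_))
      · simpa [BlD.par, smul_smul, e2] using hasDerivAt_const _ _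
      · simpa [BlD.par, smul_smul, e2] using e1.mul_const _
    · rw [fderiv_inl z2]
      refine (congr($(fderiv_comp_an (g := ψ) (f := fun z : ℂ × F × E => (z.1 • z.2.1, z.2.2))
        z3.2 (an z)) _)).trans ?_
      have c2 : HasFDerivAt (fun z : ℂ × F × E => z.2) _ z := hasFDerivAt_snd (𝕜 := ℂ)
      rw [ContinuousLinearMap.comp_apply, ← map_smul,
        ((hasFDerivAt_fst.fun_smul c2.fst).prodMk c2.snd).fderiv]
      cases l <;> simp
  · have f : ∃ᶠ z : ℂ × F × E in 𝓝 (0, v, x), z.1 ≠ 0 :=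
      (Continuous.prodMk_left (v, x)).continuousAt.tendsto.frequently
        ((frequently_nhdsWithin_iff.1
          (.of_forall fun _ => trivial : ∃ᶠ _ in 𝓝[≠] (0 : ℂ), True)).mono fun _ a => a.2)
    exact P.an.continuousAt.tendsto.frequently ((f.and_eventually
      (T.eventually (d.par_mem v0))).mono fun z a => ⟨a.2.1, a.2.2.trans_ne a.1⟩)

theorem lc_off (p : Prm A ψ x) (hg : gv g (ψ x) ≠ 0) {s : ℂ} (hs : s ≠ 0) (b : Basis N ℂ E)
    {q : (J → ℂ) → (N → J) → ℂ} (q1 : ∀ y ∈ A, IsPl (tn A y) (q y))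
    (q2 : ∀ s, ∀ y ∈ A, HolOn A (q · s) y) : Lc A g c q (Sum.elim (ψ x) (s • gv g (ψ x))) := by
  obtain ⟨k, k1, k2, k3⟩ := exists_kap p b q1 q2
  have P : Prm (blA A g) (fun z : ℂ × E => Sum.elim (ψ z.2) (z.1 • gv g (ψ z.2))) (s, x) :=
    Prm.comp_inv (u := fun z : ℂ × E => (z.2, z.1)) (v := fun z => (z.2, z.1)) (z := (s, x))
      (ψ := fun z => Sum.elim (ψ z.1) (z.2 • gv g (ψ z.1))) (prm_off p hg hs)
      (analyticAt_snd.prod analyticAt_fst) (analyticAt_snd.prod analyticAt_fst)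
      (.of_forall fun _ => rfl) (.of_forall fun _ => rfl)
  have e : ∀ᶠ z : ℂ × E in 𝓝 (s, x), z.1 ≠ 0 ∧
      blE g (Sum.elim (ψ z.2) (z.1 • gv g (ψ z.2))) = z.1⁻¹ := by
    filter_upwards [P.mem, (continuousAt_fst (p := (s, x))).eventually_ne hs] with z a d
    exact ⟨d, blE_eq a.2.1 (inv_smul_smul₀ d _).symm⟩
  refine ⟨loc P ((Basis.singleton Unit ℂ).prod b) (ν := fun z => z.1⁻¹ ^ c * z.1 * k z.2)
    ((((analyticAt_fst.inv hs).pow c).mul analyticAt_fst).mul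
      (AnalyticAt.comp (f := Prod.snd) k1 analyticAt_snd))
    (mul_ne_zero (mul_ne_zero (pow_ne_zero _ (inv_ne_zero hs)) hs) k2) ?_,
    (frequently_pure.2 ⟨P.mem0, e.self_of_nhds.2 ▸ inv_ne_zero hs⟩).filter_mono (pure_le_nhds _)⟩
  filter_upwards [e, P.an.eventually_analyticAt,
    (continuousAt_snd (p := (s, x))).eventually (k3.and p.an.eventually_analyticAt)]
    with z z1 z2 z3 i
  have := mn_blk (fun l => fderiv ℂ (fun z : ℂ × E => Sum.elim (ψ z.2) (z.1 • gv g (ψ z.2))) z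
    ((Basis.singleton Unit ℂ).prod b l)) (((Basis.singleton Unit ℂ).prod b).repr (z.1, 0))
    (u := z.1 • gv g (ψ z.2)) (D := 1) (y := fun l => fderiv ℂ ψ z.2 (b l)) ?_ (fun l => ?_) i.1 i.2
  · rw [z1.2, show q (Sum.elim (ψ z.2) _ ∘ .inl) i.2 = _ from z3.1 i.2]
    simp only [Pi.one_apply, Finset.prod_const_one, Basis.prod_repr_inl,
      Basis.singleton_repr] at this
    change _ = _ * (z.1 • gv g (ψ z.2)) i.1 * _
    linear_combination z.1⁻¹ ^ (c + 1) * k z.2 * this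
  · simp only [← map_smul, ← map_sum, Basis.sum_repr]
    have e1 := Complex.hasDerivAt_exp 0
    have c1 : HasDerivAt (fun s : ℂ => (Complex.exp s * z.1, z.2)) (z.1, 0) 0 := by
      simpa using (e1.mul_const z.1).prodMk (hasDerivAt_const (0 : ℂ) z.2)
    refine (z2.differentiableAt.hasFDerivAt.comp_hasDerivAt_of_eq 0 c1 (by simp)).unique
      (hasDerivAt_pi.2 (Sum.rec (fun j => ?_) fun j => ?_))
    · simpa using hasDerivAt_const _ _
    · simpa [mul_assoc] using e1.mul_const _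
  · rw [fderiv_inl z2]
    refine (congr($(fderiv_comp_an (g := ψ) (f := Prod.snd) z3.2 analyticAt_snd) _)).trans ?_
    simp [fderiv_snd]

end DetB

open DetB in
/-- **The determinant of the tangent space of a blow-up** along a centre of codimension `c + 1`. -/
theorem Det.bl [DecidableEq R] (hA : PV π A n) (hC : PV π C m) (hc : m + (c + 1) = n)
    (h : Cut π A C δ g) (hB : MC (blP K π) (blA A g)) (hD : Det π A (n + Fintype.card R) γ) :
    Det (blP K π) (blA A g) (n + Fintype.card (Option R))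
      fun o => o.elim c fun r => γ r - c * δ r := by
  let N := Fin (c + 1) ⊕ Fin (m + Fintype.card R)
  have e : Fintype.card (Fin (n + Fintype.card R)) = Fintype.card N := by
    simp only [N, Fintype.card_sum, Fintype.card_fin]
    omega
  obtain ⟨q, q1, q2, q3⟩ := PlE.reindex hD e
  have key : ∀ w ∈ blA A g, Lc A g c q w := fun w hw => by
    rw [← Sum.elim_comp_inl_inr w] at hw ⊢
    generalize w ∘ Sum.inl = y at hw
    generalize w ∘ Sum.inr = u at hw
    by_cases hy : gv g y = 0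
    · obtain ⟨ψ, p, rfl, a⟩ := exists_adapted (c := c + 1) (hA.mfd y hw.1)
        (hC.mfd y ((h.zero y hw.1).2 hy)) h.sub (by omega)
      obtain ⟨G, d⟩ := h.blD p a
      obtain ⟨v, v0, rfl⟩ := d.fib.1 hw
      exact lc_on d v0 (Pi.basisFun _ _) (Pi.basisFun _ _) (Fintype.card_fin _) q1 q2
    · obtain ⟨a, s, hs, rfl⟩ := (mem_blA_off hy).1 hw
      obtain ⟨ψ, p, rfl⟩ := (hA.mfd y a).prm
      exact lc_off p hy hs ((Pi.basisFun _ _).reindex (Fintype.equivOfCardEq e)) q1 q2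
  have t0 := fun t : {t : Option R → ℂ // IsUnit t} => unit_iff.1 t.2
  refine PlE.reindex (plE_glue (N := Unit ⊕ N) (V := tn (blA A g)) (C := blA A g)
    (act := fun t : {t : Option R → ℂ // IsUnit t} => scl (blP K π) t.1)
    (a := fun t j => t.1 (blP K π j))
    (fun i : K × (N → J) => Sum.elim (fun _ => .inr i.1) (.inl ∘ i.2))
    (fun z _ => blE g z) (fun z i => blE g z ^ (c + 1) * z (.inr i.1) * q (z ∘ .inl) i.2)
    (fun t _ => (∏ r, t.1 (some r) ^ δ r) * (t.1 none)⁻¹) (fun w hw => (key w hw).1)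
    (fun w hw => (key w hw).2.mono fun z a => ⟨a.1, ?_⟩) (fun t _ => t0 t _)
    (fun t _ => mul_ne_zero (Finset.prod_ne_zero_iff.2 fun r _ => zpow_ne_zero _ (t0 t _))
      (inv_ne_zero (t0 t _)))
    (fun t y => (an_scl analyticAt_const analyticAt_id).continuousAt) (fun t => hB.inv _ t.2)
    (fun t y _ => hB.tn_scl t.2) (fun t y hy _ => blE_scl h.hom t.2 hy)
    fun t w hw i => ?_) ?_
  · obtain ⟨k, b⟩ := ne_iff.1 a.1.2.1
    obtain ⟨s, d⟩ := (q1 _ a.1.1).ne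
    exact ⟨(k, s), mul_ne_zero (mul_ne_zero (pow_ne_zero _ a.2) b) d⟩
  · have a := q3 ⟨t.1 ∘ some, unit_iff.2 fun _ => t0 t _⟩ _ hw.1 i.2
    have b := mul_inv_cancel₀ (pow_ne_zero c (t0 t none))
    have d : (∏ r, t.1 (some r) ^ δ r) ^ c * ∏ r, t.1 (some r) ^ (γ r - c * δ r) =
        ∏ r, t.1 (some r) ^ γ r := by
      rw [← Finset.prod_pow, ← Finset.prod_mul_distrib]
      exact Finset.prod_congr rfl fun r _ => by
        rw [← zpow_natCast, ← zpow_mul, ← zpow_add₀ (t0 t _), mul_comm, add_sub_cancel]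
    simp only [blE_scl h.hom t.2 hw, Fintype.prod_option, Option.elim, Fintype.prod_sum_type,
      Sum.elim_inl, Sum.elim_inr, comp_apply, Fintype.prod_unique, zpow_natCast, mul_pow,
      pow_succ, inv_pow] at a ⊢
    change _ * (t.1 none * w (.inr i.1)) * q (scl π (t.1 ∘ some) (w ∘ .inl)) i.2 * _ =
      _ * (t.1 none * ∏ k, t.1 (some (π (i.2 k)))) * _
    rw [← d] at a
    linear_combination (∏ r, t.1 (some r) ^ δ r) * (t.1 none)⁻¹ * t.1 none * blE g w ^ c * blE g w *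
      w (.inr i.1) * (a + q (scl π (t.1 ∘ some) (w ∘ .inl)) i.2 *
        ((∏ r, t.1 (some r) ^ δ r) ^ c * ∏ r, t.1 (some r) ^ (γ r - c * δ r)) * b)
  · simp only [Fintype.card_sum, Fintype.card_fin, Fintype.card_option, Fintype.card_unique, ← e]
    omega

end Vale.Agent.P287Q
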