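import Vale.Agent.P287Q.Pv.DetB
import Vale.Agent.P287Q.Pv.Fam
import Vale.Agent.P287Q.Wg.Blm0
import Vale.Agent.P287Q.G.Vir.RD

/-!
# The determinant of open cones, complete intersections and products
-/

set_option linter.unusedSectionVars false

namespace Vale.Agent.P287Q

open Set Function Topology Filter Module MvPolynomial P269 P269.Holo P269.Vir

variable {J R K I : Type} [Fintype J] [Fintype R] [Fintype K] [Fintype I] {π : J → R}
  {A C : Set (J → ℂ)} {N M n m : ℕ} {γ : R → ℤ}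

theorem det_open [DecidableEq R] (h : IsOpen A) :
    Det π A (Fintype.card J) (∑ j, bw π j) := by
  classical
  refine (plE_top (τ := (id : J → J)) injective_id (fun y a η => ?_) fun t => ?_).reindex
    (Fintype.card_fin _).symm
  · rw [tn_of_nhds (h.mem_nhds a)]
    simp
  · exact (chi_sum _ _ t).trans (Finset.prod_congr rfl fun j _ => prod_bw t.1 j)

theorem fderiv_cols {G : (J → ℂ) → K → ℂ} [DecidableEq J] (y η : J → ℂ) (k : K) :
    ∑ j, fderiv ℂ G y (Pi.single j 1) k * η j = fderiv ℂ G y η k := by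
  conv_rhs => rw [pi_eq_sum_univ' η, map_sum, Finset.sum_apply]
  simp only [map_smul, Pi.smul_apply, smul_eq_mul, mul_comm]

/-- **Complete intersections.** -/
theorem Det.cut (hD : Det π A N γ) (hs : C ⊆ A) (hC : ∀ y ∈ C, MfdAt C M y)
    (hn : M + Fintype.card K = N) {G : (J → ℂ) → K → ℂ} (hG : ∀ y, AnalyticAt ℂ G y)
    {δ : K → R → ℤ} (hom : ∀ t, IsUnit t → ∀ y k, G (scl π t y) k = (∏ r, t r ^ δ k r) * G y k)
    (h0 : ∀ y ∈ C, G y = 0) (hj : ∀ y ∈ C, ∀ v ∈ tn A y, fderiv ℂ G y v = 0 → v ∈ tn C y) :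
    Det π C M (γ - ∑ k, δ k) := by
  classical
  have hV : ∀ y ∈ C, ∀ η, η ∈ tn C y ↔ η ∈ tn A y ∧ fderiv ℂ G y η = 0 := fun y a η =>
    ⟨fun b => ⟨tn_mono hs b, fderiv_eq_zero (hC y a) (hG y) (.of_forall h0) b⟩,
      fun b => hj y a η b.1 b.2⟩
  refine ((PlE.congr hD hs fun _ _ => rfl).reindex (N' := Fin M ⊕ K) (by simp [hn])).ker
    (fun y k j => fderiv ℂ G y (Pi.single j 1) k) (fun t k => chi (δ k) t) (fun t k => chi_ne _ t)
    (fun k j y _ => .of_an (analyticAt_pi_iff.1 (((ContinuousLinearMap.apply ℂ (K → ℂ)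
      (Pi.single j 1 : J → ℂ)).analyticAt _).comp (hG y).fderiv) k)) (fun t y _ k j => ?_)
    (fun y a η => by simp only [hV y a, fderiv_cols, _root_.funext_iff, Pi.zero_apply])
    (fun y a c => ?_) fun t => ?_
  · have l : HasDerivAt (fun s : ℂ => y + s • (Pi.single j 1 : J → ℂ)) (Pi.single j 1) 0 := by
      simpa using ((hasDerivAt_id (0 : ℂ)).smul_const _).const_add y
    have l' : HasDerivAt (fun s : ℂ => scl π t.1 y + (s * t.1 (π j)) • (Pi.single j 1 : J → ℂ))
        (t.1 (π j) • Pi.single j 1) 0 := by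
      simpa using ((hasDerivAt_mul_const (x := (0 : ℂ)) _).smul_const _).const_add (scl π t.1 y)
    have d := hasDerivAt_pi.1
      ((hG y).differentiableAt.hasFDerivAt.comp_hasDerivAt_of_eq 0 l (by simp)) k
    have d' := hasDerivAt_pi.1
      ((hG (scl π t.1 y)).differentiableAt.hasFDerivAt.comp_hasDerivAt_of_eq 0 l' (by simp)) k
    rw [map_smul, Pi.smul_apply, smul_eq_mul, mul_comm (t.1 _)] at d'
    refine d'.unique ((d.const_mul _).congr_of_eventuallyEq (.of_forall fun s => ?_))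
    refine Eq.trans (congrArg (G · k) (funext fun i => ?_)) (hom t.1 t.2 _ k)
    by_cases e : i = j <;> simp [scl, e, add_mul, mul_comm]
  · let L := (fderiv ℂ G y).toLinearMap.domRestrict (tn A y)
    have e : (LinearMap.ker L).map (tn A y).subtype = tn C y := Submodule.ext fun η =>
      ⟨fun ⟨v, b, d⟩ => d ▸ (hV y a _).2 ⟨v.2, b⟩,
        fun b => ⟨⟨η, ((hV y a _).1 b).1⟩, ((hV y a _).1 b).2, rfl⟩⟩
    have f := L.finrank_range_add_finrank_ker
    rw [← Submodule.finrank_map_subtype_eq, e, finrank_tn (hC y a), PlE.finrank hD (hs a),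
      Fintype.card_fin] at f
    obtain ⟨v, b⟩ := (Submodule.eq_top_of_finrank_eq (S := L.range)
      (by rw [finrank_fintype_fun_eq_card]; omega)).ge (Submodule.mem_top (x := c))
    exact ⟨v, v.2, fun k => (fderiv_cols _ _ k).trans (congrFun b k)⟩
  · rw [← chi_sum]
    exact (congrArg (chi · t) (sub_add_cancel _ _).symm).trans (chi_add _ _ t)

/-- Complete intersections given by polynomials of one multidegree. -/
theorem Cut.det [DecidableEq R] {δ : R → ℤ} {g : K → MvPolynomial J ℂ} (h : Cut π A C δ g)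
    (hC : PV π C m) (hn : m + Fintype.card K = n) (hD : Det π A (n + Fintype.card R) γ) :
    Det π C (m + Fintype.card R) (γ - Fintype.card K • δ) := by
  have := hD.cut h.sub hC.mfd (by omega) (an_gv g) (δ := fun _ => δ)
    (fun t a y k => congrFun (gv_scl h.hom a y) k) (fun y a => (h.zero y (h.sub a)).1 a) h.jac
  rwa [Finset.sum_const, Finset.card_univ] at this

theorem plE_emb {T Y L J' : Type} [NormedAddCommGroup Y] [NormedSpace ℂ Y] [Fintype L]
    [DecidableEq L] [Fintype J'] {act : T → Y → Y} {S : Set Y} {a : T → J → ℂ} {a' : T → J' → ℂ}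
    {V : Y → Submodule ℂ (J → ℂ)} {g : T → ℂ} (h : PlE L act S a V g) {φ : J → J'}
    (hφ : Injective φ) (ha : ∀ t j, a' t (φ j) = a t j) :
    PlE L act S a' (fun y => (V y).map (ExtendByZero.linearMap ℂ φ)) g := by
  classical
  have e : ∀ η : J → ℂ, (Matrix.of fun j' j => if φ j = j' then (1 : ℂ) else 0).mulVec η =
      extend φ η 0 := fun η => funext fun j' => by
    by_cases b : ∃ j, φ j = j'
    · obtain ⟨j, rfl⟩ := b
      simp [Matrix.mulVec, dotProduct, hφ.eq_iff, hφ.extend_apply]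
    · simp [Matrix.mulVec, dotProduct, not_exists.1 b]
  refine h.map (fun _ j' j => if φ j = j' then 1 else 0) (fun _ _ _ _ => .cst _)
    (fun t _ _ j' j => ?_) (fun y _ η _ b => funext fun j => ?_) fun y _ η => by simp only [e]; rfl
  · split_ifs with b
    exacts [by simp [← b, ha], by simp]
  · exact (hφ.extend_apply _ _ j).symm.trans (congrFun ((e η).symm.trans b) _)

/-- **Products.** -/
theorem Det.prd {B : Set (I → ℂ)} {β : Unit → ℤ} (hD : Det π A N γ) (hB : Det (fun _ => ()) B M β)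
    (h : ∀ y ∈ A, MfdAt A N y) (h' : ∀ y ∈ B, MfdAt B M y) :
    Det (blP I π) (Wg.prd A B) (N + M) fun o => o.elim (β ()) γ := by
  have u : ∀ (t : TU (Option R)) {S : Type} (f : S → Option R), IsUnit (t.1 ∘ f) := fun t _ f =>
    Pi.isUnit_iff.2 fun _ => Pi.isUnit_iff.1 t.2 _
  have d₁ := plE_emb (a' := fun t j => t.1 (blP I π j))
    (PlE.pull (act' := fun t : TU _ => scl (blP I π) t.1) (C' := Wg.prd A B) hD
    (· ∘ .inl) (fun t => ⟨_, u t some⟩) (fun y _ => .of_an (an_inl y)) (fun _ a => a.1)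
    (fun _ _ _ => rfl) (fun _ _ => rfl) (fun _ _ => rfl) fun _ => rfl) Sum.inl_injective
    fun _ _ => rfl
  have d₂ := plE_emb (a' := fun t j => t.1 (blP I π j))
    (PlE.pull (act' := fun t : TU _ => scl (blP I π) t.1) (C' := Wg.prd A B) hB
    (· ∘ .inr) (fun t => ⟨_, u t fun _ => none⟩) (fun y _ => .of_an (an_inr y)) (fun _ a => a.2)
    (fun _ _ _ => rfl) (fun _ _ => rfl) (fun _ _ => rfl) fun _ => rfl) Sum.inr_injective
    fun _ _ => rfl
  have e₁ : ∀ η : J → ℂ, ExtendByZero.linearMap ℂ .inl η = Sum.elim η (0 : I → ℂ) := fun η =>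
    funext (Sum.rec (Sum.inl_injective.extend_apply _ _) fun _ => extend_apply' _ _ _ (by simp))
  have e₂ : ∀ η : I → ℂ, ExtendByZero.linearMap ℂ .inr η = Sum.elim (0 : J → ℂ) η := fun η =>
    funext (Sum.rec (fun _ => extend_apply' _ _ _ (by simp)) (Sum.inr_injective.extend_apply _ _))
  refine (d₁.wedge d₂ (fun y _ => Submodule.disjoint_def.2 fun v ⟨a, _, b⟩ ⟨c, _, d⟩ => ?_)
    (fun y a => Submodule.ext fun v => ?_) fun t => ?_).reindex (by simp)
  · rw [e₁] at b
    rw [e₂] at d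
    exact funext (Sum.rec (fun _ => d ▸ rfl) fun _ => b ▸ rfl)
  · rw [Wg.mem_tn_prd (h _ a.1) (h' _ a.2), Submodule.mem_sup]
    refine ⟨?_, fun b => ⟨_, ⟨_, b.1, rfl⟩, _, ⟨_, b.2, rfl⟩, ?_⟩⟩
    · rintro ⟨_, ⟨x, b, rfl⟩, _, ⟨z, c, rfl⟩, rfl⟩
      rw [e₁, e₂]
      exact ⟨mem_of_eq_of_mem (funext fun _ => add_zero _) b,
        mem_of_eq_of_mem (funext fun _ => zero_add _) c⟩
    · rw [e₁, e₂]
      exact funext (Sum.rec (fun _ => add_zero _) fun _ => zero_add _)
  · rw [Fintype.prod_option, Fintype.prod_unique (ι := Unit), mul_comm]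
    rfl

namespace Ctr

variable {Y : Var n} (c : Ctr Y) {γ : Y.R → ℤ}

theorem detP (h : Det Y.π Y.A (n + Fintype.card Y.R) γ) :
    Det (blP Bool Y.π) (PA Y) (n + 1 + Fintype.card (Option Y.R)) fun o => o.elim 2 γ := by
  have := h.prd (det_open (π := fun _ : Bool => ()) (A := {u | u ≠ 0}) isOpen_ne) Y.pv.mfd
    Wg.pv_line.mfd
  rw [Fintype.card_option, add_add_add_comm]
  simpa [bw, Wg.prd, PA, add_assoc] using this

/-- The determinant of the master space of a blow-up. -/
theorem detM (h : Det Y.π Y.A (n + Fintype.card Y.R) γ) :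
    Det c.Mπ c.MA (n + 1 + Fintype.card (Option (Option Y.R))) fun o => o.elim (n - c.m : ℕ)
      fun r => r.elim 2 γ - (n - c.m : ℕ) * r.elim 1 c.δ :=
  Det.bl (pvP Y) c.pvC (by have := c.cod; omega) c.cutP c.pvM.toMC (detP h)

end Ctr

end Vale.Agent.P287Q
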