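import Vale.Agent.P287Q.Pv.Of

/-!
# Local sections, local families, lifts of the torus action
-/

set_option linter.unusedSectionVars false

namespace Vale.Agent.P287Q.Of

open Set Function Topology Filter Asymptotics P269 P269.Holo Module MvPolynomial H1

variable {J R J' R' S K κ : Type} [Fintype J] [Fintype R] [Fintype J'] [Fintype R'] [Fintype S]
  [Fintype K] [Fintype κ] {π : J → R} {A : Set (J → ℂ)} {π' : J' → R'} {A' : Set (J' → ℂ)}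
  {y : J → ℂ} {n : ℕ} {X X' : Mf n} {q : (J → ℂ) → X.M} {q' : (J' → ℂ) → X'.M} {p : X.M}
  {F : κ → (J → ℂ) → ℂ} {d : κ → R → ℤ} {f : X.M → κ → X.M → ℂ}

theorem sz_bigO {M : Type} {l : Filter M} {a b : κ → M → ℂ} (h : ∀ k, a k =O[l] b k) :
    sz a =O[l] sz b :=
  IsBigO.fun_sum fun k _ => (h k).norm_norm.trans (isBigO_of_le' (.of_forall fun _ => norm_nonneg _)
    (.of_forall fun v => Finset.single_le_sum (f := fun k => ‖b k v‖) (fun _ _ => norm_nonneg _)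
      (Finset.mem_univ k)))

theorem sz_theta {M : Type} {l : Filter M} {a b : κ → M → ℂ} (h : ∀ k, a k =Θ[l] b k) :
    sz a =Θ[l] sz b := ⟨sz_bigO fun k => (h k).1, sz_bigO fun k => (h k).2⟩

theorem sz_norm {M : Type} {l : Filter M} (a : κ → M → ℂ) : sz a =Θ[l] fun v k => a k v :=
  ⟨IsBigO.fun_sum fun k _ => (isBigO_pi.1 (isBigO_refl (fun v k => a k v) l) k).norm_left,
    isBigO_pi.2 fun k => IsBigO.of_norm_left (isBigO_of_le' (.of_forall fun _ => norm_nonneg _)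
      (.of_forall fun v => Finset.single_le_sum (f := fun k => ‖a k v‖) (fun _ _ => norm_nonneg _)
        (Finset.mem_univ k)))⟩

theorem theta_comp {M N B B' : Type*} [Norm B] [Norm B'] {l : Filter M} {l' : Filter N} {a : M → B}
    {b : M → B'} (h : a =Θ[l] b) {u : N → M} (hu : Tendsto u l' l) :
    (fun v => a (u v)) =Θ[l'] fun v => b (u v) := ⟨h.1.comp_tendsto hu, h.2.comp_tendsto hu⟩

theorem theta_map {M N B B' : Type*} [Norm B] [Norm B'] {l : Filter N} {a : M → B} {b : M → B'}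
    {u : N → M} (h : (fun v => a (u v)) =Θ[l] fun v => b (u v)) : a =Θ[map u l] b :=
  ⟨isBigO_map.2 h.1, isBigO_map.2 h.2⟩

/-- `s` is a holomorphic section of `q` near `p`. -/
def Sc (X : Mf n) (π : J → R) (A : Set (J → ℂ)) (q : (J → ℂ) → X.M) (s : X.M → J → ℂ) (p : X.M) :
    Prop := ∃ φ σ, X.Co p φ ∧ Slc π A σ (φ p) ∧ ∀ᶠ z in 𝓝 p, s z = σ (φ z) ∧ q (s z) = z

theorem exists_sc (h : Of X π A q) (hy : y ∈ A) : ∃ s, Sc X π A q s (q y) ∧ s (q y) = y := by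
  obtain ⟨φ, a⟩ := X.exi (q y)
  obtain ⟨σ, b, c, e⟩ := (h.co_iff hy).1 a
  exact ⟨_, ⟨φ, σ, a, b, (h.cq_inv b (congrArg q c) e).2.mono fun _ g => ⟨rfl, g⟩⟩, c⟩

namespace Sc

variable {s : X.M → J → ℂ}

theorem eventually (h : Sc X π A q s p) : ∀ᶠ b in 𝓝 p, Sc X π A q s b :=
  let ⟨φ, σ, a, b, c⟩ := h
  ((X.ev _ _ a).and (((Mf.co_tendsto a).eventually b.eventually).and c.eventually_nhds)).mono
    fun _ e => ⟨φ, σ, e.1, e.2⟩

theorem cont (h : Sc X π A q s p) : ContinuousAt s p :=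
  let ⟨_, _, a, b, c⟩ := h
  (b.an.continuousAt.comp (Mf.co_tendsto a)).congr (c.mono fun _ e => e.1.symm)

theorem mem (h : Sc X π A q s p) : ∀ᶠ z in 𝓝 p, s z ∈ A ∧ q (s z) = z :=
  let ⟨_, _, a, b, c⟩ := h
  (((Mf.co_tendsto a).eventually b.mem).and c).mono fun _ e => ⟨e.2.1 ▸ e.1, e.2.2⟩

theorem an (h : Sc X π A q s p) {G : (J → ℂ) → ℂ} (hG : HolOn A G (s p)) :
    X.An (fun z => G (s z)) p := by
  obtain ⟨φ, σ, a, b, c⟩ := h
  rw [c.self_of_nhds.1, b.holOn_iff] at hG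
  refine ⟨φ, _, a, AnalyticAt.comp (f := fun z : W n => ((1 : R → ℂ), z)) hG
    (analyticAt_const.prod analyticAt_id), c.mono fun z e => ?_⟩
  simp only [comp_apply, scl_one, e.1]

/-- The gauge of a point of the cone with respect to a section. -/
theorem gauge (h : Sc X π A q s (q y)) (hX : Of X π A q) (hy : y ∈ A) :
    ∃ τ : (J → ℂ) → R → ℂ, AnalyticAt ℂ τ y ∧ IsUnit (τ y) ∧
      ∀ᶠ v in 𝓝 y, v ∈ A → v = scl π (τ v) (s (q v)) := by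
  have m := (hX.ev hy).1 h.mem
  obtain ⟨φ, σ, a, b, c⟩ := h
  obtain ⟨t, e, g⟩ := (hX.eq_iff _ (m.self_of_nhds hy).1 _ hy).1 (m.self_of_nhds hy).2
  rw [c.self_of_nhds.1] at g
  obtain ⟨τ, k, k1, k2, k3, k4, -, k5⟩ := b.exists_coord hX.pv.toMC e
  rw [← g] at k1 k2 k3 k4 k5
  refine ⟨τ, k1, k3 ▸ e, ?_⟩
  have l : ∀ᶠ z in 𝓝 (φ (q y)), φ (q (σ z)) = z := (Mf.co_ev a).1 (c.mono fun z u => by rw [← u.1, u.2])
  filter_upwards [k5, (hX.ev hy).1 c, k2.continuousAt.eventually (k4.symm ▸ l.and b.mem),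
    k1.continuousAt.eventually (k3.symm ▸ eventually_unit e)] with v v1 v2 v3 v4 hv
  rw [(v2 hv).1, ← congrArg q (v1 hv), hX.scl v3.2 v4, v3.1, v1 hv]

end Sc

/-- `f p` is the family `F` of weight vectors in a gauge near `p`. -/
def Fm (X : Mf n) (π : J → R) (A : Set (J → ℂ)) (q : (J → ℂ) → X.M) (F : κ → (J → ℂ) → ℂ)
    (f : X.M → κ → X.M → ℂ) : Prop := ∀ p, ∃ s, Sc X π A q s p ∧ f p = fun k z => F k (s z)

theorem exists_fm (h : Of X π A q) (F : κ → (J → ℂ) → ℂ) : ∃ f, Fm X π A q F f := by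
  have : ∀ p, ∃ s, Sc X π A q s p := fun p =>
    let ⟨_, a, b⟩ := h.surj p
    b ▸ (h.exists_sc a).imp fun _ c => c.1
  choose s a using this
  exact ⟨_, fun p => ⟨s p, a p, rfl⟩⟩

namespace Fm

theorem an (h : Fm X π A q F f) (hF : ∀ k, ∀ y ∈ A, HolOn A (F k) y) (p : X.M) (k : κ) :
    X.An (f p k) p :=
  let ⟨_, a, b⟩ := h p
  b ▸ a.an (hF k _ a.mem.self_of_nhds.1)

variable (h : Fm X π A q F f) (hX : Of X π A q)
  (hd : ∀ k t, IsUnit t → ∀ y ∈ A, F k (scl π t y) = cha (d k) t * F k y)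
include h hX hd

/-- Exact form: `F k` is a unit times `f p k`. -/
theorem eq (p : X.M) : ∀ᶠ b in 𝓝 p, ∀ y ∈ A, q y = b → ∃ τ : (J → ℂ) → R → ℂ, AnalyticAt ℂ τ y ∧
    IsUnit (τ y) ∧ ∀ᶠ v in 𝓝 y, v ∈ A → ∀ k, F k v = cha (d k) (τ v) * f p k (q v) := by
  obtain ⟨s, a, b⟩ := h p
  filter_upwards [a.eventually] with _ c y hy e
  subst e
  obtain ⟨τ, t1, t2, t3⟩ := c.gauge hX hy
  refine ⟨τ, t1, t2, ?_⟩
  filter_upwards [t3, t1.continuousAt.eventually (eventually_unit t2), (hX.ev hy).1 c.mem]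
    with v v1 v2 v3 hv k
  rw [b, ← hd k _ v2 _ (v3 hv).1, ← v1 hv]

theorem theta (p : X.M) : ∀ᶠ b in 𝓝 p, ∀ y ∈ A, q y = b →
    (fun v => sz (f p) (q v)) =Θ[𝓝[A] y] sz F := by
  filter_upwards [h.eq hX hd p] with b c y hy e
  obtain ⟨τ, t1, t2, t3⟩ := c y hy e
  refine sz_theta (a := fun k v => f p k (q v)) fun k => IsTheta.symm ?_
  have u : (fun v => cha (d k) (τ v)) =Θ[𝓝[A] y] fun _ => (1 : ℂ) :=
    ((IsEquivalent.isTheta ((isEquivalent_const_iff_tendsto (cha_ne t2)).2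
      (an_cha t1 t2).continuousAt)).trans (isTheta_const_const (cha_ne t2) one_ne_zero)).mono
        nhdsWithin_le_nhds
  refine EventuallyEq.trans_isTheta ((eventually_nhdsWithin_iff.2 t3).mono fun v g => g k) ?_
  simpa only [one_mul] using u.mul (isTheta_refl (fun v => f p k (q v)) _)

theorem cmp (p : X.M) : ∀ᶠ b in 𝓝 p, sz (f b) =Θ[𝓝 b] sz (f p) := by
  filter_upwards [h.theta hX hd p] with b c
  obtain ⟨y, hy, rfl⟩ := hX.surj b
  exact hX.nh y hy ▸ theta_map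
    (((h.theta hX hd _).self_of_nhds y hy rfl).trans (c y hy rfl).symm)

theorem zero (p : X.M) : ∀ᶠ b in 𝓝 p, ∀ y ∈ A, q y = b → ∀ k, f p k b = 0 ↔ F k y = 0 := by
  filter_upwards [h.eq hX hd p] with b c y hy e k
  obtain ⟨τ, -, t2, t3⟩ := c y hy e
  rw [t3.self_of_nhds hy k, e, mul_eq_zero, or_iff_right (cha_ne t2)]

theorem mem_zs (hy : y ∈ A) : q y ∈ zs f ↔ ∀ k, F k y = 0 :=
  forall_congr' ((h.zero hX hd _).self_of_nhds y hy rfl)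

/-- The family is coherent. -/
theorem coh (hF : ∀ k, ∀ y ∈ A, HolOn A (F k) y)
    (hn : ∀ y ∈ A, ¬ ∀ᶠ v in 𝓝 y, v ∈ A → ∀ k, F k v = 0)
    (hi : ∀ γ ∈ X.Γ, ∀ p ∈ γ.source, (sz (f (γ p)) ∘ γ) =Θ[𝓝 p] sz (f p)) : X.Coh f := by
  refine ⟨h.an hF, h.cmp hX hd, hi, fun _ _ => hX.reg ▸ trivial, fun p a => ?_⟩
  obtain ⟨y, hy, rfl⟩ := hX.surj p
  exact hn y hy (((hX.ev hy).1 (a.and (h.zero hX hd _))).mono fun v b c k =>
    ((b c).2 v c rfl k).1 ((b c).1 k))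

/-- A map of the cone that preserves the size of `F` preserves the size of `f`. -/
theorem inv {γ : X.M → X.M} {u : (J → ℂ) → J → ℂ} (hy : y ∈ A) (hu : Tendsto u (𝓝[A] y) (𝓝[A] (u y)))
    (hu' : u y ∈ A) (e : ∀ᶠ v in 𝓝[A] y, γ (q v) = q (u v))
    (hs : (fun v => sz F (u v)) =Θ[𝓝[A] y] sz F) :
    (sz (f (γ (q y))) ∘ γ) =Θ[𝓝 (q y)] sz (f (q y)) := by
  have a := (theta_comp ((h.theta hX hd _).self_of_nhds _ hu' rfl) hu).trans
    (hs.trans ((h.theta hX hd _).self_of_nhds y hy rfl).symm)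
  have b : (fun v => sz (f (γ (q y))) (γ (q v))) =Θ[𝓝[A] y] fun v => sz (f (q y)) (q v) :=
    EventuallyEq.trans_isTheta (e.mono fun v c => by
      simp only [c, e.self_of_nhdsWithin hy]) a
  exact hX.nh y hy ▸ theta_map b

end Fm

/-- All local isomorphisms that preserve the size of `f`. -/
theorem exists_ext (h : Of X π A q) (e : X.Γ = ∅) (hf : X.Coh f) :
    ∃ (Γ : Set (OpenPartialHomeomorph X.M X.M)) (hs : ∀ γ ∈ Γ, γ.symm ∈ Γ) (hh : ∀ γ ∈ Γ, X.Hol γ)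
      (he : X.Γ ⊆ Γ), Of (X.ext Γ hs hh he) π A q ∧ (X.ext Γ hs hh he).Coh f ∧
      ∀ γ, γ ∈ Γ ↔ X.Hol γ ∧ ∀ p ∈ γ.source, (sz (f (γ p)) ∘ γ) =Θ[𝓝 p] sz (f p) := by
  refine ⟨{γ | X.Hol γ ∧ ∀ p ∈ γ.source, (sz (f (γ p)) ∘ γ) =Θ[𝓝 p] sz (f p)},
    fun γ a => ⟨a.1.symm, fun p b => ?_⟩, fun _ a => a.1, e ▸ empty_subset _, h.ext _ _ _,
    ⟨hf.an, hf.cmp, fun _ a => a.2, hf.reg, hf.nz⟩, fun _ => Iff.rfl⟩
  have c := (theta_comp (a.2 _ (γ.map_target b)) (γ.continuousAt_symm b)).symm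
  rw [γ.right_inv b] at c
  exact c.trans_eventuallyEq ((γ.eventually_right_inverse b).mono fun z g => congrArg _ g)

/-- An invariant closed set has an invariant cone. -/
theorem tinv (h : Of X π A q) {wt : J → S → ℤ} (hT : TInv wt A) {C : Set X.M} (hC : X.Inv C)
    (hΓ : ∀ τ, IsUnit τ → ∀ γ : X.M ≃ₜ X.M, (∀ y ∈ A, γ (q y) = q (tw wt τ y)) →
      γ.toOpenPartialHomeomorph ∈ X.Γ) : TInv wt (A ∩ q ⁻¹' C) := fun τ a y b =>
  let ⟨γ, c, _⟩ := h.exists_tw hT a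
  ⟨hT τ a y b.1, Set.mem_of_eq_of_mem (s := C) (c y b.1).symm (hC _ (hΓ τ a γ c) _ trivial b.2)⟩

/-- The torus action upstairs consists of admissible isomorphisms. -/
theorem tw_up (h : Of X π A q) (h' : Of X' π' A' q') {wt : J → S → ℤ} {wt' : J' → S → ℤ}
    (hT : TInv wt A) (hT' : TInv wt' A') {ι : J → J'} (hw : ∀ j, wt' (ι j) = wt j)
    (hm : ∀ w ∈ A', w ∘ ι ∈ A) {β : X'.M → X.M} (hβ : ∀ w ∈ A', β (q' w) = q (w ∘ ι))
    (hF : Mf.Full β) (hΓ : ∀ τ, IsUnit τ → ∀ γ : X.M ≃ₜ X.M, (∀ y ∈ A, γ (q y) = q (tw wt τ y)) →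
      γ.toOpenPartialHomeomorph ∈ X.Γ) (τ : S → ℂ) (a : IsUnit τ) (γ' : X'.M ≃ₜ X'.M)
    (b : ∀ w ∈ A', γ' (q' w) = q' (tw wt' τ w)) : γ'.toOpenPartialHomeomorph ∈ X'.Γ := by
  obtain ⟨γ, c, -⟩ := h.exists_tw hT a
  obtain ⟨γ₁, c₁, e⟩ := h'.exists_tw hT' a
  obtain rfl : γ₁ = γ' := Homeomorph.ext fun z => by
    obtain ⟨w, l, rfl⟩ := h'.surj z
    rw [c₁ w l, b w l]
  refine hF _ e e.symm ⟨_, hΓ τ a γ c, fun z _ => ⟨trivial, ?_⟩⟩
  obtain ⟨w, l, rfl⟩ := h'.surj z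
  refine (congrArg β (b w l)).trans ((hβ _ (hT' τ a w l)).trans (Eq.symm ?_))
  refine (congrArg γ (hβ w l)).trans ((c _ (hm w l)).trans (congrArg q (funext fun j => ?_)))
  simp only [tw, comp_apply, hw]

end Vale.Agent.P287Q.Of
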