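import Vale.Agent.P300LC.Chr

/-!
# The theorem of Chow with the Jacobian criterion for cones that need not be connected
-/

set_option linter.unusedSectionVars false

open Set Filter Topology Metric

noncomputable section

namespace Vale.Agent.P287Q.Chow0

open P300LC

variable {n M : ℕ} {C : Set (Vn M)} {v q : Vn M} {σ : Vn n → Vn M} {u : Vn n}

/-- The cone over a compact submanifold of dimension `n`. -/
structure Cn0 (n : ℕ) (C : Set (Vn M)) : Prop where
  zero : 0 ∉ C
  smul : ∀ v ∈ C, ∀ s : ℂ, s ≠ 0 → s • v ∈ C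
  cl : IsClosed (insert 0 C)
  par : ∀ v ∈ C, ∃ (σ : Vn n → Vn M) (u : Vn n), Par C v σ u

theorem cmp_nhds (h : Cn0 n C) (hv : v ∈ C) : connectedComponentIn C v ∈ 𝓝[C] v := by
  obtain ⟨σ, u, p⟩ := h.par v hv
  obtain ⟨r, hr, hb⟩ := Metric.eventually_nhds_iff_ball.1 (p.anf.eventually_analyticAt.and p.mem)
  rw [← p.nh]
  refine mem_map.2 (mem_of_superset (ball_mem_nhds _ hr) fun y hy => ?_)
  refine IsPreconnected.subset_connectedComponentIn (s := cf σ '' ball (1, u) r)
    ((convex_ball _ _).isPreconnected.image _ fun y hy => (hb y hy).1.continuousAt.continuousWithinAt)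
    ⟨_, mem_ball_self hr, p.valf⟩ ?_ ⟨y, hy, rfl⟩
  rintro _ ⟨y, hy, rfl⟩
  exact (hb y hy).2

theorem cmp_smul (h : Cn0 n C) (hv : v ∈ C) {s : ℂ} (hs : s ≠ 0) :
    s • v ∈ connectedComponentIn C v := by
  have h1 : IsPreconnected ({0}ᶜ : Set ℂ) :=
    (isConnected_compl_singleton_of_one_lt_rank (by simp) 0).isPreconnected
  refine IsPreconnected.subset_connectedComponentIn (s := (fun s : ℂ => s • v) '' {0}ᶜ)
    (h1.image _ (by fun_prop)) ⟨1, one_ne_zero, one_smul _ _⟩ ?_ ⟨s, hs, rfl⟩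
  rintro _ ⟨s, hs, rfl⟩
  exact h.smul v hv s hs

theorem par_cmp (h : Cn0 n C) {w : Vn M} (hv : v ∈ connectedComponentIn C w) (p : Par C v σ u) :
    Par (connectedComponentIn C w) v σ u := by
  refine ⟨p.an, p.val, p.imm, p.nh.trans (le_antisymm ?_
    (nhdsWithin_mono _ (connectedComponentIn_subset _ _)))⟩
  refine nhdsWithin_le_of_mem ?_
  rw [connectedComponentIn_eq hv]
  exact cmp_nhds h (connectedComponentIn_subset _ _ hv)

theorem cn_cmp (h : Cn0 n C) (w : Vn M) : Cn n (connectedComponentIn C w) := by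
  have sub := connectedComponentIn_subset C w
  refine ⟨fun e => h.zero (sub e), fun v hv s hs => ?_, ?_, isPreconnected_connectedComponentIn,
    fun v hv => (h.par v (sub hv)).imp fun σ => Exists.imp fun u => par_cmp h hv⟩
  · rw [connectedComponentIn_eq hv]
    exact cmp_smul h (sub hv) hs
  · refine isClosed_of_closure_subset fun x hx => ?_
    refine (closure_minimal (insert_subset_insert sub) h.cl hx).elim Or.inl fun hc => Or.inr ?_
    have x0 : x ≠ 0 := fun e => h.zero (e ▸ hc)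
    obtain ⟨U, hU, k⟩ := mem_nhdsWithin_iff_exists_mem_nhds_inter.1 (cmp_nhds h hc)
    obtain ⟨y, ⟨y1, y2⟩, y3⟩ := mem_closure_iff_nhds.1 hx _
      (inter_mem hU (isOpen_compl_singleton.mem_nhds x0))
    have y4 := y3.resolve_left y2
    rw [connectedComponentIn_eq y4, ← connectedComponentIn_eq (k ⟨y1, sub y4⟩)]
    exact mem_connectedComponentIn hc

theorem exists_fin (h : Cn0 n C) : ∃ t : Finset (Vn M), (∀ w ∈ t, w ∈ C) ∧
    ∀ x ∈ C, ∃ w ∈ t, x ∈ connectedComponentIn C w := by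
  have k : IsCompact (C ∩ sphere 0 1) := by
    have : C ∩ sphere 0 1 = insert 0 C ∩ sphere 0 1 := by
      ext x
      refine and_congr_left fun a => ⟨Or.inr, fun b => b.resolve_left ?_⟩
      rintro rfl
      simp at a
    exact this ▸ (isCompact_sphere _ _).inter_left h.cl
  obtain ⟨t, h1, h2⟩ := k.elim_nhdsWithin_subcover (fun x => connectedComponentIn C x)
    fun x hx => nhdsWithin_mono _ inter_subset_left (cmp_nhds h hx.1)
  refine ⟨t, fun w hw => (h1 w hw).1, fun x hx => ?_⟩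
  have a : ‖x‖ ≠ 0 := norm_ne_zero_iff.2 fun e => h.zero (e ▸ hx)
  have a' : (‖x‖ : ℂ)⁻¹ ≠ 0 := by simpa using a
  obtain ⟨w, hw, e⟩ := mem_iUnion₂.1 (h2 (a := (‖x‖ : ℂ)⁻¹ • x)
    ⟨h.smul x hx _ a', by simp [norm_smul, a]⟩)
  refine ⟨w, hw, ?_⟩
  rw [connectedComponentIn_eq e, ← connectedComponentIn_eq (cmp_smul h hx a')]
  exact mem_connectedComponentIn hx

/-- A polynomial that vanishes on all components that do not contain `q`. -/
theorem exists_sep (h : Cn0 n C) (hq : q ≠ 0) : ∃ G : Pn M, ev G q ≠ 0 ∧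
    ∀ x ∈ C, q ∉ connectedComponentIn C x → ev G x = 0 := by
  classical
  obtain ⟨t, h1, h2⟩ := exists_fin h
  have k : ∀ w : t, ∃ G : Pn M, ev G q ≠ 0 ∧ (q ∉ connectedComponentIn C w →
      ∀ x ∈ connectedComponentIn C w, ev G x = 0) := fun w => by
    by_cases e : q ∈ connectedComponentIn C w
    · exact ⟨1, by simp [ev], fun a => (a e).elim⟩
    · obtain ⟨G, g1, g2⟩ := (cn_cmp h w).off (mem_connectedComponentIn (h1 _ w.2))
        (q := q) fun a => a.elim hq e
      exact ⟨G, g2, fun _ => g1⟩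
  choose G g1 g2 using k
  refine ⟨∏ w, G w, ?_, fun x hx e => ?_⟩
  · rw [ev, map_prod]
    exact Finset.prod_ne_zero_iff.2 fun w _ => g1 w
  · obtain ⟨w, hw, a⟩ := h2 x hx
    rw [ev, map_prod]
    have := g2 ⟨w, hw⟩ (by rwa [connectedComponentIn_eq a]) x a
    exact Finset.prod_eq_zero (Finset.mem_univ (⟨w, hw⟩ : t)) this

theorem off (h : Cn0 n C) (hq : q ∉ insert 0 C) :
    ∃ G : Pn M, (∀ x ∈ C, ev G x = 0) ∧ ev G q ≠ 0 :=
  let ⟨G, g1, g2⟩ := exists_sep h fun e => hq (Or.inl e)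
  ⟨G, fun x hx => g2 x hx fun e => hq (Or.inr (connectedComponentIn_subset _ _ e)), g1⟩

theorem jac (h : Cn0 n C) (hv : v ∈ C) (p : Par C v σ u) {κ : Vn M}
    (e : ∀ G : Pn M, (∀ x ∈ C, ev G x = 0) → fderiv ℂ (ev G) v κ = 0) : ∃ y, df σ u y = κ := by
  obtain ⟨H, h1, h2⟩ := exists_sep h (q := v) fun a => h.zero (a ▸ hv)
  have m := mem_connectedComponentIn hv
  refine (cn_cmp h v).jac m (par_cmp h m p) fun G g => ?_
  have e1 : ev (G * H) = fun z => ev G z * ev H z := funext fun z => by simp [ev]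
  have := e (G * H) fun x hx => by
    rw [e1]
    by_cases a : v ∈ connectedComponentIn C x
    · refine mul_eq_zero_of_left (g x ?_) _
      rw [← connectedComponentIn_eq a]
      exact mem_connectedComponentIn hx
    · exact mul_eq_zero_of_right _ (h2 x hx a)
  rw [e1, fderiv_fun_mul (an_ev G v).differentiableAt (an_ev H v).differentiableAt] at this
  simpa [g v m, h1] using this

end Vale.Agent.P287Q.Chow0
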