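import Vale.Agent.P269.Holo.Set2
import Vale.Agent.P269.Defs.Orb
import Mathlib.Analysis.Analytic.Polynomial

/-!
# Smooth projective varieties as multicones, their equations and blow-ups (definitions)

The fields `J` are grouped in blocks by `π : J → R`; a variety is the quotient by the torus `R → ℂˣ`
of a closed smooth multicone in the set where no block vanishes.
-/

set_option linter.unusedSectionVars false

namespace Vale.Agent.P287Q

open Set Function Topology Filter MvPolynomial P269 P269.Holo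

section loc

variable {W E : Type*} [NormedAddCommGroup W] [NormedSpace ℂ W] [NormedAddCommGroup E]
  [NormedSpace ℂ E]

/-- The Zariski tangent space of a subset. -/
def tn (A : Set W) (y : W) : Submodule ℂ W where
  carrier := {v | ∀ Φ : W → W, AnalyticAt ℂ Φ y → (∀ᶠ s in 𝓝 y, s ∈ A → Φ s = 0) →
    fderiv ℂ Φ y v = 0}
  add_mem' hv hw Φ h1 h2 := by rw [map_add, hv Φ h1 h2, hw Φ h1 h2, add_zero]
  zero_mem' Φ _ _ := map_zero _
  smul_mem' c v hv Φ h1 h2 := by rw [map_smul, hv Φ h1 h2, smul_zero]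

theorem tn_eq {A : Set W} {y : W} (h : y ∈ A) : tn A y = tan (Subtype.val : A → W) ⟨y, h⟩ :=
  Submodule.ext fun _ => forall₂_congr fun Φ _ =>
    imp_congr_left (ev_sub h (p := fun s => Φ s = 0)).symm

/-- `ψ` is a holomorphic parametrisation of `A` near `ψ x`. -/
structure Prm (A : Set W) (ψ : E → W) (x : E) : Prop where
  an : AnalyticAt ℂ ψ x
  imm : Injective (fderiv ℂ ψ x)
  nh : map ψ (𝓝 x) = 𝓝[A] (ψ x)

end loc

variable {J R S K E : Type} [Fintype J] [Fintype R] [Fintype S] [Fintype K]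
  [NormedAddCommGroup E] [NormedSpace ℂ E]

/-- Rescaling the blocks. -/
def scl (π : J → R) (t : R → ℂ) (y : J → ℂ) : J → ℂ := fun j => t (π j) * y j

/-- The action of an extra torus with weights `wt`. -/
noncomputable def tw (wt : J → S → ℤ) (τ : S → ℂ) (y : J → ℂ) : J → ℂ :=
  fun j => (∏ s, τ s ^ wt j s) * y j

/-- No block vanishes. -/
def Ust (π : J → R) : Set (J → ℂ) := {y | ∀ r, ∃ j, π j = r ∧ y j ≠ 0}

/-- A closed multicone. -/
structure MC (π : J → R) (A : Set (J → ℂ)) : Prop where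
  sub : A ⊆ Ust π
  inv : ∀ t, IsUnit t → ∀ y ∈ A, scl π t y ∈ A
  cl : ∀ y ∈ closure A, y ∈ Ust π → y ∈ A

/-- The multicone over a smooth projective variety of pure dimension `n` (possibly empty or
disconnected). -/
structure PV (π : J → R) (A : Set (J → ℂ)) (n : ℕ) : Prop extends MC π A where
  mfd : ∀ y ∈ A, MfdAt A (n + Fintype.card R) y

/-- The variety. -/
abbrev Spc (π : J → R) (A : Set (J → ℂ)) : Type := Quo (scl π) A

/-- Invariance under the extra torus. -/
def TInv (wt : J → S → ℤ) (A : Set (J → ℂ)) : Prop := ∀ τ, IsUnit τ → ∀ y ∈ A, tw wt τ y ∈ A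

/-- A chart of the variety: `σ` is a holomorphic slice of the multicone. -/
def Slc (π : J → R) (A : Set (J → ℂ)) (σ : E → J → ℂ) (x : E) : Prop :=
  Prm A (fun p : (R → ℂ) × E => scl π p.1 (σ p.2)) (1, x)

/-- The weights of the fields for the torus `R`. -/
def bw [DecidableEq R] (π : J → R) : J → R → ℤ := fun j => Pi.single (π j) 1

/-- `p` has weight `χ` for the weights `w` of the variables. -/
def WHom (w : J → S → ℤ) (χ : S → ℤ) (p : MvPolynomial J ℂ) : Prop :=
  ∀ α ∈ p.support, ∀ i, ∑ j, α j * w j i = χ i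

/-- The values of a family of polynomials. -/
noncomputable def gv (g : K → MvPolynomial J ℂ) (y : J → ℂ) : K → ℂ := fun k => eval y (g k)

/-- The polynomials `g`, all of multidegree `δ`, cut out `C` in `A` with its reduced structure. -/
structure Cut [DecidableEq R] (π : J → R) (A C : Set (J → ℂ)) (δ : R → ℤ)
    (g : K → MvPolynomial J ℂ) : Prop where
  hom : ∀ k, WHom (bw π) δ (g k)
  sub : C ⊆ A
  zero : ∀ y ∈ A, y ∈ C ↔ gv g y = 0
  jac : ∀ y ∈ C, ∀ v ∈ tn A y, fderiv ℂ (gv g) y v = 0 → v ∈ tn C y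

/-- **Chow**: equations of one positive multidegree that are weight vectors for the extra torus.
(`Cut π (Ust π) C δ g` gives `Cut π A C δ g` for every `C ⊆ A ⊆ Ust π`.) -/
def CHOW : Prop := ∀ (J R S : Type) [Fintype J] [Fintype R] [Fintype S] [DecidableEq R] (π : J → R)
  (wt : J → S → ℤ) (C : Set (J → ℂ)) (n : ℕ), PV π C n → TInv wt C →
  ∃ (k : ℕ) (δ : R → ℤ) (g : Fin k → MvPolynomial J ℂ) (ω : Fin k → S → ℤ),
    Cut π (Ust π) C δ g ∧ (∀ r, 0 < δ r) ∧ ∀ i, g i ≠ 0 ∧ WHom wt (ω i) (g i)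

/-- The blocks of the blow-up: the new fields form the block `none`. -/
def blP (K : Type) (π : J → R) : J ⊕ K → Option R := Sum.elim (fun j => some (π j)) fun _ => none

/-- The multicone over the blow-up of `A` along the zero set of `g`. -/
def blA (A : Set (J → ℂ)) (g : K → MvPolynomial J ℂ) : Set (J ⊕ K → ℂ) :=
  {w | w ∘ .inl ∈ A ∧ w ∘ .inr ≠ 0 ∧ ∃ e : ℂ, gv g (w ∘ .inl) = e • (w ∘ .inr) ∧
    (e = 0 → ∃ v ∈ tn A (w ∘ .inl), fderiv ℂ (gv g) (w ∘ .inl) v = w ∘ .inr)}

/-- The equation of the exceptional divisor. -/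
noncomputable def blE (g : K → MvPolynomial J ℂ) (w : J ⊕ K → ℂ) : ℂ :=
  Classical.epsilon fun e : ℂ => gv g (w ∘ .inl) = e • (w ∘ .inr)

end Vale.Agent.P287Q
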