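import Vale.Agent.P287Q.Pv.Chow0
import Vale.Agent.P287Q.Pv.Defs

/-!
# The theorem of Chow for multicones, by the embedding of Segre
-/

set_option linter.unusedSectionVars false

open Set Filter Topology Metric Function MvPolynomial

noncomputable section

namespace Vale.Agent.P287Q.Chow1

open P300LC P269 P269.Holo Chow0 Classical

variable {J R : Type} [Fintype J] [Fintype R] {π : J → R} {C : Set (J → ℂ)} {n : ℕ}
  {y y' : J → ℂ}

variable (π) in
/-- Choices of one field in each block. -/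
abbrev Sec : Type := {s : R → J // ∀ r, π (s r) = r}

variable (π) in
/-- An enumeration of these choices. -/
def en : Sec π ≃ Fin (Fintype.card (Sec π)) := Fintype.equivFin _

variable (π) in
/-- The map of Segre. -/
def sg (y : J → ℂ) : Vn (Fintype.card (Sec π)) := fun m => ∏ r, y (((en π).symm m).1 r)

theorem sg_en (s : Sec π) : sg π y (en π s) = ∏ r, y (s.1 r) := by simp [sg]

theorem an_sg (y : J → ℂ) : AnalyticAt ℂ (sg π) y :=
  analyticAt_pi_iff.2 fun _ => Finset.analyticAt_fun_prod _ fun _ _ =>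
    (ContinuousLinearMap.proj (R := ℂ) (φ := fun _ : J => ℂ) _).analyticAt y

theorem sg_scl (t : R → ℂ) (y : J → ℂ) : sg π (scl π t y) = (∏ r, t r) • sg π y :=
  funext fun m => by simp [sg, scl, ((en π).symm m).2, Finset.prod_mul_distrib]

theorem exists_sec (h : y ∈ Ust π) : ∃ s : Sec π, ∀ r, y (s.1 r) ≠ 0 := by
  choose s h1 h2 using h
  exact ⟨⟨s, h1⟩, h2⟩

/-- Changing the choice in one block. -/
def upd (s : Sec π) (j : J) : Sec π := ⟨update s.1 (π j) j, fun r => by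
  by_cases e : r = π j
  · rw [e, update_self]
  · rw [update_of_ne e, s.2]⟩

/-- The local inverse of the map of Segre. -/
def ps (s : Sec π) (y : J → ℂ) (w : Vn (Fintype.card (Sec π))) : J → ℂ :=
  fun j => y (s.1 (π j)) * w (en π (upd s j)) / w (en π s)

theorem an_ps (s : Sec π) {w : Vn (Fintype.card (Sec π))} (h : w (en π s) ≠ 0) :
    AnalyticAt ℂ (ps s y) w :=
  analyticAt_pi_iff.2 fun _ => (analyticAt_const.mul ((ContinuousLinearMap.proj (R := ℂ)
    (φ := fun _ => ℂ) _).analyticAt w)).div ((ContinuousLinearMap.proj (R := ℂ)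
    (φ := fun _ => ℂ) _).analyticAt w) h

theorem ps_sg (s : Sec π) (h : ∀ r, y' (s.1 r) ≠ 0) {a : ℂ} (ha : a ≠ 0) :
    ps s y (a • sg π y') = scl π (fun r => y (s.1 r) / y' (s.1 r)) y' := by
  funext j
  have e1 : ∏ r, y' ((upd s j).1 r) = y' j * ∏ r ∈ Finset.univ.erase (π j), y' (s.1 r) := by
    rw [← Finset.mul_prod_erase _ _ (Finset.mem_univ (π j))]
    exact congrArg₂ (· * ·) (by simp [upd]) (Finset.prod_congr rfl
      fun r hr => by simp [upd, Finset.ne_of_mem_erase hr])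
  have e2 := Finset.prod_ne_zero_iff.2 fun r (_ : r ∈ Finset.univ.erase (π j)) => h r
  have e3 := h (π j)
  simp only [ps, Pi.smul_apply, sg_en, smul_eq_mul, scl, e1]
  rw [← Finset.mul_prod_erase _ _ (Finset.mem_univ (π j))]
  field_simp

theorem unit_of {t : R → ℂ} (h : ∀ r, t r ≠ 0) : IsUnit t :=
  Pi.isUnit_iff.2 fun r => (h r).isUnit

variable (π C) in
/-- The cone over the image. -/
def cone : Set (Vn (Fintype.card (Sec π))) := {w | ∃ c ≠ (0 : ℂ), ∃ y ∈ C, w = c • sg π y}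

theorem closed (h : MC π C) : IsClosed (insert 0 (cone π C)) := by
  let N : Set (J → ℂ) := ⋂ r, ⋃ j ∈ {j | π j = r}, {y | ‖y j‖ = 1}
  have hN : IsClosed N := isClosed_iInter fun r => (toFinite _).isClosed_biUnion fun j _ =>
    isClosed_eq (by fun_prop) continuous_const
  have mN : ∀ y, y ∈ N ↔ ∀ r, ∃ j, π j = r ∧ ‖y j‖ = 1 := fun y => by simp [N]
  have hK : IsCompact (closedBall 0 1 ∩ (C ∩ N)) :=
    (isCompact_closedBall _ _).inter_right (isClosed_of_closure_subset fun y hy => by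
      have h1 := closure_minimal inter_subset_right hN hy
      exact ⟨h.cl y (closure_mono inter_subset_left hy) fun r =>
        ((mN y).1 h1 r).imp fun j (k : _ ∧ _) =>
          ⟨k.1, norm_ne_zero_iff.1 (k.2.trans_ne one_ne_zero)⟩, h1⟩)
  refine isClosed_of_closure_subset fun w hw => ?_
  have h1 := (((isCompact_closedBall (0 : ℂ) (‖w‖ + 1)).prod hK).image
    (f := fun p => p.1 • sg π p.2) (continuous_fst.smul ((continuous_iff_continuousAt.2
      fun y => (an_sg y).continuousAt).comp continuous_snd))).insert 0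
  have h2 := closure_minimal (t := _) ?_ h1.isClosed
    ((isOpen_ball (x := 0) (ε := ‖w‖ + 1)).inter_closure ⟨by simp, hw⟩)
  · rcases h2 with e | ⟨⟨c, y⟩, k, rfl⟩
    · exact Or.inl e
    · by_cases e : c = 0
      · exact Or.inl (by simp [e])
      · exact Or.inr ⟨c, e, y, k.2.2.1, rfl⟩
  rintro x ⟨x1, e | ⟨c, hc, y, hy, rfl⟩⟩
  · exact Or.inl e
  have k : ∀ r, ∃ j, π j = r ∧ y j ≠ 0 ∧ ∀ i, π i = r → ‖y i‖ ≤ ‖y j‖ := fun r => by
    obtain ⟨i, i1, i2⟩ := h.sub hy r
    obtain ⟨j, j1, j2⟩ := (Finset.univ.filter fun j => π j = r).exists_max_image (fun j => ‖y j‖)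
      ⟨i, by simpa using i1⟩
    exact ⟨j, by simpa using j1, norm_pos_iff.1 ((norm_pos_iff.2 i2).trans_le
      (j2 i (by simpa using i1))), fun i e => j2 i (by simpa using e)⟩
  choose s s1 s2 s3 using k
  have e1 : c • sg π y = (c * ∏ r, y (s r)) • sg π (scl π (fun r => (y (s r))⁻¹) y) := by
    rw [sg_scl, smul_smul, mul_assoc, ← Finset.prod_mul_distrib,
      Finset.prod_eq_one fun r _ => mul_inv_cancel₀ (s2 r), mul_one]
  refine Or.inr ⟨(_, scl π (fun r => (y (s r))⁻¹) y), ⟨?_, ?_, h.inv _ (unit_of fun r => inv_ne_zero (s2 r)) y hy,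
    (mN _).2 fun r => ⟨s r, s1 r, by simp [scl, s1, s2]⟩⟩, e1.symm⟩
  · have := norm_le_pi_norm (c • sg π y) (en π ⟨s, s1⟩)
    rw [Pi.smul_apply, sg_en, smul_eq_mul] at this
    exact mem_closedBall_zero_iff.2 (this.trans (mem_ball_zero_iff.1 x1).le)
  · refine mem_closedBall_zero_iff.2 ((pi_norm_le_iff_of_nonneg zero_le_one).2 fun j => ?_)
    dsimp only [scl]
    rw [norm_mul, norm_inv, inv_mul_le_iff₀ (norm_pos_iff.2 (s2 _)), mul_one]
    exact s3 _ j rfl

theorem slice (h : PV π C n) (hy : y ∈ C) (s : Sec π) (hs : ∀ r, y (s.1 r) ≠ 0) :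
    MfdAt {z | z ∈ C ∧ (fun r => z (s.1 r) - y (s.1 r)) = 0} n y := by
  refine (h.mfd y hy).sub (Φ := fun z r => z (s.1 r) - y (s.1 r)) (analyticAt_pi_iff.2 fun r =>
    ((ContinuousLinearMap.proj (R := ℂ) (φ := fun _ : J => ℂ) _).analyticAt y).sub
      analyticAt_const) (funext fun _ => sub_self _) (span_of_det (D := Matrix.diagonal
      fun r => y (s.1 r)) (by simpa [Finset.prod_ne_zero_iff] using hs) fun r => ?_)
    (.of_forall fun _ => Iff.rfl) (by simp)
  have e : ∀ ε : ℂ, scl π (fun i => if i = r then 1 + ε else 1) y =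
      y + ε • fun j => if π j = r then y j else 0 := fun ε => funext fun j => by
    by_cases k : π j = r <;> simp [scl, k, add_mul]
  refine ⟨fun ε => y + ε • fun j => if π j = r then y j else 0, ⟨analyticAt_const.add
    (analyticAt_id.smul analyticAt_const), by simp, ?_⟩, ?_⟩
  · filter_upwards [(show ContinuousAt (fun ε : ℂ => 1 + ε) 0 by fun_prop).eventually_ne
      (y := 0) (by simp)] with ε hε
    rw [← e]
    exact h.inv _ (unit_of fun i => by split_ifs; exacts [hε, one_ne_zero]) y hy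
  · have : (fun ε : ℂ => fun i => (y + ε • fun j => if π j = r then y j else 0 : J → ℂ) (s.1 i) -
        y (s.1 i)) = fun ε => ε • Matrix.diagonal (fun r => y (s.1 r)) r := by
      funext ε i
      by_cases k : i = r
      · simp [s.2, k]
      · simp [s.2, k, Matrix.diagonal_apply_ne _ (Ne.symm k)]
    rw [this, deriv_smul_const differentiableAt_fun_id, deriv_id'', one_smul]

theorem exists_par (h : PV π C n) (hy : y ∈ C) (s : Sec π) (hs : ∀ r, y (s.1 r) ≠ 0) {c : ℂ}
    (hc : c ≠ 0) : ∃ σ : Vn n → _, Par (cone π C) (c • sg π y) σ 0 ∧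
      ∀ᶠ p in 𝓝 (1, 0), ps s y (cf σ p) ∈ C := by
  obtain ⟨m, ψ, hψ, e0⟩ := slice h hy s hs
  obtain ⟨w, w1, -, w2, w3, -⟩ := hψ.exists_inv
  rw [e0] at w1 w3
  have e1 : (ψ 0).1 = y := congrArg _ e0
  have k1 : ∀ z r, (ψ z).1 (s.1 r) = y (s.1 r) := fun z r => sub_eq_zero.1 (congrFun (ψ z).2.2 r)
  have v0 : (c • sg π y) (en π s) ≠ 0 := by
    rw [Pi.smul_apply, sg_en]
    exact mul_ne_zero hc (Finset.prod_ne_zero_iff.2 fun r _ => hs r)
  have p0 : ∀ {a : ℂ} z, a ≠ 0 → ps s y (a • sg π (ψ z).1) = (ψ z).1 := fun z ha => by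
    rw [ps_sg s (fun r => (k1 z r).trans_ne (hs r)) ha]
    exact funext fun j => by rw [scl, k1, div_self (hs _), one_mul]
  have p1 : ps s y (c • sg π y) = y := by simpa only [e1] using p0 0 hc
  have an : AnalyticAt ℂ (fun z => c • sg π (ψ z).1) 0 :=
    analyticAt_const.fun_smul ((an_sg (π := π) _).comp (f := fun z => (ψ z).1) hψ.an)
  let G := fun x : Vn (Fintype.card (Sec π)) => (x (en π s) / (c • sg π y) (en π s), w (ps s y x))
  have hG : AnalyticAt ℂ G (c • sg π y) := (((ContinuousLinearMap.proj (R := ℂ)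
    (φ := fun _ => ℂ) _).analyticAt _).div analyticAt_const v0).prod
      (AnalyticAt.comp_of_eq w1 (an_ps s v0) p1)
  have ne : ∀ᶠ p : ℂ × Vn n in 𝓝 (1, 0), p.1 ≠ 0 := continuousAt_fst.eventually_ne one_ne_zero
  have e2 : ∀ p : ℂ × Vn n, cf (fun z => c • sg π (ψ z).1) p = (p.1 * c) • sg π (ψ p.2).1 :=
    fun p => smul_smul _ _ _
  have e3 : cf (fun z => c • sg π (ψ z).1) (1, 0) = c • sg π y := by rw [e2, one_mul, e1]
  have lf : ∀ᶠ p in 𝓝 ((1, 0) : ℂ × Vn n), G (cf (fun z => c • sg π (ψ z).1) p) = p := by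
    filter_upwards [ne, (continuousAt_snd (p := ((1, 0) : ℂ × Vn n))).eventually w2] with p a b
    refine Prod.ext ?_ (by rw [e2]; exact (congrArg w (p0 _ (mul_ne_zero a hc))).trans b)
    rw [e2]
    refine (div_eq_iff v0).2 ?_
    simp only [Pi.smul_apply, sg_en, k1, smul_eq_mul, mul_assoc]
  refine ⟨_, ⟨an, by rw [e1], injective_fderiv_of_leftInv (e3 ▸ hG) (an_cf an 1) lf,
    le_antisymm ?_ ?_⟩, ne.mono fun p a => ?_⟩
  · refine tendsto_nhdsWithin_iff.2 ⟨e3 ▸ (an_cf an 1).continuousAt, ne.mono fun p a => ?_⟩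
    exact ⟨_, mul_ne_zero a hc, _, (ψ p.2).2.1, e2 p⟩
  · have g0 : G (c • sg π y) = (1, 0) := e3 ▸ lf.self_of_nhds
    refine le_trans ?_ (map_mono (m := cf fun z => c • sg π (ψ z).1)
      (show map G (𝓝[cone π C] (c • sg π y)) ≤ _ from
        (g0 ▸ hG.continuousAt.tendsto).mono_left nhdsWithin_le_nhds))
    rw [map_map]
    refine le_of_eq (map_id.symm.trans (map_congr (eventually_nhdsWithin_iff.2 ?_)))
    have t1 : Tendsto (ps s y) (𝓝 (c • sg π y)) (𝓝 y) := by
      simpa only [ContinuousAt, p1] using (an_ps (y := y) s v0).continuousAt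
    filter_upwards [(continuous_apply (en π s)).continuousAt.eventually_ne v0, t1.eventually
      ((ev_sub m (p := fun x => ∀ k, (ψ (w x)).1 = (⟨x, k⟩ : {z | z ∈ C ∧
        (fun r => z (s.1 r) - y (s.1 r)) = 0}).1)).1 (w3.mono fun x b _ => congrArg _ b))]
    rintro _ a b ⟨d, hd, z, hz, rfl⟩
    rw [Pi.smul_apply, sg_en] at a
    have a1 := Finset.prod_ne_zero_iff.1 (right_ne_zero_of_mul a)
    have a2 := fun r => a1 r (Finset.mem_univ _)
    have a3 := ps_sg (y := y) s a2 hd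
    have a4 : ps s y (d • sg π z) ∈ {z | z ∈ C ∧ (fun r => z (s.1 r) - y (s.1 r)) = 0} := by
      rw [a3]
      exact ⟨h.inv _ (unit_of fun r => div_ne_zero (hs r) (a2 r)) z hz, funext fun r => by
        simp [scl, s.2, a2]⟩
    rw [comp_apply, e2, b a4 a4, a3, sg_scl, smul_smul, Finset.prod_div_distrib]
    refine congrArg (· • sg π z) ?_
    have a5 := Finset.prod_ne_zero_iff.2 fun r (_ : r ∈ Finset.univ) => hs r
    have a6 := right_ne_zero_of_mul a
    simp only [G, Pi.smul_apply, sg_en, smul_eq_mul]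
    field_simp
  · rw [e2, p0 _ (mul_ne_zero a hc)]
    exact (ψ p.2).2.1

theorem cn0 (h : PV π C n) : Cn0 n (cone π C) := by
  refine ⟨?_, ?_, closed h.toMC, ?_⟩
  · rintro ⟨c, hc, y, hy, e⟩
    obtain ⟨s, hs⟩ := exists_sec (h.sub hy)
    have := congrFun e (en π s)
    rw [Pi.smul_apply, sg_en] at this
    exact mul_ne_zero hc (Finset.prod_ne_zero_iff.2 fun r _ => hs r) this.symm
  · rintro _ ⟨c, hc, y, hy, rfl⟩ s hs
    exact ⟨_, mul_ne_zero hs hc, y, hy, smul_smul _ _ _⟩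
  · rintro _ ⟨c, hc, y, hy, rfl⟩
    obtain ⟨s, hs⟩ := exists_sec (h.sub hy)
    exact (exists_par h hy s hs hc).imp fun σ k => ⟨0, k.1⟩

theorem exists_pull (G : Pn (Fintype.card (Sec π))) :
    ∃ P : MvPolynomial J ℂ, (fun y => eval y P) = fun y => ev G (sg π y) :=
  ⟨bind₁ (fun m => ∏ r, X (((en π).symm m).1 r)) G, funext fun y => by
    rw [ev, ← coe_aeval_eq_eval, ← coe_aeval_eq_eval]
    refine (aeval_bind₁ _ _ _).trans (congrArg (aeval · G) (funext fun m => ?_))
    simp [sg]⟩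

/-- The variety is cut out by polynomials. -/
theorem off (h : PV π C n) (hy : y ∈ Ust π) (hC : y ∉ C) :
    ∃ P : MvPolynomial J ℂ, (∀ x ∈ C, eval x P = 0) ∧ eval y P ≠ 0 := by
  obtain ⟨s, hs⟩ := exists_sec hy
  have v0 : sg π y (en π s) ≠ 0 := by
    rw [sg_en]
    exact Finset.prod_ne_zero_iff.2 fun r _ => hs r
  obtain ⟨G, g1, g2⟩ := Chow0.off (cn0 h) (q := sg π y) (by
    rintro (e | ⟨c, hc, z, hz, e⟩)
    · exact v0 (congrFun e _)
    · have a := v0
      rw [e, Pi.smul_apply, sg_en] at a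
      have a2 := fun r => Finset.prod_ne_zero_iff.1 (right_ne_zero_of_mul a) r (Finset.mem_univ _)
      have a3 := ps_sg (y := y) s a2 hc
      rw [← e, ← one_smul ℂ (sg π y), ps_sg s hs one_ne_zero] at a3
      have a4 := h.inv _ (unit_of fun r => div_ne_zero (hs r) (a2 r)) z hz
      rw [← a3] at a4
      exact hC ((funext fun j => by rw [scl, div_self (hs _), one_mul] :
        scl π (fun r => y (s.1 r) / y (s.1 r)) y = y) ▸ a4))
  obtain ⟨P, e⟩ := exists_pull G
  exact ⟨P, fun x hx => (congrFun e x).trans (g1 _ ⟨1, one_ne_zero, x, hx, (one_smul _ _).symm⟩),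
    (congrFun e y).trans_ne g2⟩

/-- The Jacobian criterion. -/
theorem jac (h : PV π C n) (hy : y ∈ C) {κ : J → ℂ} (e : ∀ P : MvPolynomial J ℂ,
    (∀ x ∈ C, eval x P = 0) → fderiv ℂ (fun x => eval x P) y κ = 0) : κ ∈ tn C y := by
  obtain ⟨s, hs⟩ := exists_sec (h.sub hy)
  obtain ⟨σ, p, hp⟩ := exists_par h hy s hs one_ne_zero
  rw [one_smul] at p
  obtain ⟨q, hq⟩ := Chow0.jac (cn0 h) ⟨1, one_ne_zero, y, hy, (one_smul _ _).symm⟩ p
    (κ := fderiv ℂ (sg π) y κ) fun G g => by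
      obtain ⟨P, k⟩ := exists_pull G
      have := e P fun x hx =>
        (congrFun k x).trans (g _ ⟨1, one_ne_zero, x, hx, (one_smul _ _).symm⟩)
      rwa [k, fderiv_comp_an (an_ev G _) (an_sg y)] at this
  have v0 : sg π y (en π s) ≠ 0 := by
    rw [sg_en]
    exact Finset.prod_ne_zero_iff.2 fun r _ => hs r
  let F := fun x : (J → ℂ) × Vn (Fintype.card (Sec π)) =>
    scl π (fun r => x.1 (s.1 r) / y (s.1 r)) (ps s y x.2)
  have hF : AnalyticAt ℂ F (y, sg π y) := analyticAt_pi_iff.2 fun j =>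
    ((((ContinuousLinearMap.proj (R := ℂ) (φ := fun _ : J => ℂ) _).analyticAt _).comp
      analyticAt_fst).div analyticAt_const (hs _)).mul
      (analyticAt_pi_iff.1 ((an_ps s v0).comp_of_eq analyticAt_snd rfl) j)
  have ne : ∀ᶠ x in 𝓝 y, ∀ r, x (s.1 r) ≠ 0 :=
    eventually_all.2 fun r => (continuous_apply _).continuousAt.eventually_ne (hs r)
  have f1 : ∀ᶠ x in 𝓝 y, F (x, sg π x) = x := ne.mono fun x a => funext fun j => by
    have b := ps_sg (y := y) s a one_ne_zero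
    rw [one_smul] at b
    have := a (π j)
    have := hs (π j)
    simp only [F, b, scl]
    field_simp
  have f2 := fderiv_leftInv (f := fun x => (x, sg π x)) hF (analyticAt_id.prod (an_sg y)) f1 κ
  rw [DifferentiableAt.fderiv_prodMk differentiableAt_fun_id (an_sg y).differentiableAt] at f2
  intro Φ h1 h2
  have a1 : AnalyticAt ℂ (fun x : (J → ℂ) × ℂ × Vn n => (x.1, cf σ x.2)) (y, 1, 0) :=
    analyticAt_fst.prod (p.anf.comp_of_eq analyticAt_snd rfl)
  have a2 : AnalyticAt ℂ F (y, cf σ (1, 0)) := p.valf.symm ▸ hF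
  have a0 : F (y, cf σ (1, 0)) = y := p.valf.symm ▸ f1.self_of_nhds
  have a3 : (fun x : (J → ℂ) × ℂ × Vn n => Φ (F (x.1, cf σ x.2))) =ᶠ[𝓝 (y, 1, 0)] fun _ => 0 := by
    filter_upwards [(a2.comp (f := fun x : (J → ℂ) × ℂ × Vn n => (x.1, cf σ x.2))
      a1).continuousAt.tendsto.eventually (show ∀ᶠ z in 𝓝 (F (y, cf σ (1, 0))), _ from
        a0.symm ▸ h2), (continuousAt_fst (p := (y, (1 : ℂ), (0 : Vn n)))).eventually ne,
      (continuousAt_snd (p := (y, (1 : ℂ), (0 : Vn n)))).eventually hp] with x b1 b2 b3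
    exact b1 (h.inv _ (unit_of fun r => div_ne_zero (b2 r) (hs r)) _ b3)
  have b1 : HasFDerivAt (fun x : (J → ℂ) × ℂ × Vn n => (x.1, cf σ x.2)) _ (y, 1, 0) :=
    hasFDerivAt_fst.prodMk (HasFDerivAt.comp (g := cf σ) (y, (1 : ℂ), (0 : Vn n))
      p.anf.differentiableAt.hasFDerivAt hasFDerivAt_snd)
  have b2 := HasFDerivAt.comp (g := F) (y, (1 : ℂ), (0 : Vn n)) a2.differentiableAt.hasFDerivAt b1
  have b3 := HasFDerivAt.comp (g := Φ) (y, (1 : ℂ), (0 : Vn n))
    (show HasFDerivAt Φ (fderiv ℂ Φ y) (F (y, cf σ (1, 0))) from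
      a0.symm ▸ h1.differentiableAt.hasFDerivAt) b2
  have a4 := DFunLike.congr_fun (b3.unique ((hasFDerivAt_const 0 _).congr_of_eventuallyEq a3)) (κ, q)
  rw [p.valf] at a4
  rw [← f2]
  refine Eq.trans (congrArg (fun z => fderiv ℂ Φ y (fderiv ℂ F (y, sg π y) z)) ?_) a4
  exact Prod.ext (by simp) hq.symm

end Vale.Agent.P287Q.Chow1
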