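import Vale.Agent.P287Q.Pv.Grp
import Vale.Agent.P287Q.Pv.Chow

/-!
# Gluing of Plücker vectors; the determinant of the tangent space of a torsor
-/

set_option linter.unusedSectionVars false

namespace Vale.Agent.P287Q

open Set Function Topology Filter Module P269 P269.Holo P269.Vir

section glue

variable {J N T Y ι : Type} [Fintype J] [Fintype N] [DecidableEq N] [NormedAddCommGroup Y]
  [NormedSpace ℂ Y] [CompleteSpace Y] {act : T → Y → Y} {C : Set Y} {a : T → J → ℂ}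
  {V : Y → Submodule ℂ (J → ℂ)} {g : T → ℂ}

theorem holOn_evC {f : Y → ℂ} {y : Y} (h : HolOn C f y) : ∀ᶠ z in 𝓝 y, HolOn C f z :=
  let ⟨Φ, a, b⟩ := h
  (a.eventually_analyticAt.and b.eventually_nhds).mono fun _ c => ⟨Φ, c⟩

/-- Plücker vectors that are normalised on a dense set. -/
theorem plE_glue (κ : ι → N → J) (α β : Y → ι → ℂ) (u : T → ι → ℂ)
    (loc : ∀ y ∈ C, ∃ Q : Y → (N → J) → ℂ, (∀ s, HolOn C (Q · s) y) ∧
      ∀ᶠ z in 𝓝 y, z ∈ C → IsPl (V z) (Q z) ∧ ∀ i, α z i * Q z (κ i) = β z i)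
    (ne : ∀ y ∈ C, ∃ᶠ z in 𝓝 y, z ∈ C ∧ ∃ i, β z i ≠ 0) (ha : ∀ t j, a t j ≠ 0)
    (hu : ∀ t i, u t i ≠ 0) (hc : ∀ t y, ContinuousAt (act t) y) (hC : ∀ t, ∀ y ∈ C, act t y ∈ C)
    (hi : ∀ t, ∀ y ∈ C, ∀ η', η' ∈ V (act t y) ↔ ∃ η ∈ V y, (fun j => a t j * η j) = η')
    (hα : ∀ t, ∀ y ∈ C, ∀ i, α (act t y) i = u t i * α y i)
    (hβ : ∀ t, ∀ y ∈ C, ∀ i, β (act t y) i * g t = u t i * (∏ k, a t (κ i k)) * β y i) :
    PlE N act C a V g := by
  choose! Q q1 q2 using loc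
  have p := fun y hy => (q2 y hy).self_of_nhds hy
  have lim : ∀ y ∈ C, ∀ f f' : Y → ℂ, Tendsto f (𝓝 y ⊓ 𝓟 C) (𝓝 (f y)) →
      Tendsto f' (𝓝 y ⊓ 𝓟 C) (𝓝 (f' y)) →
      (∀ᶠ z in 𝓝 y, z ∈ C → ∀ i, β z i ≠ 0 → f z = f' z) → f y = f' y := fun y hy f f' b c d =>
    tendsto_nhds_unique_of_frequently_eq b c (frequently_inf_principal.2
      (((ne y hy).and_eventually d).mono fun z ⟨⟨e, i, k⟩, l⟩ => ⟨e, l e i k⟩))
  have hol : ∀ s, ∀ y ∈ C, HolOn C (fun z => Q z z s) y := fun s y hy => (q1 y hy s).congr <| by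
    filter_upwards [holOn_evC (q1 y hy s), (q2 y hy).eventually_nhds] with z b c hz
    refine lim z hz (Q z · s) (Q y · s) ((q1 z hz s).tendsto hz) (b.tendsto hz) ?_
    filter_upwards [c, q2 z hz] with x d e hx i f
    obtain ⟨μ, -, k⟩ := (d hx).1.prop (e hx).1
    have := (e hx).2 i
    rw [k, mul_left_comm, (d hx).2, mul_left_eq_self₀] at this
    rw [k, this.resolve_right f, one_mul]
  refine ⟨fun y => Q y y, fun y hy => (p y hy).1, hol, fun t y hy s => ?_⟩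
  refine lim y hy (fun z => Q (act t z) (act t z) s * g t) (fun z => _ * Q z z s)
    ((((hol s _ (hC t y hy)).tendsto (hC t y hy)).comp (tendsto_inf.2 ⟨(hc t y).mono_left
      inf_le_left, tendsto_principal.2 (eventually_inf_principal.2
        (.of_forall (hC t)))⟩)).mul_const _) (((hol s y hy).tendsto hy).const_mul _)
    (.of_forall fun z hz i b => ?_)
  obtain ⟨μ, -, c⟩ := ((p z hz).1.diag (ha t) (hi t z hz)).prop (p _ (hC t z hz)).1
  have d := hβ t z hz i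
  rw [← (p _ (hC t z hz)).2, hα t z hz, c] at d
  have e : μ * g t = 1 := mul_left_cancel₀ (mul_ne_zero (mul_ne_zero (hu t i)
    (Finset.prod_ne_zero_iff.2 fun k (_ : k ∈ Finset.univ) => ha t (κ i k))) b) (by
      linear_combination d - u t i * μ * g t * (∏ k, a t (κ i k)) * (p z hz).2 i)
  rw [c, mul_right_comm, e, one_mul]

end glue

variable {J J₀ R R₀ : Type} [Fintype J] [Fintype J₀] [Fintype R] [Fintype R₀] [DecidableEq R]
  [DecidableEq R₀]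

/-- The invariant set `Z` is a torsor over the multicone `A₀` with the equivariant section `Φ`. -/
structure Trs (π₀ : J₀ → R₀) (A₀ : Set (J₀ → ℂ)) (w : J → R → ℤ) (Z : Set (J → ℂ)) (ι : J₀ → J)
    (ρ : R₀ → R) (M : R → R₀ → ℤ) (Φ : (J₀ → ℂ) → J → ℂ) : Prop where
  inj : Injective ρ
  wt : ∀ j, w (ι j) = Pi.single (ρ (π₀ j)) 1
  maps : ∀ z ∈ Z, z ∘ ι ∈ A₀
  M_ρ : ∀ r, M (ρ r) = Pi.single r 1
  mem : ∀ y ∈ A₀, Φ y ∈ Z
  sec : ∀ y ∈ A₀, Φ y ∘ ι = y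
  hol : ∀ y ∈ A₀, HolOn A₀ Φ y
  eqv : ∀ t, IsUnit t → ∀ y ∈ A₀, Φ (scl π₀ t y) = tw w (fun r => ∏ s, t s ^ M r s) (Φ y)
  orb : ∀ z ∈ Z, ∃ t, IsUnit t ∧ z = tw w t (Φ (z ∘ ι))
  inv : TInv w Z
  free : ∀ t, IsUnit t → ∀ z ∈ Z, tw w t z = z → t = 1

/-- The vector fields of the factors of the torus outside the image of `ρ`. -/
def eulR (w : J → R → ℤ) (ρ : R₀ → R) (z : J → ℂ) (r : {r // r ∉ range ρ}) (j : J) : ℂ :=
  w j r.1 * z j

variable {π₀ : J₀ → R₀} {A₀ : Set (J₀ → ℂ)} {w : J → R → ℤ} {Z : Set (J → ℂ)} {ι : J₀ → J}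
  {ρ : R₀ → R} {M : R → R₀ → ℤ} {Φ : (J₀ → ℂ) → J → ℂ} {n : ℕ} {z : J → ℂ}

theorem prod_sgl (t : R → ℂ) (r : R) : ∏ s, t s ^ (Pi.single r 1 : R → ℤ) s = t r := by
  rw [Finset.prod_eq_single r (fun s _ h => by simp [h]) (by simp)]
  simp

theorem tw_exp (w : J → R → ℤ) (c : R → ℂ) (s : ℂ) (z : J → ℂ) :
    tw w (fun r => Complex.exp (s * c r)) z =
      fun j => Complex.exp (s * ∑ r, c r * w j r) * z j := funext fun j => by
  simp only [tw, ← Complex.exp_int_mul, ← Complex.exp_sum, Finset.mul_sum]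
  exact congrArg (Complex.exp · * _) (Finset.sum_congr rfl fun _ _ => by ring)

theorem TInv.lie_mem_tn (h : TInv w Z) (hz : z ∈ Z) (c : R → ℂ) :
    (fun j => (∑ r, c r * w j r) * z j) ∈ tn Z z := by
  have a : HasDerivAt (fun (s : ℂ) j => Complex.exp (s * ∑ r, c r * w j r) * z j)
      (fun j => (∑ r, c r * w j r) * z j) 0 := hasDerivAt_pi.2 fun j => by
    simpa using ((hasDerivAt_mul_const (x := (0 : ℂ)) (∑ r, c r * w j r)).cexp).mul_const (z j)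
  have := fderiv_mem_tn (A := Z) (x := (0 : ℂ))
    (u := fun (s : ℂ) j => Complex.exp (s * ∑ r, c r * w j r) * z j)
    (analyticAt_pi_iff.2 fun j => by fun_prop) (.of_forall fun s =>
      tw_exp w c s z ▸ h _ (unit_iff.2 fun _ => Complex.exp_ne_zero _) z hz) 1
  simpa [a.hasFDerivAt.fderiv] using this

namespace Trs

variable (h : Trs π₀ A₀ w Z ι ρ M Φ)
include h

theorem tw_comp (t : R → ℂ) (z : J → ℂ) : tw w t z ∘ ι = scl π₀ (t ∘ ρ) (z ∘ ι) :=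
  funext fun j => by simp only [tw, scl, comp_apply, h.wt, prod_sgl]

theorem sum_eul (c : {r // r ∉ range ρ} → ℂ) (z : J → ℂ) : ∑ r, c r • eulR w ρ z r =
    fun j => (∑ r, extend Subtype.val c 0 r * w j r) * z j := funext fun j => by
  classical
  rw [← Fintype.sum_subtype_add_sum_subtype (· ∉ range ρ), Finset.sum_eq_zero
    (s := Finset.univ (α := {r // ¬r ∉ range ρ})) fun r _ => by
      rw [extend_apply' _ _ _ fun ⟨x, e⟩ => r.2 (e ▸ x.2), Pi.zero_apply, zero_mul]]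
  simp [eulR, Finset.sum_mul, mul_assoc]

theorem li (hz : z ∈ Z) : LinearIndependent ℂ (eulR w ρ z) :=
  Fintype.linearIndependent_iff.2 fun c e r => by
    rw [h.sum_eul] at e
    have a := fun s : ℂ => congrFun (h.free _ (unit_iff.2 fun _ => Complex.exp_ne_zero _) z hz
      ((tw_exp w (extend Subtype.val c 0) s z).trans (funext fun j => by
        rcases mul_eq_zero.1 (congrFun e j) with f | f <;> simp [f]))) r.1
    simp only [Subtype.val_injective.extend_apply, Pi.one_apply] at a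
    have b := (hasDerivAt_mul_const (x := (0 : ℂ)) (c r)).cexp
    rw [funext a] at b
    simpa using b.unique (hasDerivAt_const _ _)

theorem eul_comp (z : J → ℂ) (r) : eulR w ρ z r ∘ ι = 0 := funext fun j => by
  simp [eulR, h.wt, Pi.single_eq_of_ne fun e : r.1 = ρ (π₀ j) => r.2 ⟨_, e.symm⟩]

theorem card_eq : Fintype.card {r // r ∉ range ρ} + Fintype.card R₀ = Fintype.card R := by
  rw [Fintype.card_subtype_compl, ← card_range_of_injective h.inj]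
  exact Nat.sub_add_cancel (Fintype.card_subtype_le _)

/-- The exact sequence of the tangent spaces. -/
theorem exact (hA : PV π₀ A₀ n) (hz : z ∈ Z) {V : Submodule ℂ (J → ℂ)} (hV : tn Z z ≤ V)
    (hd : finrank ℂ V = n + Fintype.card R) :
    (∀ η, η ∈ Submodule.span ℂ (range (eulR w ρ z)) ↔ η ∈ V ∧ η ∘ ι = 0) ∧
      ∀ η', η' ∈ tn A₀ (z ∘ ι) ↔ ∃ η ∈ V, η ∘ ι = η' := by
  have hx := h.maps z hz
  obtain ⟨t, ht, e⟩ := h.orb z hz
  obtain ⟨Ψ, a, b⟩ := h.hol _ hx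
  have t1 : t ∘ ρ = 1 := scl_inj (hA.sub hx) (by
    rw [scl_one, ← congrArg (scl π₀ (t ∘ ρ)) (h.sec _ hx), ← h.tw_comp, ← e])
  have a' : AnalyticAt ℂ (fun s => tw w t (Ψ s)) (z ∘ ι) := (an_tw' w t _).comp a
  let D := fderiv ℂ (fun s => tw w t (Ψ s)) (z ∘ ι)
  have d1 : ∀ v ∈ tn A₀ (z ∘ ι), D v ∈ tn Z z := fun v hv => by
    have := fderiv_map_tn (A' := Z) (hA.mfd _ hx) a'
      (b.mono fun s c d => c d ▸ h.inv t ht _ (h.mem s d)) hv
    rwa [← b.self_of_nhds hx, ← e] at this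
  have d2 : ∀ v ∈ tn A₀ (z ∘ ι), D v ∘ ι = v := fun v hv => by
    have a2 : AnalyticAt ℂ (fun s => tw w t (Ψ s) ∘ ι) (z ∘ ι) := (an_pre ι _).comp a'
    have := hv _ (a2.fun_sub analyticAt_id) (b.mono fun s c d => by
      rw [← c d, h.tw_comp, t1, scl_one, h.sec s d]; exact sub_self _)
    rwa [fderiv_fun_sub a2.differentiableAt differentiableAt_id, fderiv_id,
      fderiv_comp_an (an_pre ι _) a', _root_.sub_apply, sub_eq_zero,
      ContinuousLinearMap.comp_apply, fderiv_pre] at this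
  have d3 : ∀ c : {r // r ∉ range ρ} → ℂ, (∑ r, c r • eulR w ρ z r) ∘ ι = 0 := fun c =>
    funext fun j => (Finset.sum_apply _ _ _).trans (Finset.sum_eq_zero fun r _ =>
      mul_eq_zero_of_right _ (congrFun (h.eul_comp z r) j))
  let Θ := (Fintype.linearCombination ℂ (eulR w ρ z)).coprod
    (D.toLinearMap ∘ₗ (tn A₀ (z ∘ ι)).subtype)
  have θ : ∀ c v, Θ (c, v) = ∑ r, c r • eulR w ρ z r + D v.1 := fun _ _ => rfl
  have θ' : ∀ c v, Θ (c, v) ∘ ι = v.1 := fun c v =>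
    (congrArg₂ (· + ·) (d3 c) (d2 _ v.2)).trans (zero_add _)
  have i : Injective Θ := LinearMap.ker_eq_bot.1 (LinearMap.ker_eq_bot'.2 fun ⟨c, v⟩ f => by
    obtain rfl : v = 0 := Subtype.ext ((θ' c v).symm.trans (congrArg (· ∘ ι) f))
    rw [θ, ZeroMemClass.coe_zero, map_zero, add_zero] at f
    exact Prod.ext (funext (Fintype.linearIndependent_iff.1 (h.li hz) c f)) rfl)
  have r : LinearMap.range Θ = V := Submodule.eq_of_le_of_finrank_eq (by
    rintro _ ⟨⟨c, v⟩, rfl⟩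
    rw [θ, h.sum_eul]
    exact hV (add_mem (h.inv.lie_mem_tn hz _) (d1 _ v.2))) (by
      rw [LinearMap.finrank_range_of_inj i, hd, finrank_prod, finrank_tn (hA.mfd _ hx),
        finrank_fintype_fun_eq_card, ← h.card_eq]
      ring)
  subst r
  refine ⟨fun η => (Submodule.mem_span_range_iff_exists_fun ℂ).trans ⟨fun ⟨c, f⟩ => f ▸
    ⟨⟨(c, 0), by rw [θ, ZeroMemClass.coe_zero, map_zero, add_zero]⟩, d3 c⟩, ?_⟩,
    fun η' => ⟨fun f => ⟨_, ⟨(0, ⟨η', f⟩), rfl⟩, θ' _ _⟩, ?_⟩⟩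
  · rintro ⟨⟨⟨c, v⟩, rfl⟩, f⟩
    obtain rfl : v = 0 := Subtype.ext ((θ' c v).symm.trans f)
    exact ⟨c, by rw [θ, ZeroMemClass.coe_zero, map_zero, add_zero]⟩
  · rintro ⟨_, ⟨⟨c, v⟩, rfl⟩, rfl⟩
    exact θ' c v ▸ v.2

omit h in
theorem an_mn (s : {r // r ∉ range ρ} → J) (z : J → ℂ) :
    AnalyticAt ℂ (fun z => mn (eulR w ρ z) s) z := by
  simp only [mn, Matrix.det_apply', Matrix.of_apply, eulR]
  exact Finset.analyticAt_fun_sum _ fun τ _ => analyticAt_const.mul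
    (Finset.analyticAt_fun_prod _ fun i _ => analyticAt_const.mul (an_cd z _))

omit h in
theorem mn_tw (t : R → ℂ) (z : J → ℂ) (s : {r // r ∉ range ρ} → J) :
    mn (eulR w ρ (tw w t z)) s = (∏ k, ∏ r, t r ^ w (s k) r) * mn (eulR w ρ z) s := by
  rw [mn, mn, ← Matrix.det_mul_row]
  exact congrArg Matrix.det (Matrix.ext fun i k => mul_left_comm _ _ _)

/-- From the base to the torsor. -/
theorem up (hA : PV π₀ A₀ n) (hZ : ∀ z ∈ Z, MfdAt Z (n + Fintype.card R) z) {γ : R₀ → ℤ}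
    (hD : Det π₀ A₀ (n + Fintype.card R₀) γ) :
    PlE (Fin (n + Fintype.card R)) (fun t : {t : R → ℂ // IsUnit t} => tw w t.1) Z
      (fun t j => ∏ r, t.1 r ^ w j r) (tn Z) fun t => ∏ r, t.1 (ρ r) ^ γ r := by
  have e : Fintype.card ({r // r ∉ range ρ} ⊕ Fin (n + Fintype.card R₀)) = n + Fintype.card R := by
    rw [Fintype.card_sum, Fintype.card_fin, ← h.card_eq]
    ring
  have x := fun z hz => h.exact hA hz le_rfl (finrank_tn (hZ z hz))
  have t0 : ∀ (t : {t : R → ℂ // IsUnit t}) j, ∏ r, t.1 r ^ w j r ≠ 0 := fun t j =>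
    Finset.prod_ne_zero_iff.2 fun r _ => zpow_ne_zero _ (unit_iff.1 t.2 r)
  have h₁ : PlE {r // r ∉ range ρ} (fun t : {t : R → ℂ // IsUnit t} => tw w t.1) Z
      (fun t j => ∏ r, t.1 r ^ w j r) (fun z => Submodule.span ℂ (range (eulR w ρ z))) fun _ => 1 :=
    ⟨fun z => mn (eulR w ρ z), fun z a => isPl_mn (h.li a) rfl,
      fun s z _ => .of_an (an_mn s z), fun t z _ s => (mul_one _).trans (mn_tw _ z s)⟩
  have h₂ : PlE (Fin (n + Fintype.card R₀)) (fun t : {t : R → ℂ // IsUnit t} => tw w t.1) Z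
      (fun t j => t.1 (ρ (π₀ j))) (fun z => tn A₀ (z ∘ ι)) fun t => ∏ r, t.1 (ρ r) ^ γ r :=
    hD.pull (· ∘ ι) (fun t => ⟨t.1 ∘ ρ, unit_iff.2 fun _ => unit_iff.1 t.2 _⟩)
      (fun z _ => .of_an (an_pre ι z)) h.maps (fun t z _ => h.tw_comp _ z) (fun _ _ => rfl)
      (fun _ _ => rfl) fun _ => rfl
  refine (h₁.ext h₂ (locPl_tn (e.symm ▸ hZ)) ι (fun t j => ?_) t0 (fun t => h.inv _ t.2)
    (fun t z _ => tn_diag (t0 t) (h.inv _ t.2) fun s a => ?_) (fun z a => (x z a).1)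
    (fun z a => (x z a).2) fun _ => (one_mul _).symm).reindex (e.trans (Fintype.card_fin _).symm)
  · simp only [h.wt, prod_sgl]
  · simp only [← Finset.prod_inv_distrib, ← inv_zpow]
    exact h.inv _ (unit_inv t.2) s a

/-- From the torsor to the base. -/
theorem down (hA : PV π₀ A₀ n) {V : (J → ℂ) → Submodule ℂ (J → ℂ)} (hV : ∀ z ∈ Z, tn Z z ≤ V z)
    {γ : R → ℤ} (hD : PlE (Fin (n + Fintype.card R)) (fun t : {t : R → ℂ // IsUnit t} => tw w t.1) Z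
      (fun t j => ∏ r, t.1 r ^ w j r) V fun t => ∏ r, t.1 r ^ γ r) :
    Det π₀ A₀ (n + Fintype.card R₀) fun s => ∑ r, γ r * M r s := by
  have e : Fintype.card ({r // r ∉ range ρ} ⊕ Fin (n + Fintype.card R₀)) = n + Fintype.card R := by
    rw [Fintype.card_sum, Fintype.card_fin, ← h.card_eq]
    ring
  have x := fun y hy => h.exact hA (h.mem y hy) (hV _ (h.mem y hy))
    ((hD.finrank (h.mem y hy)).trans (Fintype.card_fin _))
  obtain ⟨p, p1, p2, p3⟩ := hD.reindex ((Fintype.card_fin _).trans e.symm)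
  have k : ∀ y ∈ A₀, ∀ q, IsPl (tn A₀ y) q → ∃ μ ≠ (0 : ℂ), ∀ s s',
      p (Φ y) (Sum.elim s (ι ∘ s')) = μ * (mn (eulR w ρ (Φ y)) s * q s') := fun y hy q a => by
    obtain ⟨p', b, c⟩ := (isPl_mn (h.li (h.mem y hy)) rfl).exact a ι (x y hy).1
      (by simpa only [h.sec y hy] using (x y hy).2)
    obtain ⟨μ, d, f⟩ := b.prop (p1 _ (h.mem y hy))
    exact ⟨μ, d, fun s s' => by rw [f, c]⟩
  have u : ∀ t : {t : R₀ → ℂ // IsUnit t}, IsUnit fun r => ∏ s, t.1 s ^ M r s := fun t =>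
    unit_iff.2 fun r => Finset.prod_ne_zero_iff.2 fun s _ => zpow_ne_zero _ (unit_iff.1 t.2 s)
  refine plE_glue (ι := _ × _) Prod.snd (fun y i => mn (eulR w ρ (Φ y)) i.1)
    (fun y i => p (Φ y) (Sum.elim i.1 (ι ∘ i.2)))
    (fun t i => ∏ k, ∏ r, (∏ s, t.1 s ^ M r s) ^ w (i.1 k) r) (fun y hy => ?_)
    (fun y hy => (frequently_pure.2 ⟨hy, ?_⟩).filter_mono (pure_le_nhds y))
    (fun t _ => unit_iff.1 t.2 _)
    (fun t i => Finset.prod_ne_zero_iff.2 fun k _ => Finset.prod_ne_zero_iff.2 fun r _ =>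
      zpow_ne_zero _ (unit_iff.1 (u t) r))
    (fun t y => (an_scl analyticAt_const analyticAt_id).continuousAt) (fun t => hA.inv _ t.2)
    (fun t y _ => hA.tn_scl t.2) (fun t y hy i => by rw [h.eqv _ t.2 y hy, mn_tw])
    fun t y hy i => ?_
  · obtain ⟨Q, a, b⟩ := exists_pl (hA.mfd y hy)
    obtain ⟨s, c⟩ := (isPl_mn (h.li (h.mem y hy)) rfl).ne
    obtain ⟨s', c'⟩ := (b.self_of_nhds hy).ne
    have d : HolOn A₀ (fun z => mn (eulR w ρ (Φ z)) s * Q z s') y :=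
      ((h.hol y hy).comp_an hy (an_mn s _)).mulC (.of_an (analyticAt_pi_iff.1 a _))
    refine ⟨fun z σ => p (Φ z) (Sum.elim s (ι ∘ s')) * (mn (eulR w ρ (Φ z)) s * Q z s')⁻¹ * Q z σ,
      fun σ => (((p2 _ _ (h.mem y hy)).comp (h.hol y hy) hy (.of_forall h.mem)).mulC
        (d.invC hy (mul_ne_zero c c'))).mulC (.of_an (analyticAt_pi_iff.1 a _)), ?_⟩
    filter_upwards [b, d.ev hy (eventually_ne_nhds (mul_ne_zero c c'))] with z f g hz
    obtain ⟨μ, i, j⟩ := k z hz _ (f hz)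
    simp only [j, mul_inv_cancel_right₀ (g hz)]
    exact ⟨(f hz).smul i, fun _ => mul_left_comm _ _ _⟩
  · have := p3 ⟨_, u t⟩ _ (h.mem y hy) (Sum.elim i.1 (ι ∘ i.2))
    simp only [Fintype.prod_sum_type, Sum.elim_inl, Sum.elim_inr, comp_apply, h.wt, prod_sgl,
      h.M_ρ] at this
    rw [h.eqv _ t.2 y hy, ← this]
    simp only [zpow_fsum (unit_iff.1 t.2 _), ← Finset.prod_zpow, ← zpow_mul, mul_comm (γ _)]
    rw [Finset.prod_comm]
  · obtain ⟨q, a⟩ := exists_isPl (N := Fin (n + Fintype.card R₀))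
      ((finrank_tn (hA.mfd y hy)).trans (Fintype.card_fin _).symm)
    obtain ⟨s, c⟩ := (isPl_mn (h.li (h.mem y hy)) rfl).ne
    obtain ⟨s', c'⟩ := a.ne
    obtain ⟨μ, i, j⟩ := k y hy q a
    exact ⟨(s, s'), (j s s').trans_ne (mul_ne_zero i (mul_ne_zero c c'))⟩

end Trs

end Vale.Agent.P287Q
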