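import Vale.Agent.P287Q.Pv.Grp
import Vale.Agent.P287Q.Pv.Fam

/-!
# The graph of the map of Gauss: every smooth projective variety is a target
-/

set_option linter.unusedSectionVars false

namespace Vale.Agent.P287Q

open Set Function Topology Filter Module MvPolynomial P269 P269.Holo P269.Vir Chow1

variable {J R S : Type} [Fintype J] [Fintype R] [Fintype S] [DecidableEq R]

/-- The new fields. -/
abbrev GI (π : J → R) (N : ℕ) : Type := Fin N → J × Sec π

/-- The monomial that makes the weight of the coordinate `x.1` uniform. -/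
noncomputable def gmu {π : J → R} (x : J × Sec π) (y : J → ℂ) : ℂ :=
  ∏ r ∈ Finset.univ.erase (π x.1), y (x.2.1 r)

/-- Plücker coordinates of uniform weight. -/
noncomputable def gm {π : J → R} {N : ℕ} (y : J → ℂ) (q : (Fin N → J) → ℂ) (s : GI π N) : ℂ :=
  (∏ k, gmu (s k) y) * q fun k => (s k).1

/-- The map of Gauss. -/
def gsP (π : J → R) (A : Set (J → ℂ)) (N : ℕ) (y : J → ℂ) : Set (GI π N → ℂ) :=
  {p | ∃ q, IsPl (tn A y) q ∧ p = gm y q}

/-- The weights of the new fields for the extra torus. -/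
def gsW (π : J → R) (N : ℕ) (wt : J → S → ℤ) (s : GI π N) : S → ℤ :=
  ∑ k, (wt (s k).1 + ∑ r ∈ Finset.univ.erase (π (s k).1), wt ((s k).2.1 r))

variable {π : J → R} {A : Set (J → ℂ)} {n N : ℕ} {y : J → ℂ}

theorem an_gmu (x : J × Sec π) (y : J → ℂ) : AnalyticAt ℂ (gmu x) y :=
  Finset.analyticAt_fun_prod _ fun _ _ => an_cd y _

theorem gmu_scl (x : J × Sec π) (t : R → ℂ) (y : J → ℂ) :
    t (π x.1) * gmu x (scl π t y) = (∏ r, t r) * gmu x y := by
  simp only [gmu, scl, x.2.2, Finset.prod_mul_distrib]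
  rw [← mul_assoc, Finset.mul_prod_erase _ _ (Finset.mem_univ _)]

theorem exists_gmu (h : y ∈ Ust π) : ∃ a : Sec π, ∀ j, gmu (j, a) y ≠ 0 :=
  (exists_sec h).imp fun _ b _ => Finset.prod_ne_zero_iff.2 fun r _ => b r

theorem gm_scl (t : R → ℂ) (y : J → ℂ) (q : (Fin N → J) → ℂ) (s : GI π N) :
    gm (scl π t y) (fun σ => (∏ k, t (π (σ k))) * q σ) s = (∏ r, t r) ^ N * gm y q s := by
  rw [gm, gm, ← mul_assoc, ← Finset.prod_mul_distrib, ← mul_assoc]
  simp only [mul_comm _ (t _), gmu_scl, Finset.prod_mul_distrib, Fin.prod_const]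

theorem gm_smul (c : ℂ) (y : J → ℂ) (q : (Fin N → J) → ℂ) :
    gm (π := π) y (fun σ => c * q σ) = c • gm y q := funext fun _ => mul_left_comm _ _ _

theorem ln_gsP (hA : MC π A) (h : ∀ y ∈ A, MfdAt A N y) : Ln π A (gsP π A N) where
  loc y hy := by
    obtain ⟨Q, a, b⟩ := exists_pl (h y hy)
    obtain ⟨x, c⟩ := exists_gmu (hA.sub hy)
    obtain ⟨σ, d⟩ := (b.self_of_nhds hy).ne
    refine ⟨fun s => gm s (Q s), analyticAt_pi_iff.2 fun s => (Finset.analyticAt_fun_prod _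
      fun k _ => an_gmu _ y).mul (analyticAt_pi_iff.1 a _), fun e => mul_ne_zero
        (Finset.prod_ne_zero_iff.2 fun k _ => c (σ k)) d (congrFun e fun k => (σ k, x)),
      b.mono fun s e f p => ⟨fun ⟨q, g, i⟩ => ?_, fun ⟨μ, g, i⟩ =>
        ⟨_, (e f).smul g, i.trans (gm_smul _ _ _).symm⟩⟩⟩
    obtain ⟨μ, j, k⟩ := (e f).prop g
    exact ⟨μ, j, by rw [i, funext k, gm_smul]⟩
  inv t ht y _ := by
    rintro _ ⟨q, a, rfl⟩
    have c : (∏ r, t r) ^ N ≠ 0 :=
      pow_ne_zero _ (Finset.prod_ne_zero_iff.2 fun r _ => unit_iff.1 ht r)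
    refine ⟨_, (hA.isPl_scl ht a).smul (inv_ne_zero c), funext fun s => ?_⟩
    rw [gm_smul, Pi.smul_apply, gm_scl, smul_eq_mul, inv_mul_cancel_left₀ c]

theorem tinv_gsP {wt : J → S → ℤ} (h : TInv wt A) :
    TInv (Sum.elim wt (gsW π N wt)) (grA A (gsP π A N)) := by
  refine Ln.tinv h fun τ hτ y _ => ?_
  rintro _ ⟨q, a, rfl⟩
  refine ⟨_, h.isPl_tw hτ a, funext fun s => ?_⟩
  have t := unit_iff.1 hτ
  simp only [tw, gm, gmu, gsW, Finset.sum_apply, Pi.add_apply, zpow_fsum (t _), zpow_add₀ (t _),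
    Finset.prod_mul_distrib]
  rw [Finset.prod_comm, Finset.prod_comm (f := fun i k => ∏ r ∈ _, τ i ^ wt ((s k).2.1 r) i)]
  simp only [Finset.prod_comm (s := Finset.univ (α := S))]
  ring

/-- **On the graph of the map of Gauss the determinant of the tangent space is a character.** -/
theorem det_gsP (hA : PV π A n) :
    Det (blP _ π) (grA A (gsP π A (n + Fintype.card R))) (n + Fintype.card (Option R))
      fun o => o.elim (-1) fun _ => (n + Fintype.card R : ℕ) := by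
  have h := ln_gsP hA.toMC hA.mfd
  choose! q q1 q2 using fun w (a : w ∈ grA A (gsP π A (n + Fintype.card R))) => a.2
  refine h.det hA ⟨q, q1, fun σ w a => ?_, fun t w a σ => ?_⟩
  · obtain ⟨x, c⟩ := exists_gmu (hA.sub a.1)
    have d : AnalyticAt ℂ (fun s : J ⊕ GI π (n + Fintype.card R) → ℂ =>
        ∏ k, gmu (σ k, x) (s ∘ .inl)) w :=
      Finset.analyticAt_fun_prod _ fun k _ => (an_gmu _ _).comp (an_inl w)
    have e := Finset.prod_ne_zero_iff.2 fun k (_ : k ∈ Finset.univ) => c (σ k)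
    exact ⟨_, (an_cd w (.inr fun k => (σ k, x))).div d e,
      (d.continuousAt.eventually_ne e).mono fun s f g => (eq_div_iff f).2
        ((mul_comm _ _).trans (congrFun (q2 s g) fun k => (σ k, x)).symm)⟩
  · have t0 := unit_iff.1 t.2
    have b := (h.mc hA.toMC).inv _ t.2 _ a
    obtain ⟨x, c⟩ := exists_gmu (hA.sub a.1)
    have e := Finset.prod_ne_zero_iff.2 fun k (_ : k ∈ Finset.univ) => c (σ k)
    have f : t.1 none * _ = (∏ k, gmu (σ k, x) (scl π (t.1 ∘ some) (w ∘ .inl))) *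
      q (scl (blP _ π) t.1 w) σ := congrFun (q2 _ b) fun k => (σ k, x)
    have g : w (.inr _) = (∏ k, gmu (σ k, x) (w ∘ .inl)) * q w σ :=
      congrFun (q2 _ a) fun k => (σ k, x)
    have i := Finset.prod_congr rfl fun k (_ : k ∈ Finset.univ) =>
      gmu_scl (σ k, x) (t.1 ∘ some) (w ∘ .inl)
    simp only [Finset.prod_mul_distrib, Fin.prod_const, comp_apply] at i
    simp only [Fintype.prod_option, Option.elim, zpow_neg_one, zpow_natCast, Finset.prod_pow]
    rw [g] at f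
    refine mul_left_cancel₀ (mul_ne_zero e (t0 none)) ?_
    have j := mul_inv_cancel₀ (t0 none)
    linear_combination (-∏ k, t.1 (some (π (σ k)))) * f - q (scl (blP _ π) t.1 w) σ * i +
      (∏ k, gmu (σ k, x) (w ∘ .inl)) * q (scl (blP _ π) t.1 w) σ *
        (∏ r, t.1 (some r)) ^ (n + Fintype.card R) * j

/-- **Every smooth projective variety with a linear torus action is a target.** -/
theorem exists_tg [Nonempty J] (hA : PV π A n) {wt : J → S → ℤ} (hT : TInv wt A) :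
    ∃ (k : ℕ) (δ : Option R → ℤ) (g : Fin k → MvPolynomial (J ⊕ GI π (n + Fintype.card R)) ℂ)
      (ω : Fin k → S → ℤ),
      Cut (blP _ π) (Ust (blP _ π)) (grA A (gsP π A (n + Fintype.card R))) δ g ∧ (∀ r, 0 < δ r) ∧
      (∀ i, g i ≠ 0 ∧ WHom (Sum.elim wt (gsW π _ wt)) (ω i) (g i)) ∧ (fam (blP _ π) δ g).Tg := by
  have h := (ln_gsP hA.toMC hA.mfd).pv hA
  obtain ⟨k, δ, g, ω, a, b, c⟩ := chow _ _ _ _ _ _ _ h (tinv_gsP hT)
  exact ⟨k, δ, g, ω, a, b, c, fam_tg a h b (fun i => (c i).1) (det_gsP hA)⟩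

end Vale.Agent.P287Q
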