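import Vale.Agent.P287Q.Pv.Loc
import Vale.Agent.P287Q.Pv.Top
import Vale.Agent.P287Q.Pv.BlL

/-!
# The graph of a holomorphic map to a projective space
-/

set_option linter.unusedSectionVars false

namespace Vale.Agent.P287Q

open Set Function Topology Filter Module P269 P269.Holo P269.Vir

variable {J R S I : Type} [Fintype J] [Fintype R] [Fintype S] [Fintype I]

/-- `P y` is a punctured line that depends holomorphically on the point of the variety. -/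
structure Ln (π : J → R) (A : Set (J → ℂ)) (P : (J → ℂ) → Set (I → ℂ)) : Prop where
  loc : ∀ y ∈ A, ∃ f : (J → ℂ) → I → ℂ, AnalyticAt ℂ f y ∧ f y ≠ 0 ∧
    ∀ᶠ s in 𝓝 y, s ∈ A → ∀ p, p ∈ P s ↔ ∃ c ≠ (0 : ℂ), p = c • f s
  inv : ∀ t, IsUnit t → ∀ y ∈ A, ∀ p ∈ P y, p ∈ P (scl π t y)

/-- The multicone over the graph. -/
def grA (A : Set (J → ℂ)) (P : (J → ℂ) → Set (I → ℂ)) : Set (J ⊕ I → ℂ) :=
  {w | w ∘ .inl ∈ A ∧ w ∘ .inr ∈ P (w ∘ .inl)}

variable {π : J → R} {A : Set (J → ℂ)} {P : (J → ℂ) → Set (I → ℂ)} {n N : ℕ} {y : J → ℂ}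
  {p p' : I → ℂ} {w : J ⊕ I → ℂ}

theorem an_cd (y : J → ℂ) (j : J) : AnalyticAt ℂ (fun s : J → ℂ => s j) y :=
  (ContinuousLinearMap.proj (R := ℂ) (φ := fun _ : J => ℂ) j).analyticAt y

theorem an_inl (w : J ⊕ I → ℂ) : AnalyticAt ℂ (fun s : J ⊕ I → ℂ => s ∘ Sum.inl) w :=
  an_pre _ w

theorem an_inr (w : J ⊕ I → ℂ) : AnalyticAt ℂ (fun s : J ⊕ I → ℂ => s ∘ Sum.inr) w :=
  an_pre _ w

theorem fderiv_elim {E : Type*} [NormedAddCommGroup E] [NormedSpace ℂ E] {f : E → J → ℂ}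
    {g : E → I → ℂ} {x : E} (hf : AnalyticAt ℂ f x) (hg : AnalyticAt ℂ g x) (v : E) :
    fderiv ℂ (fun z => Sum.elim (f z) (g z)) x v = Sum.elim (fderiv ℂ f x v) (fderiv ℂ g x v) := by
  have a := hasFDerivAt_pi'.1 (an_elim hf hg).differentiableAt.hasFDerivAt
  exact funext (Sum.rec
    (fun j => congr($((a (.inl j)).unique (hasFDerivAt_pi'.1 hf.differentiableAt.hasFDerivAt j)) v))
    fun i => congr($((a (.inr i)).unique (hasFDerivAt_pi'.1 hg.differentiableAt.hasFDerivAt i)) v))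

namespace Ln

theorem line (h : Ln π A P) (hy : y ∈ A) : ∃ a ≠ 0, ∀ p, p ∈ P y ↔ ∃ c ≠ (0 : ℂ), p = c • a :=
  let ⟨_, _, a, b⟩ := h.loc y hy
  ⟨_, a, b.self_of_nhds hy⟩

theorem ne (h : Ln π A P) (hy : y ∈ A) (hp : p ∈ P y) : p ≠ 0 :=
  let ⟨_, a, b⟩ := h.line hy
  let ⟨_, c, d⟩ := (b p).1 hp
  d ▸ smul_ne_zero c a

theorem nonempty (h : Ln π A P) (hy : y ∈ A) : (P y).Nonempty :=
  let ⟨_, _, b⟩ := h.line hy
  ⟨_, (b _).2 ⟨1, one_ne_zero, rfl⟩⟩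

theorem mem_iff (h : Ln π A P) (hy : y ∈ A) (hp : p ∈ P y) :
    p' ∈ P y ↔ ∃ c ≠ (0 : ℂ), p' = c • p := by
  obtain ⟨a, -, b⟩ := h.line hy
  obtain ⟨c, d, rfl⟩ := (b p).1 hp
  exact (b _).trans ⟨fun ⟨e, f, g⟩ => ⟨e / c, div_ne_zero f d, by
    rw [g, smul_smul, div_mul_cancel₀ _ d]⟩, fun ⟨e, f, g⟩ => ⟨_, mul_ne_zero f d, by
      rw [g, smul_smul]⟩⟩

theorem smul (h : Ln π A P) (hy : y ∈ A) (hp : p ∈ P y) {c : ℂ} (hc : c ≠ 0) : c • p ∈ P y :=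
  (h.mem_iff hy hp).2 ⟨c, hc, rfl⟩

/-- a local frame with a given value -/
theorem frame (h : Ln π A P) (hy : y ∈ A) (hp : p ∈ P y) : ∃ f : (J → ℂ) → I → ℂ,
    AnalyticAt ℂ f y ∧ f y = p ∧ ∀ᶠ s in 𝓝 y, s ∈ A → f s ∈ P s := by
  obtain ⟨f, a, -, b⟩ := h.loc y hy
  obtain ⟨c, d, rfl⟩ := (b.self_of_nhds hy p).1 hp
  exact ⟨fun s => c • f s, a.fun_const_smul, rfl, b.mono fun s e g => (e g _).2 ⟨c, d, rfl⟩⟩

theorem prm (h : Ln π A P) {E : Type*} [NormedAddCommGroup E] [NormedSpace ℂ E]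
    [FiniteDimensional ℂ E] {ψ : E → J → ℂ} {x : E} (hψ : Prm A ψ x) {f : (J → ℂ) → I → ℂ}
    (hf : AnalyticAt ℂ f (ψ x)) (hP : ∀ᶠ s in 𝓝 (ψ x), s ∈ A → f s ∈ P s) :
    Prm (grA A P) (fun z : E × ℂ => Sum.elim (ψ z.1) (z.2 • f (ψ z.1))) (x, 1) := by
  obtain ⟨i, a⟩ := Function.ne_iff.1 (h.ne hψ.mem0 (hP.self_of_nhds hψ.mem0))
  have b := hP.and ((analyticAt_pi_iff.1 hf i).continuousAt.eventually_ne a)
  have a' : ∀ w : J ⊕ I → ℂ, w ∘ .inl = ψ x → AnalyticAt ℂ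
      (fun s : J ⊕ I → ℂ => (s ∘ Sum.inl, s (.inr i) / f (s ∘ .inl) i)) w := fun w e =>
    (an_inl w).prod ((an_cd w (.inr i)).div (AnalyticAt.comp_of_eq (g := fun s => f s i)
      (analyticAt_pi_iff.1 hf i) (an_inl w) e) (by rwa [← e] at a))
  refine (hψ.prod (Prm.self (1 : ℂ))).iso (f := fun z => Sum.elim z.1 (z.2 • f z.1))
    (g := fun s => (s ∘ .inl, s (.inr i) / f (s ∘ .inl) i))
    (.of_an (an_elim analyticAt_fst (analyticAt_snd.fun_smul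
      (AnalyticAt.comp (g := f) (f := Prod.fst) hf analyticAt_fst))))
    (.of_an (a' _ rfl)) ?_ ?_
  · filter_upwards [continuousAt_fst.eventually b,
      continuousAt_snd.eventually_ne (one_ne_zero (α := ℂ))] with s c d e
    exact ⟨⟨e.1, h.smul e.1 (c.1 e.1) d⟩, Prod.ext rfl (mul_div_cancel_right₀ _ c.2)⟩
  · filter_upwards [(an_inl _).continuousAt.eventually b] with s c e
    obtain ⟨d, -, g⟩ := (h.mem_iff e.1 (c.1 e.1)).1 e.2
    refine ⟨⟨e.1, trivial⟩, funext (Sum.rec (fun _ => rfl) fun i' => ?_)⟩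
    change s (.inr i) / f (s ∘ .inl) i * _ = _
    rw [show s (.inr i) = d * _ from congrFun g i, mul_div_cancel_right₀ _ c.2]
    exact (congrFun g i').symm

theorem mfdAt (h : Ln π A P) (hw : w ∈ grA A P) (hA : MfdAt A N (w ∘ .inl)) :
    MfdAt (grA A P) (N + 1) w := by
  obtain ⟨f, a, b, c⟩ := h.frame hw.1 hw.2
  obtain ⟨ψ, d, e⟩ := hA.prm
  have := (h.prm d (e ▸ a) (e ▸ c)).mfdAt (n := N + 1) (by simp)
  rwa [e, one_smul, b, Sum.elim_comp_inl_inr] at this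

/-- the tangent space of the graph -/
theorem mem_tn (h : Ln π A P) (hA : MfdAt A N (w ∘ .inl))
    {f : (J → ℂ) → I → ℂ} (hf : AnalyticAt ℂ f (w ∘ .inl)) (h0 : f (w ∘ .inl) = w ∘ .inr)
    (hP : ∀ᶠ s in 𝓝 (w ∘ Sum.inl), s ∈ A → f s ∈ P s) {v : J ⊕ I → ℂ} :
    v ∈ tn (grA A P) w ↔ v ∘ .inl ∈ tn A (w ∘ .inl) ∧
      ∃ c : ℂ, v ∘ .inr = fderiv ℂ f (w ∘ .inl) (v ∘ .inl) + c • (w ∘ .inr) := by
  obtain ⟨ψ, d, e⟩ := hA.prm
  have a := (h.prm d (e ▸ hf) (e ▸ hP)).mem_tn (v := v)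
  have a1 : HasFDerivAt (fun z : (Fin N → ℂ) × ℂ => ψ z.1) _ (0, 1) :=
    HasFDerivAt.comp (f := Prod.fst) _ d.an.differentiableAt.hasFDerivAt hasFDerivAt_fst
  have a2 : HasFDerivAt (fun z : (Fin N → ℂ) × ℂ => z.2 • f (ψ z.1)) _ (0, 1) :=
    hasFDerivAt_snd.fun_smul (HasFDerivAt.comp (f := fun z : (Fin N → ℂ) × ℂ => ψ z.1) _
      (e ▸ hf).differentiableAt.hasFDerivAt a1)
  have a3 : AnalyticAt ℂ (fun z : (Fin N → ℂ) × ℂ => ψ z.1) (0, 1) :=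
    AnalyticAt.comp (f := Prod.fst) d.an analyticAt_fst
  have a4 : AnalyticAt ℂ (fun z : (Fin N → ℂ) × ℂ => z.2 • f (ψ z.1)) (0, 1) :=
    analyticAt_snd.fun_smul (AnalyticAt.comp (f := fun z : (Fin N → ℂ) × ℂ => ψ z.1) (e ▸ hf) a3)
  simp only [fderiv_elim a3 a4, a1.fderiv, a2.fderiv] at a
  rw [e, one_smul, h0, Sum.elim_comp_inl_inr] at a
  rw [a, ← e, d.mem_tn, e]
  refine ⟨fun ⟨u, b⟩ => b ▸ ⟨⟨u.1, rfl⟩, u.2, by simp⟩, fun ⟨⟨u, b⟩, c, g⟩ => ⟨(u, c), ?_⟩⟩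
  rw [← Sum.elim_comp_inl_inr v, g, ← b]
  simp

theorem tn_surj (h : Ln π A P) (hw : w ∈ grA A P) (hA : MfdAt A N (w ∘ .inl)) (u : J → ℂ) :
    u ∈ tn A (w ∘ .inl) ↔ ∃ v ∈ tn (grA A P) w, v ∘ .inl = u := by
  obtain ⟨f, a, b, c⟩ := h.frame hw.1 hw.2
  exact ⟨fun d => ⟨Sum.elim u (fderiv ℂ f (w ∘ .inl) u), (h.mem_tn hA a b c).2
    ⟨d, 0, by simp⟩, rfl⟩, fun ⟨v, d, e⟩ => e ▸ ((h.mem_tn hA a b c).1 d).1⟩

theorem tn_ker (h : Ln π A P) (hw : w ∈ grA A P) (hA : MfdAt A N (w ∘ .inl)) (v : J ⊕ I → ℂ) :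
    v ∈ Submodule.span ℂ {(Sum.elim 0 (w ∘ .inr) : J ⊕ I → ℂ)} ↔
      v ∈ tn (grA A P) w ∧ v ∘ .inl = 0 := by
  obtain ⟨f, a, b, c⟩ := h.frame hw.1 hw.2
  rw [h.mem_tn hA a b c, Submodule.mem_span_singleton]
  refine ⟨fun ⟨d, e⟩ => ?_, fun ⟨⟨_, d, e⟩, g⟩ => ⟨d, ?_⟩⟩
  · have g : v ∘ .inl = 0 := e ▸ funext fun _ => mul_zero _
    exact ⟨⟨g ▸ zero_mem _, d, by rw [g, map_zero, zero_add, ← e]; rfl⟩, g⟩
  · rw [g, map_zero, zero_add] at e
    exact funext (Sum.rec (fun j => (mul_zero _).trans (congrFun g j).symm)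
      fun i => (congrFun e i).symm)

theorem mc (h : Ln π A P) (hA : MC π A) : MC (blP I π) (grA A P) where
  sub w a r := r.rec ((Function.ne_iff.1 (h.ne a.1 a.2)).elim fun i b => ⟨.inr i, rfl, b⟩)
    fun r => (hA.sub a.1 r).elim fun j b => ⟨.inl j, congrArg some b.1, b.2⟩
  inv t ht w a := by
    have b : IsUnit (t ∘ some) := unit_iff.2 fun _ => unit_iff.1 ht _
    exact ⟨hA.inv _ b _ a.1,
      h.smul (hA.inv _ b _ a.1) (h.inv _ b _ a.1 _ a.2) (unit_iff.1 ht none)⟩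
  cl w a b := by
    have c : w ∘ .inl ∈ A := hA.cl _ (map_mem_closure (f := fun s : J ⊕ I → ℂ => s ∘ Sum.inl)
      (by fun_prop) a fun _ d => d.1) fun r => by
        obtain ⟨j | i, d, e⟩ := b (some r)
        exacts [⟨j, Option.some.inj d, e⟩, nomatch d]
    obtain ⟨p, hp⟩ := h.nonempty c
    obtain ⟨f, d, rfl, e⟩ := h.frame c hp
    obtain ⟨i, g⟩ := Function.ne_iff.1 (h.ne c hp)
    have k : ∀ i', w (.inr i') * f (w ∘ .inl) i = w (.inr i) * f (w ∘ .inl) i' := fun i' => by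
      have t : ∀ i i', ContinuousAt (fun s : J ⊕ I → ℂ => s (.inr i') * f (s ∘ .inl) i) w :=
        fun i i' => (continuous_apply _).continuousAt.mul (ContinuousAt.comp
          (g := fun s => f s i) (analyticAt_pi_iff.1 d i).continuousAt (an_inl w).continuousAt)
      refine tendsto_nhds_unique_of_frequently_eq (t i i') (t i' i)
        (((mem_closure_iff_frequently.1 a).and_eventually
          ((an_inl w).continuousAt.eventually e)).mono fun s u => ?_)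
      obtain ⟨c, -, u⟩ := (h.mem_iff u.1.1 (u.2 u.1.1)).1 u.1.2
      rw [show s (.inr i) = c * _ from congrFun u i, show s (.inr i') = c * _ from congrFun u i']
      ring
    have l : w ∘ .inr = (w (.inr i) / f (w ∘ .inl) i) • f (w ∘ .inl) := funext fun i' => by
      rw [Pi.smul_apply, smul_eq_mul, div_mul_eq_mul_div, eq_div_iff g]
      exact k i'
    refine ⟨c, l ▸ h.smul c hp fun m => ?_⟩
    obtain ⟨j | i', u, v⟩ := b none
    · cases u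
    · exact v ((congrFun l i').trans (mul_eq_zero_of_left m _))

/-- **The graph is a smooth projective variety.** -/
theorem pv (h : Ln π A P) (hA : PV π A n) : PV (blP I π) (grA A P) n :=
  ⟨h.mc hA.toMC, fun w a => by
    rw [Fintype.card_option, ← add_assoc]
    exact h.mfdAt a (hA.mfd _ a.1)⟩

theorem tinv {wt : J → S → ℤ} {wt' : I → S → ℤ} (hA : TInv wt A)
    (hP : ∀ τ, IsUnit τ → ∀ y ∈ A, ∀ p ∈ P y, tw wt' τ p ∈ P (tw wt τ y)) :
    TInv (Sum.elim wt wt') (grA A P) := fun τ hτ _ a => ⟨hA τ hτ _ a.1, hP τ hτ _ a.1 _ a.2⟩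

/-- The determinant of the tangent space of the graph. -/
theorem det (h : Ln π A P) (hA : PV π A n) {γ : Option R → ℤ}
    (hq : PlE (Fin (n + Fintype.card R))
      (fun t : {t : Option R → ℂ // IsUnit t} => scl (blP I π) t.1) (grA A P)
      (fun t j => t.1 (some (π j))) (fun w => tn A (w ∘ .inl)) fun t => ∏ r, t.1 r ^ γ r) :
    Det (blP I π) (grA A P) (n + Fintype.card (Option R)) γ := by
  have e : Fintype.card (Unit ⊕ Fin (n + Fintype.card R)) = n + Fintype.card (Option R) := by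
    simp only [Fintype.card_sum, Fintype.card_unique, Fintype.card_fin, Fintype.card_option]
    omega
  have m : ∀ (v : J ⊕ I → ℂ) (s : Unit → J ⊕ I), mn (fun _ : Unit => v) s = v (s ()) :=
    fun v s => Matrix.det_unique _
  refine (PlE.ext (N := Unit) (g₁ := fun _ => 1)
    (V₁ := fun w => Submodule.span ℂ {(Sum.elim 0 (w ∘ .inr) : J ⊕ I → ℂ)})
    ⟨fun w => mn fun _ => Sum.elim 0 (w ∘ .inr), fun w a => isPl_mn
      (linearIndependent_unique_iff.2 fun b => h.ne a.1 a.2 (funext fun i => congrFun b (.inr i)))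
      (by rw [range_const]), fun s w _ => .of_an ?_, fun t w _ s => ?_⟩ hq
    (locPl_tn (e ▸ (h.pv hA).mfd)) .inl (fun _ _ => rfl) (fun t _ => unit_iff.1 t.2 _)
    (fun t => (h.mc hA.toMC).inv _ t.2) (fun t w _ => (h.mc hA.toMC).tn_scl t.2)
    (fun w a => h.tn_ker a (hA.mfd _ a.1)) (fun w a => h.tn_surj a (hA.mfd _ a.1))
    fun _ => (one_mul _).symm).reindex (e.trans (Fintype.card_fin _).symm)
  · simp only [m]
    exact analyticAt_pi_iff.1 (an_elim analyticAt_const (an_inr w)) _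
  · rw [m, m, mul_one, Fintype.prod_unique]
    rcases s () with j | i
    exacts [(mul_zero _).symm, rfl]

theorem det' (h : Ln π A P) (hA : PV π A n) {γ : R → ℤ} (hD : Det π A (n + Fintype.card R) γ) :
    Det (blP I π) (grA A P) (n + Fintype.card (Option R)) fun o => o.elim 0 γ :=
  h.det hA (hD.pull (· ∘ .inl) (fun t => ⟨t.1 ∘ some, unit_iff.2 fun _ => unit_iff.1 t.2 _⟩)
    (fun w _ => .of_an (an_inl w)) (fun _ a => a.1) (fun _ _ _ => rfl) (fun _ _ => rfl)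
    (fun _ _ => rfl) fun t => by simp [Fintype.prod_option])

end Ln

variable (π A P) in
/-- The projection of the graph. -/
def grP : Spc (blP I π) (grA A P) → Spc π A :=
  Quot.map (fun w => ⟨w.1 ∘ .inl, w.2.1⟩) fun _ _ ⟨t, a, b⟩ =>
    ⟨t ∘ some, unit_iff.2 fun _ => unit_iff.1 a _, congrArg (· ∘ Sum.inl) b⟩

theorem grP_mk (w : grA A P) :
    grP π A P (Quo.mk _ w) = Quo.mk (scl π) ⟨w.1 ∘ .inl, w.2.1⟩ := rfl

theorem continuous_grP : Continuous (grP π A P) :=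
  continuous_quot_lift _ (continuous_quot_mk.comp (Continuous.subtype_mk
    (f := fun w : grA A P => w.1 ∘ Sum.inl)
    (continuous_pi fun j => (continuous_apply (Sum.inl j)).comp continuous_subtype_val) _))

theorem Ln.bijective (h : Ln π A P) (hA : MC π A) : Bijective (grP π A P) := by
  refine ⟨Quot.ind fun w => Quot.ind fun w' e => ?_, Quot.ind fun y => ?_⟩
  · obtain ⟨t, a, b⟩ := hA.mk_eq_iff.1 e
    obtain ⟨c, d, f⟩ := (h.mem_iff (hA.inv t a _ w.2.1) (h.inv t a _ w.2.1 _ w.2.2)).1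
      ((show w'.1 ∘ .inl = scl π t (w.1 ∘ .inl) from b) ▸ w'.2.2)
    exact Quot.sound ⟨fun o => o.elim c t, unit_iff.2 fun o => o.rec d (unit_iff.1 a),
      funext (Sum.rec (congrFun b) (congrFun f))⟩
  · obtain ⟨p, hp⟩ := h.nonempty y.2
    exact ⟨Quo.mk _ ⟨Sum.elim y.1 p, y.2, hp⟩, rfl⟩

/-- The graph is homeomorphic to the variety. -/
noncomputable def Ln.homeo (h : Ln π A P) (hA : MC π A) : Spc (blP I π) (grA A P) ≃ₜ Spc π A :=
  have := (h.mc hA).compact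
  have := hA.t2
  Continuous.homeoOfEquivCompactToT2 (f := Equiv.ofBijective _ (h.bijective hA)) continuous_grP

theorem Ln.homeo_apply (h : Ln π A P) (hA : MC π A) (x) : h.homeo hA x = grP π A P x := rfl

end Vale.Agent.P287Q
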