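import Vale.Agent.P287Q.Pv.Slc
import Vale.Agent.P287Q.G.Vir.PlD

/-!
# Local equations, local frames and the determinant of the tangent space of a multicone
-/

set_option linter.unusedSectionVars false

namespace Vale.Agent.P287Q

open Set Function Topology Filter Module P269 P269.Holo P269.Vir

variable {J R K : Type} [Fintype J] [Fintype R] [Fintype K] {π : J → R} {A C : Set (J → ℂ)}
  {N : ℕ} {y : J → ℂ}

theorem tn_ust (h : y ∈ Ust π) : tn (Ust π) y = ⊤ := tn_of_nhds (isOpen_Ust.mem_nhds h)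

/-- Two manifolds of the same dimension, one inside the other, have the same germ. -/
theorem ev_mem_of_sub {W : Type*} [NormedAddCommGroup W] [NormedSpace ℂ W] [FiniteDimensional ℂ W]
    {A C : Set W} {y : W} (h : MfdAt A N y) (h' : MfdAt C N y) (e : ∀ᶠ s in 𝓝 y, s ∈ C → s ∈ A) :
    ∀ᶠ s in 𝓝 y, s ∈ A → s ∈ C := by
  obtain ⟨ψ, a, rfl⟩ := h'.prm
  exact (Prm.of_injective h rfl a.an ((a.ev (p := fun s => s ∈ A)).2 e) a.imm
    (finrank_fin_fun ℂ)).ev.1 a.mem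

/-- Some of the equations have independent differentials and cut out the manifold. -/
theorem exists_loc (h : MfdAt A N y) {Φ : (J → ℂ) → K → ℂ} (hΦ : AnalyticAt ℂ Φ y)
    (h0 : ∀ᶠ s in 𝓝 y, s ∈ A → Φ s = 0) (hj : ∀ v, fderiv ℂ Φ y v = 0 → v ∈ tn A y) :
    ∃ K₁ : Set K, (∀ c : K → ℂ, ∃ η, ∀ k ∈ K₁, fderiv ℂ Φ y η k = c k) ∧
      ∀ᶠ s in 𝓝 y, (∀ k ∈ K₁, Φ s k = 0) → s ∈ A := by
  classical
  obtain ⟨K₁, a, b⟩ := Finite.exists_maximal (toFinite
    {K₁ : Set K | ∀ c : K → ℂ, ∃ η, ∀ k ∈ K₁, fderiv ℂ Φ y η k = c k})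
    ⟨∅, fun _ => ⟨0, fun _ e => e.elim⟩⟩
  refine ⟨K₁, a, ?_⟩
  have d : ∀ η, (∀ k ∈ K₁, fderiv ℂ Φ y η k = 0) → fderiv ℂ Φ y η = 0 := fun η e => by
    by_contra f
    obtain ⟨k, f⟩ := Function.ne_iff.1 f
    refine f (e k (b (y := insert k K₁) (fun c => ?_) (subset_insert _ _) (mem_insert _ _)))
    obtain ⟨η', g⟩ := a c
    refine ⟨η' + ((c k - fderiv ℂ Φ y η' k) / fderiv ℂ Φ y η k) • η, fun k' i => ?_⟩
    rw [map_add, map_smul, Pi.add_apply, Pi.smul_apply, smul_eq_mul]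
    rcases i with rfl | i
    · rw [div_mul_cancel₀ _ f, add_sub_cancel]
    · rw [e k' i, g k' i, mul_zero, add_zero]
  let P : (K → ℂ) →L[ℂ] K₁ → ℂ := .pi fun k => .proj k.1
  have f : fderiv ℂ (fun s => P (Φ s)) y = P.comp (fderiv ℂ Φ y) :=
    (P.hasFDerivAt.comp y hΦ.differentiableAt.hasFDerivAt).fderiv
  have s : Surjective (P.comp (fderiv ℂ Φ y)) := fun c =>
    (a (Function.extend Subtype.val c 0)).imp fun η e => funext fun k =>
      (e k.1 k.2).trans (Subtype.val_injective.extend_apply _ _ _)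
  have r := LinearMap.finrank_range_add_finrank_ker
    (P.comp (fderiv ℂ Φ y) : (J → ℂ) →ₗ[ℂ] K₁ → ℂ)
  rw [LinearMap.range_eq_top.2 s, finrank_top, add_comm, show LinearMap.ker
    (P.comp (fderiv ℂ Φ y) : (J → ℂ) →ₗ[ℂ] K₁ → ℂ) = tn A y from Submodule.ext fun v =>
      ⟨fun e => hj v (d v fun k i => congrFun e ⟨k, i⟩),
        fun e => congrArg P (fderiv_eq_zero h hΦ h0 e) |>.trans P.map_zero⟩, finrank_tn h] at r
  have m : MfdAt {s | P (Φ s) = 0} N y := (MfdAt.univ y).sub (Φ := fun s => P (Φ s))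
    ((P.analyticAt _).comp hΦ) (by rw [h0.self_of_nhds h.1, map_zero]) (fun c _ => by
      obtain ⟨v, rfl⟩ := s c
      have l : HasDerivAt (fun ε : ℂ => y + ε • v) v 0 := by
        simpa using ((hasDerivAt_id (0 : ℂ)).smul_const v).const_add y
      refine Submodule.subset_span ⟨fun ε => y + ε • v, ⟨by fun_prop, by simp,
        .of_forall fun _ => trivial⟩, ?_⟩
      exact ((P.hasFDerivAt.comp y hΦ.differentiableAt.hasFDerivAt).comp_hasDerivAt_of_eq 0 l
        (by simp)).deriv) (.of_forall fun _ => (and_iff_right trivial).symm) r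
  exact (ev_mem_of_sub m h (h0.mono fun s e i => (congrArg P (e i)).trans P.map_zero)).mono
    fun s e i => e (funext fun k => i k.1 k.2)

/-- A holomorphic family of Plücker vectors of the tangent spaces near a point. -/
theorem exists_pl (h : MfdAt A N y) : ∃ Q : (J → ℂ) → (Fin N → J) → ℂ, AnalyticAt ℂ Q y ∧
    ∀ᶠ s in 𝓝 y, s ∈ A → IsPl (tn A s) (Q s) := by
  classical
  obtain ⟨ψ, a, rfl⟩ := h.prm
  obtain ⟨w, w1, w2, w3, w4⟩ := a.exists_inv
  refine ⟨fun s => mn fun i => fderiv ℂ ψ (w s) (Pi.single i 1),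
    analyticAt_pi_iff.2 fun σ => ?_, ?_⟩
  · simp only [mn, Matrix.det_apply', Matrix.of_apply]
    refine Finset.analyticAt_fun_sum _ fun τ _ => analyticAt_const.mul
      (Finset.analyticAt_fun_prod _ fun i _ => ?_)
    exact (((ContinuousLinearMap.proj (R := ℂ) (φ := fun _ : J => ℂ) (σ i)) ∘L
      ContinuousLinearMap.apply ℂ (J → ℂ) (Pi.single (τ i) 1)).analyticAt _).comp
        (AnalyticAt.comp (g := fderiv ℂ ψ) (w2.symm ▸ a.an.fderiv) w1)
  · filter_upwards [w4, (w2 ▸ w1.continuousAt.tendsto).eventually a.eventually] with s b d e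
    have f := d.tn_eq
    rw [b e] at f
    refine isPl_mn ((Pi.linearIndependent_single_one _ ℂ).map'
      (fderiv ℂ ψ (w s) : (Fin N → ℂ) →ₗ[ℂ] J → ℂ) (LinearMap.ker_eq_bot.2 d.imm)) ?_
    rw [f, ← Submodule.map_top, ← (Pi.basisFun ℂ (Fin N)).span_eq, Submodule.map_span, ← range_comp]
    exact congrArg (fun x => Submodule.span ℂ (range x)) (funext fun i => by simp)

/-- A diagonal automorphism of the set acts on the tangent spaces. -/
theorem mem_tn_diag {a : J → ℂ} (h : ∀ s ∈ A, (fun j => a j * s j) ∈ A) {v : J → ℂ}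
    (hv : v ∈ tn A y) : (fun j => a j * v j) ∈ tn A fun j => a j * y j := fun Φ h1 h2 => by
  let D : (J → ℂ) →L[ℂ] J → ℂ := .pi fun j => a j • .proj j
  have := hv (fun s => Φ (D s)) (AnalyticAt.comp (g := Φ) h1 (D.analyticAt y))
    ((D.continuous.continuousAt.eventually h2).mono fun s b c => b (h s c))
  rwa [show (fun s => Φ (D s)) = Φ ∘ D from rfl, fderiv_comp y h1.differentiableAt
    D.differentiableAt, D.fderiv] at this

theorem tn_diag {a : J → ℂ} (ha : ∀ j, a j ≠ 0) (h : ∀ s ∈ A, (fun j => a j * s j) ∈ A)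
    (h' : ∀ s ∈ A, (fun j => (a j)⁻¹ * s j) ∈ A) (η : J → ℂ) :
    η ∈ tn A (fun j => a j * y j) ↔ ∃ v ∈ tn A y, (fun j => a j * v j) = η :=
  ⟨fun e => ⟨_, by simpa only [inv_mul_cancel_left₀ (ha _)] using mem_tn_diag h' e,
    funext fun j => mul_inv_cancel_left₀ (ha j) _⟩, fun ⟨_, e, f⟩ => f ▸ mem_tn_diag h e⟩

theorem isPl_diag {a : J → ℂ} (ha : ∀ j, a j ≠ 0) (h : ∀ s ∈ A, (fun j => a j * s j) ∈ A)
    (h' : ∀ s ∈ A, (fun j => (a j)⁻¹ * s j) ∈ A) {ι : Type} [Fintype ι] [DecidableEq ι]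
    {q : (ι → J) → ℂ} (hq : IsPl (tn A y) q) :
    IsPl (tn A fun j => a j * y j) fun s => (∏ k, a (s k)) * q s :=
  hq.diag ha (tn_diag ha h h')

theorem MC.tn_scl (h : MC π A) {t : R → ℂ} (ht : IsUnit t) (η : J → ℂ) :
    η ∈ tn A (scl π t y) ↔ ∃ v ∈ tn A y, scl π t v = η :=
  tn_diag (fun _ => unit_iff.1 ht _) (h.inv t ht) (h.inv t⁻¹ (unit_inv ht)) η

theorem MC.isPl_scl (h : MC π A) {t : R → ℂ} (ht : IsUnit t) {ι : Type} [Fintype ι]
    [DecidableEq ι] {q : (ι → J) → ℂ} (hq : IsPl (tn A y) q) :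
    IsPl (tn A (scl π t y)) fun s => (∏ k, t (π (s k))) * q s :=
  isPl_diag (fun _ => unit_iff.1 ht _) (h.inv t ht) (h.inv t⁻¹ (unit_inv ht)) hq

theorem TInv.isPl_tw {S : Type} [Fintype S] {wt : J → S → ℤ} (h : TInv wt A) {τ : S → ℂ}
    (hτ : IsUnit τ) {ι : Type} [Fintype ι] [DecidableEq ι] {q : (ι → J) → ℂ}
    (hq : IsPl (tn A y) q) :
    IsPl (tn A (tw wt τ y)) fun s => (∏ k, ∏ i, τ i ^ wt (s k) i) * q s :=
  isPl_diag (fun _ => Finset.prod_ne_zero_iff.2 fun i _ => zpow_ne_zero _ (unit_iff.1 hτ i))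
    (h τ hτ) (fun s a => by
      simp only [← Finset.prod_inv_distrib, ← inv_zpow]
      exact h τ⁻¹ (unit_inv hτ) s a) hq

theorem locPl_tn {ι : Type} [Fintype ι] [DecidableEq ι]
    (h : ∀ y ∈ A, MfdAt A (Fintype.card ι) y) : LocPl ι A (tn A) := fun y hy => by
  obtain ⟨Q, a, b⟩ := exists_pl (h y hy)
  exact ⟨fun s σ => Q s (σ ∘ (Fintype.equivFin ι).symm),
    b.mono fun s c d => (c d).reindex _, fun σ => .of_an (analyticAt_pi_iff.1 a _)⟩

/-- The determinant of the tangent space of the multicone is the line bundle with character `γ`. -/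
def Det (π : J → R) (A : Set (J → ℂ)) (N : ℕ) (γ : R → ℤ) : Prop :=
  PlE (Fin N) (fun t : {t : R → ℂ // IsUnit t} => scl π t.1) A (fun t j => t.1 (π j)) (tn A)
    fun t => ∏ r, t.1 r ^ γ r

end Vale.Agent.P287Q
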